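import Vale.Agent.P042.Defs

/-! P042, module F: Lucier's auxiliary polynomials. -/

namespace Vale.Agent.P042

open Finset Polynomial

namespace AuxPoly

/-- clearing denominators -/
theorem clear_den (P : ℚ[X]) :
    ∃ (s : ℤ) (Q : ℤ[X]), s ≠ 0 ∧ Q.map (Int.castRingHom ℚ) = C (s : ℚ) * P := by
  obtain ⟨b, hb0, hb⟩ := IsLocalization.integerNormalization_spec (nonZeroDivisors ℤ) P
  refine ⟨b, IsLocalization.integerNormalization (nonZeroDivisors ℤ) P,
    nonZeroDivisors.ne_zero hb0, ?_⟩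
  have e : algebraMap ℤ ℚ = Int.castRingHom ℚ := rfl
  rw [← e, hb]
  ext n
  simp

theorem factor_data (h : ℤ[X]) (g : ℚ[X]) (hh : h ≠ 0) (hg : Irreducible g)
    (hgh : g ∣ h.map (Int.castRingHom ℚ)) :
    ∃ (e : ℕ) (g' w A B : ℤ[X]) (c N s : ℤ), 1 ≤ e ∧ e ≤ h.natDegree ∧ c ≠ 0 ∧ N ≠ 0 ∧ s ≠ 0 ∧
      g'.map (Int.castRingHom ℚ) = C (s : ℚ) * g ∧
      C c * h = g' ^ e * w ∧ A * g' + B * (derivative g' * w) = C N := by
  have hinj : Function.Injective (Int.castRingHom ℚ) := RingHom.injective_int _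
  have hinj' := Polynomial.map_injective _ hinj
  have hh' : h.map (Int.castRingHom ℚ) ≠ 0 := by
    rw [Ne, Polynomial.map_eq_zero_iff hinj]; exact hh
  have hfin : FiniteMultiplicity g (h.map (Int.castRingHom ℚ)) :=
    FiniteMultiplicity.of_not_isUnit hg.not_isUnit hh'
  obtain ⟨w, hw1, hw2⟩ := hfin.exists_eq_pow_mul_and_not_dvd
  set e := multiplicity g (h.map (Int.castRingHom ℚ)) with he
  have he1 : 1 ≤ e := by
    by_contra hcon
    have : e = 0 := by omega
    rw [this, pow_zero, one_mul] at hw1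
    exact hw2 (hw1 ▸ hgh)
  have hw0 : w ≠ 0 := by
    rintro rfl
    exact hw2 (dvd_zero _)
  have hdeg : e ≤ h.natDegree := by
    have h1 : (h.map (Int.castRingHom ℚ)).natDegree = h.natDegree :=
      Polynomial.natDegree_map_eq_of_injective hinj h
    have h2 : (g ^ e * w).natDegree = e * g.natDegree + w.natDegree := by
      rw [Polynomial.natDegree_mul (pow_ne_zero _ hg.ne_zero) hw0, Polynomial.natDegree_pow]
    have h3 : 0 < g.natDegree := hg.natDegree_pos
    rw [← h1, hw1, h2]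
    nlinarith
  have hcop : IsCoprime g (derivative g * w) :=
    IsCoprime.mul_right hg.separable (hg.coprime_iff_not_dvd.mpr hw2)
  obtain ⟨a, b, hab⟩ := hcop
  obtain ⟨s1, g', hs1, hg'⟩ := clear_den g
  obtain ⟨s2, w', hs2, hw'⟩ := clear_den w
  obtain ⟨s3, A, hs3, hA⟩ := clear_den a
  obtain ⟨s4, B, hs4, hB⟩ := clear_den b
  refine ⟨e, g', w', C (s4 * s2) * A, C s3 * B, s1 ^ e * s2, s1 * s2 * s3 * s4, s1, he1, hdeg,
    mul_ne_zero (pow_ne_zero _ hs1) hs2,
    mul_ne_zero (mul_ne_zero (mul_ne_zero hs1 hs2) hs3) hs4, hs1, hg', ?_, ?_⟩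
  · apply hinj'
    simp only [Polynomial.map_mul, Polynomial.map_pow, Polynomial.map_C, Int.coe_castRingHom]
    rw [hg', hw', hw1, mul_pow]
    push_cast
    simp only [map_mul, map_pow]
    ring
  · apply hinj'
    simp only [Polynomial.map_mul, Polynomial.map_add, Polynomial.map_C, Int.coe_castRingHom,
      ← Polynomial.derivative_map]
    rw [hg', hw', hA, hB, derivative_C_mul]
    push_cast
    simp only [map_mul]
    linear_combination (C (s1 : ℚ) * C (s2 : ℚ) * C (s3 : ℚ) * C (s4 : ℚ)) * hab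

theorem local_factor (p : ℕ) [Fact p.Prime] (h g w A B : ℤ[X]) (e : ℕ) (c N : ℤ) (hc : c ≠ 0)
    (he : 1 ≤ e) (h1 : C c * h = g ^ e * w) (h2 : A * g + B * (derivative g * w) = C N)
    (z : ℤ_[p]) (hz : (g.map (Int.castRingHom ℤ_[p])).eval z = 0) :
    ∃ G : ℤ_[p][X], h.map (Int.castRingHom ℤ_[p]) = (X - C z) ^ e * G ∧
      G.eval z ∣ (N : ℤ_[p]) ^ e := by
  obtain ⟨g1, hg1⟩ := dvd_iff_isRoot.mpr hz
  have hq : ((X - C z) ^ e : ℤ_[p][X]).Monic := (monic_X_sub_C z).pow e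
  have h3 : C (c : ℤ_[p]) * h.map (Int.castRingHom ℤ_[p]) =
      (X - C z) ^ e * (g1 ^ e * w.map (Int.castRingHom ℤ_[p])) := by
    have := congrArg (Polynomial.map (Int.castRingHom ℤ_[p])) h1
    simp only [Polynomial.map_mul, Polynomial.map_pow, Polynomial.map_C, Int.coe_castRingHom] at this
    rw [this, hg1, mul_pow]
    ring
  have hdvd : (X - C z) ^ e ∣ h.map (Int.castRingHom ℤ_[p]) := by
    rw [← modByMonic_eq_zero_iff_dvd hq]
    have h4 : (C (c : ℤ_[p]) * h.map (Int.castRingHom ℤ_[p])) %ₘ ((X - C z) ^ e) = 0 := by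
      rw [modByMonic_eq_zero_iff_dvd hq, h3]
      exact dvd_mul_right _ _
    rw [← smul_eq_C_mul, smul_modByMonic] at h4
    rcases smul_eq_zero.mp h4 with h5 | h5
    · exact absurd (by exact_mod_cast h5) hc
    · exact h5
  obtain ⟨G, hG⟩ := hdvd
  refine ⟨G, hG, ?_⟩
  have h5 : C (c : ℤ_[p]) * G = g1 ^ e * w.map (Int.castRingHom ℤ_[p]) := by
    have : (X - C z) ^ e * (C (c : ℤ_[p]) * G) =
        (X - C z) ^ e * (g1 ^ e * w.map (Int.castRingHom ℤ_[p])) := by
      rw [← h3, hG]; ring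
    exact mul_left_cancel₀ hq.ne_zero this
  have h6 : (c : ℤ_[p]) * G.eval z =
      (g1.eval z) ^ e * (w.map (Int.castRingHom ℤ_[p])).eval z := by
    have := congrArg (Polynomial.eval z) h5
    simpa using this
  have h7 : ((derivative g).map (Int.castRingHom ℤ_[p])).eval z = g1.eval z := by
    rw [← Polynomial.derivative_map, hg1, derivative_mul]
    simp
  have h8 : (B.map (Int.castRingHom ℤ_[p])).eval z * (g1.eval z *
      (w.map (Int.castRingHom ℤ_[p])).eval z) = (N : ℤ_[p]) := by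
    have := congrArg (fun P => (Polynomial.map (Int.castRingHom ℤ_[p]) P).eval z) h2
    simp only [Polynomial.map_mul, Polynomial.map_add, Polynomial.map_C, Int.coe_castRingHom,
      Polynomial.eval_add, Polynomial.eval_mul, Polynomial.eval_C, hz, mul_zero, zero_add, h7]
      at this
    exact this
  obtain ⟨e', rfl⟩ : ∃ e', e = e' + 1 := ⟨e - 1, by omega⟩
  rw [← h8]
  refine ⟨(B.map (Int.castRingHom ℤ_[p])).eval z ^ (e' + 1) *
    (w.map (Int.castRingHom ℤ_[p])).eval z ^ e' * c, ?_⟩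
  linear_combination (-(B.map (Int.castRingHom ℤ_[p])).eval z ^ (e' + 1) *
    (w.map (Int.castRingHom ℤ_[p])).eval z ^ e') * h6

/-- the affine substitution -/
noncomputable def aff (r U : ℤ) : ℤ[X] := C r + C U * X

theorem local_main (p : ℕ) [Fact p.Prime] (h : ℤ[X]) (z : ℤ_[p]) (e : ℕ) (he : 1 ≤ e)
    (G : ℤ_[p][X]) (hG : h.map (Int.castRingHom ℤ_[p]) = (X - C z) ^ e * G) (w : ℕ) (r U : ℤ)
    (hr : (p : ℤ_[p]) ^ w ∣ (r : ℤ_[p]) - z) :
    (∀ j, (p : ℤ) ^ (e * w) ∣ (h.comp (aff r ((p : ℤ) ^ w * U))).coeff j) ∧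
    ∀ c : ℕ, ¬ (p : ℤ) ∣ U →
      (∀ j, 1 ≤ j → (p : ℤ) ^ (e * w + c) ∣ (h.comp (aff r ((p : ℤ) ^ w * U))).coeff j) →
      (p : ℤ_[p]) ^ c ∣ G.eval z := by
  obtain ⟨s, hs⟩ := hr
  obtain ⟨L, hL⟩ : ∃ L : ℤ_[p][X], L = C (r : ℤ_[p]) + C ((p : ℤ_[p]) ^ w * U) * X := ⟨_, rfl⟩
  obtain ⟨K, hK⟩ : ∃ K : ℤ_[p][X], K = (C s + C (U : ℤ_[p]) * X) ^ e * G.comp L := ⟨_, rfl⟩
  have h1 : (h.comp (aff r ((p : ℤ) ^ w * U))).map (Int.castRingHom ℤ_[p]) =
      C ((p : ℤ_[p]) ^ (e * w)) * K := by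
    have e1 : (aff r ((p : ℤ) ^ w * U)).map (Int.castRingHom ℤ_[p]) = L := by
      rw [hL, aff]
      simp only [Polynomial.map_mul, Polynomial.map_add, Polynomial.map_C, Int.coe_castRingHom,
        Polynomial.map_X]
      push_cast
      rfl
    have e2 : L - C z = C ((p : ℤ_[p]) ^ w) * (C s + C (U : ℤ_[p]) * X) := by
      have : (C (r : ℤ_[p]) : ℤ_[p][X]) - C z = C ((p : ℤ_[p]) ^ w) * C s := by
        rw [← C_sub, hs, C_mul]
      rw [hL, C_mul]
      linear_combination this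
    rw [Polynomial.map_comp, e1, hG, mul_comp, pow_comp, sub_comp, X_comp, C_comp, e2, mul_pow,
      hK, ← C_pow, ← pow_mul, mul_comm w e, mul_assoc]
  have h2 : ∀ j, (((h.comp (aff r ((p : ℤ) ^ w * U))).coeff j : ℤ) : ℤ_[p]) =
      (p : ℤ_[p]) ^ (e * w) * K.coeff j := by
    intro j
    have := congrArg (fun P => Polynomial.coeff P j) h1
    simpa only [Polynomial.coeff_map, Int.coe_castRingHom, Polynomial.coeff_C_mul] using this
  have hp0 : (p : ℤ_[p]) ≠ 0 := PadicInt.prime_p.ne_zero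
  constructor
  · intro j
    have h3 : (p : ℤ_[p]) ^ (e * w) ∣ (((h.comp (aff r ((p : ℤ) ^ w * U))).coeff j : ℤ) : ℤ_[p]) := by
      rw [h2 j]; exact dvd_mul_right _ _
    exact (PadicInt.pow_p_dvd_int_iff _ _).mp h3
  · intro c hU hc
    have h3 : ∀ j, 1 ≤ j → (p : ℤ_[p]) ^ c ∣ K.coeff j := by
      intro j hj
      have h4 := (PadicInt.pow_p_dvd_int_iff (p := p) _ _).mpr (hc j hj)
      rw [h2 j, pow_add] at h4
      exact (mul_dvd_mul_iff_left (pow_ne_zero _ hp0)).mp h4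
    have hUu : IsUnit (U : ℤ_[p]) := by
      rw [PadicInt.isUnit_iff]
      have h5 : ¬ ‖((U : ℤ) : ℤ_[p])‖ < 1 := by
        rw [PadicInt.norm_int_lt_one_iff_dvd]; exact hU
      exact le_antisymm (PadicInt.norm_le_one _) (not_lt.mp h5)
    obtain ⟨V, hV⟩ := hUu.exists_right_inv
    obtain ⟨T, hT⟩ : ∃ T : ℤ_[p][X], T = C V * (X - C s) := ⟨_, rfl⟩
    have h4 : K.comp T = X ^ e * G.comp (C z + C ((p : ℤ_[p]) ^ w) * X) := by
      have e1 : C (U : ℤ_[p]) * T = X - C s := by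
        rw [hT, ← mul_assoc, ← C_mul, hV, C_1, one_mul]
      have e2 : (C s + C (U : ℤ_[p]) * X).comp T = X := by
        simp only [add_comp, mul_comp, C_comp, X_comp, e1]
        ring
      have e3 : L.comp T = C z + C ((p : ℤ_[p]) ^ w) * X := by
        have : (C (r : ℤ_[p]) : ℤ_[p][X]) - C z = C ((p : ℤ_[p]) ^ w) * C s := by
          rw [← C_sub, hs, C_mul]
        rw [hL]
        simp only [add_comp, mul_comp, C_comp, X_comp, C_mul]
        rw [mul_assoc, e1]
        linear_combination this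
      rw [hK, mul_comp, pow_comp, e2, comp_assoc, e3]
    obtain ⟨K1, hK1⟩ : ∃ K1 : ℤ_[p][X], K = C (K.coeff 0) + C ((p : ℤ_[p]) ^ c) * K1 := by
      have h5 : C ((p : ℤ_[p]) ^ c) ∣ K - C (K.coeff 0) := by
        rw [C_dvd_iff_dvd_coeff]
        intro j
        rw [coeff_sub, coeff_C]
        by_cases hj : j = 0
        · simp [hj]
        · rw [if_neg hj, sub_zero]
          exact h3 j (by omega)
      obtain ⟨K1, hK1⟩ := h5
      exact ⟨K1, by rw [← hK1]; ring⟩
    have h5 : (K.comp T).coeff e = (p : ℤ_[p]) ^ c * (K1.comp T).coeff e := by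
      rw [hK1, add_comp, mul_comp, C_comp, C_comp, coeff_add, coeff_C, if_neg (by omega), zero_add,
        coeff_C_mul]
    have h6 : (K.comp T).coeff e = G.eval z := by
      rw [h4, coeff_X_pow_mul', if_pos le_rfl, Nat.sub_self, coeff_zero_eq_eval_zero, eval_comp]
      simp
    rw [← h6, h5]
    exact dvd_mul_right _ _

theorem exists_root (h : ℤ[X]) (hint : Intersective h) (p : ℕ) [Fact p.Prime] :
    ∃ z : ℤ_[p], (h.map (Int.castRingHom ℤ_[p])).eval z = 0 := by
  have hp : p.Prime := Fact.out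
  have h1 : ∀ n : ℕ, ∃ t : ℤ, ((p ^ n : ℕ) : ℤ) ∣ h.eval t := fun n =>
    hint (p ^ n) (Nat.one_le_pow _ _ hp.pos)
  choose t ht using h1
  obtain ⟨z, φ, hφ, hz⟩ := CompactSpace.tendsto_subseq (fun n => ((t n : ℤ) : ℤ_[p]))
  refine ⟨z, ?_⟩
  have h2 : Filter.Tendsto (fun n => (h.map (Int.castRingHom ℤ_[p])).eval
      (((t (φ n) : ℤ) : ℤ_[p]))) Filter.atTop
      (nhds ((h.map (Int.castRingHom ℤ_[p])).eval z)) :=
    ((h.map (Int.castRingHom ℤ_[p])).continuous.tendsto z).comp hz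
  have h3 : ∀ n, ‖(h.map (Int.castRingHom ℤ_[p])).eval (((t (φ n) : ℤ) : ℤ_[p]))‖ ≤
      (p : ℝ) ^ (-((φ n : ℕ) : ℤ)) := by
    intro n
    rw [Polynomial.eval_intCast_map]
    simp only [Int.coe_castRingHom]
    rw [PadicInt.norm_int_le_pow_iff_dvd]
    exact_mod_cast ht (φ n)
  have h4 : Filter.Tendsto (fun n => (p : ℝ) ^ (-((φ n : ℕ) : ℤ))) Filter.atTop (nhds 0) := by
    have h5 : Filter.Tendsto (fun n : ℕ => ((p : ℝ)⁻¹) ^ n) Filter.atTop (nhds 0) :=
      tendsto_pow_atTop_nhds_zero_of_lt_one (by positivity)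
        (inv_lt_one_of_one_lt₀ (by exact_mod_cast hp.one_lt))
    have h6 := h5.comp hφ.tendsto_atTop
    refine h6.congr (fun n => ?_)
    simp [zpow_neg]
  have h5 := squeeze_zero_norm h3 h4
  exact tendsto_nhds_unique h2 h5

/-- uniform bound for the leading Taylor coefficients at the roots -/
theorem uniform (h : ℤ[X]) (hh : h ≠ 0) :
    ∃ N : ℤ, N ≠ 0 ∧ ∀ (p : ℕ) [Fact p.Prime] (z : ℤ_[p]),
      (h.map (Int.castRingHom ℤ_[p])).eval z = 0 →
      ∃ (e : ℕ) (G : ℤ_[p][X]), 1 ≤ e ∧ e ≤ h.natDegree ∧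
        h.map (Int.castRingHom ℤ_[p]) = (X - C z) ^ e * G ∧ G.eval z ∣ (N : ℤ_[p]) := by
  classical
  have hinj : Function.Injective (Int.castRingHom ℚ) := RingHom.injective_int _
  have hh' : h.map (Int.castRingHom ℚ) ≠ 0 := by
    rw [Ne, Polynomial.map_eq_zero_iff hinj]; exact hh
  obtain ⟨fs, hfs⟩ : ∃ fs, fs = UniqueFactorizationMonoid.factors (h.map (Int.castRingHom ℚ)) :=
    ⟨_, rfl⟩
  have hirr : ∀ g ∈ fs, Irreducible g := by
    rw [hfs]; exact fun g hg => UniqueFactorizationMonoid.irreducible_of_factor g hg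
  have hdvd : ∀ g ∈ fs, g ∣ h.map (Int.castRingHom ℚ) := by
    rw [hfs]; exact fun g hg => UniqueFactorizationMonoid.dvd_of_mem_factors hg
  have hprod : Associated fs.prod (h.map (Int.castRingHom ℚ)) := by
    rw [hfs]; exact UniqueFactorizationMonoid.factors_prod hh'
  have hdata : ∀ g : ℚ[X], ∃ (e : ℕ) (g' w A B : ℤ[X]) (c N s : ℤ), N ≠ 0 ∧ (g ∈ fs →
      1 ≤ e ∧ e ≤ h.natDegree ∧ c ≠ 0 ∧ s ≠ 0 ∧
      g'.map (Int.castRingHom ℚ) = C (s : ℚ) * g ∧
      C c * h = g' ^ e * w ∧ A * g' + B * (derivative g' * w) = C N) := by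
    intro g
    by_cases hg : g ∈ fs
    · obtain ⟨e, g', w, A, B, c, N, s, h1, h2, h3, h4, h5, h6, h7, h8⟩ :=
        factor_data h g hh (hirr g hg) (hdvd g hg)
      exact ⟨e, g', w, A, B, c, N, s, h4, fun _ => ⟨h1, h2, h3, h5, h6, h7, h8⟩⟩
    · exact ⟨0, 0, 0, 0, 0, 0, 1, 0, one_ne_zero, fun h => absurd h hg⟩
  choose e g' w A B c N s hN hdata using hdata
  refine ⟨∏ g ∈ fs.toFinset, (N g) ^ (e g), ?_, ?_⟩
  · exact Finset.prod_ne_zero_iff.mpr (fun g _ => pow_ne_zero _ (hN g))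
  · intro p _ z hz
    have hz' : ((h.map (Int.castRingHom ℚ)).map (Rat.castHom ℚ_[p])).eval (z : ℚ_[p]) = 0 := by
      have e1 : (h.map (Int.castRingHom ℚ)).map (Rat.castHom ℚ_[p]) =
          (h.map (Int.castRingHom ℤ_[p])).map (PadicInt.Coe.ringHom) := by
        rw [Polynomial.map_map, Polynomial.map_map]
        congr 1
      rw [e1]
      have e2 : (z : ℚ_[p]) = PadicInt.Coe.ringHom z := rfl
      rw [e2, Polynomial.eval_map_apply, hz, map_zero]
    obtain ⟨g, hg, hgz⟩ : ∃ g ∈ fs, (g.map (Rat.castHom ℚ_[p])).eval (z : ℚ_[p]) = 0 := by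
      obtain ⟨v, hv⟩ := hprod
      rw [← hv, Polynomial.map_mul, Polynomial.eval_mul] at hz'
      rcases mul_eq_zero.mp hz' with h1 | h1
      · have e1 : ((fs.prod).map (Rat.castHom ℚ_[p])).eval (z : ℚ_[p]) =
            (fs.map (fun g => (g.map (Rat.castHom ℚ_[p])).eval (z : ℚ_[p]))).prod := by
          have := map_multiset_prod ((Polynomial.evalRingHom (z : ℚ_[p])).comp
            (Polynomial.mapRingHom (Rat.castHom ℚ_[p]))) fs
          simpa using this
        rw [e1, Multiset.prod_eq_zero_iff, Multiset.mem_map] at h1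
        exact h1
      · exfalso
        have hu : IsUnit (((v : ℚ[X]).map (Rat.castHom ℚ_[p])).eval (z : ℚ_[p])) := by
          have := (v.isUnit).map ((Polynomial.evalRingHom (z : ℚ_[p])).comp
            (Polynomial.mapRingHom (Rat.castHom ℚ_[p])))
          simpa using this
        rw [h1] at hu
        exact not_isUnit_zero hu
    obtain ⟨h1, h2, h3, h4, h5, h6, h7⟩ := hdata g hg
    have hgz' : ((g' g).map (Int.castRingHom ℤ_[p])).eval z = 0 := by
      have e1 : (((g' g).map (Int.castRingHom ℚ)).map (Rat.castHom ℚ_[p])).eval (z : ℚ_[p]) =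
          0 := by
        rw [h5, Polynomial.map_mul, Polynomial.eval_mul, hgz, mul_zero]
      have e2 : ((g' g).map (Int.castRingHom ℚ)).map (Rat.castHom ℚ_[p]) =
          ((g' g).map (Int.castRingHom ℤ_[p])).map (PadicInt.Coe.ringHom) := by
        rw [Polynomial.map_map, Polynomial.map_map]
        congr 1
      have e3 : (z : ℚ_[p]) = PadicInt.Coe.ringHom z := rfl
      rw [e2, e3, Polynomial.eval_map_apply] at e1
      exact PadicInt.coe_eq_zero.mp e1
    obtain ⟨G, hG1, hG2⟩ := local_factor p h (g' g) (w g) (A g) (B g) (e g) (c g) (N g) h3 h1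
      h6 h7 z hgz'
    refine ⟨e g, G, h1, h2, hG1, hG2.trans ?_⟩
    have h8 : (N g) ^ (e g) ∣ ∏ g ∈ fs.toFinset, (N g) ^ (e g) :=
      Finset.dvd_prod_of_mem (fun g => (N g) ^ (e g)) (Multiset.mem_toFinset.mpr hg)
    have h9 := map_dvd (Int.castRingHom ℤ_[p]) h8
    simpa using h9

/-- integer-level local data -/
theorem local_data (h : ℤ[X]) (hh : h ≠ 0) (hint : Intersective h) :
    ∃ (N : ℤ) (e : ℕ → ℕ) (ζ : ℕ → ℕ → ℕ), N ≠ 0 ∧
      (∀ p : ℕ, p.Prime → 1 ≤ e p ∧ e p ≤ h.natDegree) ∧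
      (∀ p : ℕ, p.Prime → ∀ m n, m ≤ n → ((p : ℤ) ^ m) ∣ (ζ p n : ℤ) - ζ p m) ∧
      (∀ p : ℕ, p.Prime → ∀ (w : ℕ) (r U : ℤ), (p : ℤ) ^ w ∣ r - ζ p w →
        (∀ j, (p : ℤ) ^ (e p * w) ∣ (h.comp (aff r ((p : ℤ) ^ w * U))).coeff j) ∧
        ∀ c : ℕ, ¬ (p : ℤ) ∣ U →
          (∀ j, 1 ≤ j → (p : ℤ) ^ (e p * w + c) ∣ (h.comp (aff r ((p : ℤ) ^ w * U))).coeff j) →
          (p : ℤ) ^ c ∣ N) := by
  obtain ⟨N, hN, hu⟩ := uniform h hh
  have hdata : ∀ p : ℕ, ∃ (e : ℕ) (ζ : ℕ → ℕ), p.Prime → (1 ≤ e ∧ e ≤ h.natDegree) ∧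
      (∀ m n, m ≤ n → ((p : ℤ) ^ m) ∣ (ζ n : ℤ) - ζ m) ∧
      (∀ (w : ℕ) (r U : ℤ), (p : ℤ) ^ w ∣ r - ζ w →
        (∀ j, (p : ℤ) ^ (e * w) ∣ (h.comp (aff r ((p : ℤ) ^ w * U))).coeff j) ∧
        ∀ c : ℕ, ¬ (p : ℤ) ∣ U →
          (∀ j, 1 ≤ j → (p : ℤ) ^ (e * w + c) ∣ (h.comp (aff r ((p : ℤ) ^ w * U))).coeff j) →
          (p : ℤ) ^ c ∣ N) := by
    intro p
    by_cases hp : p.Prime
    · have : Fact p.Prime := ⟨hp⟩
      obtain ⟨z, hz⟩ := exists_root h hint p
      obtain ⟨e, G, he1, he2, hG1, hG2⟩ := hu p z hz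
      refine ⟨e, fun n => z.appr n, fun _ => ⟨⟨he1, he2⟩, ?_, ?_⟩⟩
      · intro m n hmn
        have h1 := z.dvd_appr_sub_appr m n hmn
        have h2 := z.appr_mono hmn
        have h3 : ((p ^ m : ℕ) : ℤ) ∣ ((z.appr n - z.appr m : ℕ) : ℤ) := by exact_mod_cast h1
        rw [Nat.cast_sub h2] at h3
        exact_mod_cast h3
      · intro w r U hr
        have h1 : (p : ℤ_[p]) ^ w ∣ (r : ℤ_[p]) - z := by
          have h2 := (PadicInt.pow_p_dvd_int_iff (p := p) _ _).mpr hr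
          have h3 := Ideal.mem_span_singleton.mp (z.appr_spec w)
          have h4 := dvd_sub h2 h3
          have h5 : (((r - (z.appr w : ℤ) : ℤ)) : ℤ_[p]) - (z - (z.appr w : ℤ_[p])) =
              (r : ℤ_[p]) - z := by
            push_cast; ring
          rwa [h5] at h4
        obtain ⟨h2, h3⟩ := local_main p h z e he1 G hG1 w r U h1
        refine ⟨h2, fun c hU hc => ?_⟩
        exact (PadicInt.pow_p_dvd_int_iff (p := p) _ _).mp ((h3 c hU hc).trans hG2)
    · exact ⟨0, fun _ => 0, fun h => absurd h hp⟩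
  choose e ζ hd using hdata
  exact ⟨N, e, ζ, hN, fun p hp => (hd p hp).1, fun p hp => (hd p hp).2.1,
    fun p hp => (hd p hp).2.2⟩

/-- divisibility from the local parts -/
theorem dvd_of_local (u : ℕ) (hu : 1 ≤ u) (d : ℤ)
    (h : ∀ p ∈ u.primeFactors, (p : ℤ) ^ (u.factorization p) ∣ d) : (u : ℤ) ∣ d := by
  have h1 : u = ∏ p ∈ u.primeFactors, p ^ (u.factorization p) := by
    conv_lhs => rw [← Nat.prod_factorization_pow_eq_self (by omega : u ≠ 0)]
    rfl
  rw [h1]
  push_cast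
  apply Finset.prod_dvd_of_coprime
  · intro p hp q hq hpq
    have h2 : Nat.Coprime p q := (Nat.coprime_primes (Nat.prime_of_mem_primeFactors hp)
      (Nat.prime_of_mem_primeFactors hq)).mpr hpq
    exact (Nat.isCoprime_iff_coprime.mpr h2).pow
  · exact h

/-- Chinese remainder theorem -/
theorem exists_r (ζ : ℕ → ℕ → ℕ) (u : ℕ) (hu : 1 ≤ u) :
    ∃ r : ℤ, -(u : ℤ) < r ∧ r ≤ 0 ∧
      ∀ p ∈ u.primeFactors, (p : ℤ) ^ (u.factorization p) ∣ r - ζ p (u.factorization p) := by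
  have hcop : (u.primeFactors : Set ℕ).Pairwise
      (Function.onFun Nat.Coprime (fun p => p ^ (u.factorization p))) := by
    intro p hp q hq hpq
    have h2 : Nat.Coprime p q := (Nat.coprime_primes (Nat.prime_of_mem_primeFactors hp)
      (Nat.prime_of_mem_primeFactors hq)).mpr hpq
    exact Nat.Coprime.pow _ _ h2
  obtain ⟨x, hx⟩ := Nat.chineseRemainderOfFinset (fun p => ζ p (u.factorization p))
    (fun p => p ^ (u.factorization p)) u.primeFactors
    (fun p hp => pow_ne_zero _ (Nat.prime_of_mem_primeFactors hp).ne_zero) hcop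
  have hu0 : (0 : ℤ) < u := by exact_mod_cast hu
  refine ⟨-((-(x : ℤ)) % u), ?_, ?_, ?_⟩
  · have := Int.emod_lt_of_pos (-(x : ℤ)) hu0
    omega
  · have := Int.emod_nonneg (-(x : ℤ)) hu0.ne'
    omega
  · intro p hp
    have h1 : (u : ℤ) ∣ -((-(x : ℤ)) % u) - x := by
      have := Int.emod_add_mul_ediv (-(x : ℤ)) u
      exact ⟨(-(x : ℤ)) / u, by linarith⟩
    have h2 : (p : ℤ) ^ (u.factorization p) ∣ (u : ℤ) := by
      exact_mod_cast Nat.ordProj_dvd u p
    have h3 : (p : ℤ) ^ (u.factorization p) ∣ (x : ℤ) - ζ p (u.factorization p) := by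
      have h4 := hx p hp
      have h5 := (Nat.modEq_iff_dvd.mp h4.symm)
      exact_mod_cast h5
    have h6 := dvd_add (h2.trans h1) h3
    have h7 : -((-(x : ℤ)) % u) - x + (x - ζ p (u.factorization p)) =
      -((-(x : ℤ)) % u) - ζ p (u.factorization p) := by ring
    rwa [h7] at h6

theorem comp_aff_coeff (h : ℤ[X]) (r U : ℤ) (j : ℕ) :
    (h.comp (aff r U)).coeff j =
      ∑ i ∈ range (h.natDegree + 1), h.coeff i * (r ^ (i - j) * (i.choose j : ℤ)) * U ^ j := by
  have h1 : aff r U = (X + C r).comp (C U * X) := by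
    rw [aff, add_comp, X_comp, C_comp]; ring
  rw [h1, ← comp_assoc, comp_C_mul_X_coeff, Polynomial.comp, eval₂_eq_sum_range, finsetSum_coeff,
    Finset.sum_mul]
  apply Finset.sum_congr rfl
  intro i _
  rw [coeff_C_mul, coeff_X_add_C_pow]

theorem coeff_bound (h : ℤ[X]) (r : ℤ) (u : ℕ) (hu : 1 ≤ u) (hr : |r| ≤ u) (j : ℕ) :
    |(h.comp (aff r u)).coeff j| ≤
      (2 ^ h.natDegree * ∑ i ∈ range (h.natDegree + 1), |h.coeff i|) * (u : ℤ) ^ h.natDegree := by
  rw [comp_aff_coeff, Finset.mul_sum, Finset.sum_mul]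
  refine (Finset.abs_sum_le_sum_abs _ _).trans (Finset.sum_le_sum (fun i hi => ?_))
  have hik : i ≤ h.natDegree := by
    have := Finset.mem_range.mp hi; omega
  have hu' : (1 : ℤ) ≤ u := by exact_mod_cast hu
  rw [abs_mul, abs_mul, abs_mul, abs_pow, abs_pow, Nat.abs_cast, Nat.abs_cast]
  by_cases hj : j ≤ i
  · have e1 : |r| ^ (i - j) * (u : ℤ) ^ j ≤ (u : ℤ) ^ h.natDegree := by
      calc |r| ^ (i - j) * (u : ℤ) ^ j ≤ (u : ℤ) ^ (i - j) * (u : ℤ) ^ j := by gcongr
        _ = (u : ℤ) ^ i := by rw [← pow_add]; congr 1; omega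
        _ ≤ (u : ℤ) ^ h.natDegree := pow_le_pow_right₀ hu' hik
    have e2 : ((i.choose j : ℕ) : ℤ) ≤ 2 ^ h.natDegree := by
      have : i.choose j ≤ 2 ^ h.natDegree :=
        (Nat.choose_le_two_pow i j).trans (Nat.pow_le_pow_right (by norm_num) hik)
      exact_mod_cast this
    calc |h.coeff i| * (|r| ^ (i - j) * ((i.choose j : ℕ) : ℤ)) * (u : ℤ) ^ j
        = |h.coeff i| * (((i.choose j : ℕ) : ℤ) * (|r| ^ (i - j) * (u : ℤ) ^ j)) := by ring
      _ ≤ |h.coeff i| * (2 ^ h.natDegree * (u : ℤ) ^ h.natDegree) := by gcongr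
      _ = 2 ^ h.natDegree * |h.coeff i| * (u : ℤ) ^ h.natDegree := by ring
  · rw [Nat.choose_eq_zero_of_lt (by omega)]
    simp only [Nat.cast_zero, mul_zero, zero_mul]
    positivity

theorem eval_bound (h : ℤ[X]) (y Y : ℤ) (hY : 1 ≤ Y) (hy : |y| ≤ Y) :
    |h.eval y| ≤ (∑ i ∈ range (h.natDegree + 1), |h.coeff i|) * Y ^ h.natDegree := by
  rw [eval_eq_sum_range, Finset.sum_mul]
  refine (Finset.abs_sum_le_sum_abs _ _).trans (Finset.sum_le_sum (fun i hi => ?_))
  have hik : i ≤ h.natDegree := by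
    have := Finset.mem_range.mp hi; omega
  rw [abs_mul, abs_pow]
  have e1 : |y| ^ i ≤ Y ^ h.natDegree :=
    calc |y| ^ i ≤ Y ^ i := by gcongr
      _ ≤ _ := pow_le_pow_right₀ hY hik
  gcongr

theorem pow_diff (y U : ℤ) (hy : 0 ≤ y) (hU : 0 ≤ U) :
    ∀ i : ℕ, (y + U) ^ (i + 1) - y ^ (i + 1) ≤ (i + 1) * U * (y + U) ^ i
  | 0 => by simp
  | i + 1 => by
    have ih := pow_diff y U hy hU i
    have e1 : y ^ (i + 1) ≤ (y + U) ^ (i + 1) := by
      apply pow_le_pow_left₀ hy; omega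
    have e2 : (y + U) ^ (i + 1 + 1) - y ^ (i + 1 + 1) =
      (y + U) * ((y + U) ^ (i + 1) - y ^ (i + 1)) + U * y ^ (i + 1) := by ring
    rw [e2]
    calc (y + U) * ((y + U) ^ (i + 1) - y ^ (i + 1)) + U * y ^ (i + 1)
        ≤ (y + U) * ((i + 1) * U * (y + U) ^ i) + U * (y + U) ^ (i + 1) := by gcongr
      _ = ((i + 1 : ℕ) + 1) * U * (y + U) ^ (i + 1) := by push_cast; ring

theorem diff_bound (h : ℤ[X]) (y : ℤ) (u : ℕ) (n : ℤ) (hu : 1 ≤ u) (hn : 1 ≤ n) (hy : 0 ≤ y)
    (hy2 : y ≤ u * n) (hdeg : 1 ≤ h.natDegree) :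
    |h.eval (y + u) - h.eval y| ≤
      ((h.natDegree * 2 ^ h.natDegree) * ∑ i ∈ range (h.natDegree + 1), |h.coeff i|) *
        (u : ℤ) ^ h.natDegree * n ^ (h.natDegree - 1) := by
  have hu' : (1 : ℤ) ≤ u := by exact_mod_cast hu
  rw [eval_eq_sum_range, eval_eq_sum_range, ← Finset.sum_sub_distrib, Finset.mul_sum,
    Finset.sum_mul, Finset.sum_mul]
  refine (Finset.abs_sum_le_sum_abs _ _).trans (Finset.sum_le_sum (fun i hi => ?_))
  have hik : i ≤ h.natDegree := by
    have := Finset.mem_range.mp hi; omega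
  rw [← mul_sub, abs_mul]
  cases i with
  | zero =>
    simp only [pow_zero, sub_self, abs_zero, mul_zero]
    positivity
  | succ i =>
    have e0 : 0 ≤ (y + u) ^ (i + 1) - y ^ (i + 1) := by
      rw [sub_nonneg]
      apply pow_le_pow_left₀ hy; omega
    have e1 := pow_diff y u hy (by omega) i
    have e3 : (y + u) ≤ 2 * (u * n) := by nlinarith
    have e4 : (y + u) ^ i ≤ 2 ^ i * ((u : ℤ) ^ i * n ^ i) := by
      calc (y + u) ^ i ≤ (2 * (u * n)) ^ i := by
            apply pow_le_pow_left₀ (by omega) e3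
        _ = _ := by rw [mul_pow, mul_pow]
    have e5 : |(y + u) ^ (i + 1) - y ^ (i + 1)| ≤
        (h.natDegree * 2 ^ h.natDegree) * ((u : ℤ) ^ h.natDegree * n ^ (h.natDegree - 1)) := by
      rw [abs_of_nonneg e0]
      calc (y + u) ^ (i + 1) - y ^ (i + 1) ≤ (i + 1) * u * (y + u) ^ i := e1
        _ ≤ (i + 1) * u * (2 ^ i * ((u : ℤ) ^ i * n ^ i)) := by gcongr
        _ = ((i + 1 : ℕ) : ℤ) * 2 ^ i * ((u : ℤ) ^ (i + 1) * n ^ i) := by push_cast; ring
        _ ≤ (h.natDegree * 2 ^ h.natDegree) *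
            ((u : ℤ) ^ h.natDegree * n ^ (h.natDegree - 1)) := by
          gcongr
          · norm_num
          · omega
          · omega
    calc |h.coeff (i + 1)| * |(y + u) ^ (i + 1) - y ^ (i + 1)|
        ≤ |h.coeff (i + 1)| * ((h.natDegree * 2 ^ h.natDegree) *
          ((u : ℤ) ^ h.natDegree * n ^ (h.natDegree - 1))) := by gcongr
      _ = _ := by ring

/-- the multiplier -/
noncomputable def lamf (e : ℕ → ℕ) (u : ℕ) : ℕ := u.factorization.prod (fun p w => p ^ (e p * w))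

theorem lamf_one (e : ℕ → ℕ) : lamf e 1 = 1 := by simp [lamf]

theorem lamf_mul (e : ℕ → ℕ) (u v : ℕ) (hu : u ≠ 0) (hv : v ≠ 0) :
    lamf e (u * v) = lamf e u * lamf e v := by
  unfold lamf
  rw [Nat.factorization_mul hu hv]
  apply Finsupp.prod_add_index'
  · intro p; simp
  · intro p a b; rw [mul_add, pow_add]

theorem lamf_pos (e : ℕ → ℕ) (u : ℕ) : 1 ≤ lamf e u := by
  unfold lamf
  apply Finset.one_le_prod'
  intro p hp
  have : p.Prime := Nat.prime_of_mem_primeFactors hp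
  exact Nat.one_le_pow _ _ this.pos

theorem dvd_lamf (e : ℕ → ℕ) (he : ∀ p : ℕ, p.Prime → 1 ≤ e p) (u : ℕ) (hu : u ≠ 0) :
    u ∣ lamf e u := by
  conv_lhs => rw [← Nat.prod_factorization_pow_eq_self hu]
  unfold lamf
  apply Finset.prod_dvd_prod_of_dvd
  intro p hp
  have : p.Prime := Nat.prime_of_mem_primeFactors hp
  apply pow_dvd_pow
  exact Nat.le_mul_of_pos_left _ (he p this)

theorem lamf_le (e : ℕ → ℕ) (k : ℕ) (he : ∀ p : ℕ, p.Prime → e p ≤ k) (u : ℕ) (hu : u ≠ 0) :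
    lamf e u ≤ u ^ k := by
  conv_rhs => rw [← Nat.prod_factorization_pow_eq_self hu]
  unfold lamf Finsupp.prod
  rw [← Finset.prod_pow]
  apply Finset.prod_le_prod'
  intro p hp
  have hp' : p.Prime := Nat.prime_of_mem_primeFactors hp
  rw [← pow_mul, mul_comm _ k]
  exact Nat.pow_le_pow_right hp'.pos (Nat.mul_le_mul_right _ (he p hp'))

theorem pow_dvd_lamf (e : ℕ → ℕ) (u p : ℕ) :
    (p : ℤ) ^ (e p * u.factorization p) ∣ (lamf e u : ℤ) := by
  by_cases hp : p ∈ u.primeFactors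
  · unfold lamf Finsupp.prod
    push_cast
    exact Finset.dvd_prod_of_mem (fun p : ℕ => (p : ℤ) ^ (e p * u.factorization p)) hp
  · have : u.factorization p = 0 := by
      rw [← Finsupp.notMem_support_iff, Nat.support_factorization]; exact hp
    rw [this]; simp

theorem lamf_dvd (e : ℕ → ℕ) (u : ℕ) (d : ℤ)
    (h : ∀ p ∈ u.primeFactors, (p : ℤ) ^ (e p * u.factorization p) ∣ d) : (lamf e u : ℤ) ∣ d := by
  unfold lamf Finsupp.prod
  push_cast
  apply Finset.prod_dvd_of_coprime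
  · intro p hp q hq hpq
    have h2 : Nat.Coprime p q := (Nat.coprime_primes (Nat.prime_of_mem_primeFactors hp)
      (Nat.prime_of_mem_primeFactors hq)).mpr hpq
    exact (Nat.isCoprime_iff_coprime.mpr h2).pow
  · exact h

theorem split_u (u p : ℕ) : (u : ℤ) =
    (p : ℤ) ^ (u.factorization p) * ((u / p ^ (u.factorization p) : ℕ) : ℤ) := by
  exact_mod_cast (Nat.ordProj_mul_ordCompl_eq_self u p).symm

end AuxPoly

open AuxPoly in
theorem exists_aux (h : ℤ[X]) (hint : Intersective h) (hdeg : 2 ≤ h.natDegree)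
    (hlc : 0 < h.leadingCoeff) :
    ∃ (H : ℕ → ℤ[X]) (lam : ℕ → ℕ) (C : ℕ), 1 ≤ C ∧ H 1 = h ∧
      (∀ v : ℕ, 1 ≤ v → v ∣ lam v ∧ 1 ≤ lam v ∧ lam v ≤ v ^ h.natDegree) ∧
      (∀ u v : ℕ, 1 ≤ u → 1 ≤ v → ∃ r : ℤ, -(v : ℤ) < r ∧ r ≤ 0 ∧
        ∀ x : ℤ, (H u).eval (r + v * x) = lam v * (H (u * v)).eval x) ∧
      (∀ u : ℕ, 1 ≤ u → (H u).natDegree = h.natDegree ∧ 0 < (H u).leadingCoeff ∧
        ContentLE (H u) C ∧
        (∀ j, |(H u).coeff j| ≤ C * (u : ℤ) ^ h.natDegree) ∧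
        (∀ n : ℤ, 1 ≤ n → |(H u).eval n| ≤ C * (H u).leadingCoeff * n ^ h.natDegree) ∧
        (∀ n : ℤ, 1 ≤ n → |(H u).eval (n + 1) - (H u).eval n|
          ≤ C * (H u).leadingCoeff * n ^ (h.natDegree - 1))) := by
  have hh : h ≠ 0 := by
    rintro rfl; simp at hdeg
  obtain ⟨N, e, ζ, hN, he, hζ, hloc⟩ := local_data h hh hint
  have hr : ∀ u : ℕ, ∃ r : ℤ, 1 ≤ u → (-(u : ℤ) < r ∧ r ≤ 0 ∧
      ∀ p ∈ u.primeFactors, (p : ℤ) ^ (u.factorization p) ∣ r - ζ p (u.factorization p)) := by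
    intro u
    by_cases hu : 1 ≤ u
    · obtain ⟨r, h1⟩ := exists_r ζ u hu
      exact ⟨r, fun _ => h1⟩
    · exact ⟨0, fun h => absurd h hu⟩
  choose r hr using hr
  have hr' : ∀ u : ℕ, 1 ≤ u → ∀ p : ℕ, p.Prime →
      (p : ℤ) ^ (u.factorization p) ∣ r u - ζ p (u.factorization p) := by
    intro u hu p hp
    by_cases hpu : p ∈ u.primeFactors
    · exact (hr u hu).2.2 p hpu
    · have : u.factorization p = 0 := by
        rw [← Finsupp.notMem_support_iff, Nat.support_factorization]; exact hpu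
      rw [this]; simp
  have hH : ∀ u : ℕ, ∃ P : ℤ[X], 1 ≤ u → h.comp (aff (r u) u) = C (lamf e u : ℤ) * P := by
    intro u
    by_cases hu : 1 ≤ u
    · have h1 : C (lamf e u : ℤ) ∣ h.comp (aff (r u) u) := by
        rw [C_dvd_iff_dvd_coeff]
        intro j
        apply lamf_dvd
        intro p hp
        have hp' : p.Prime := Nat.prime_of_mem_primeFactors hp
        have h2 := (hloc p hp' (u.factorization p) (r u)
          ((u / p ^ (u.factorization p) : ℕ) : ℤ) (hr' u hu p hp')).1 j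
        rwa [← split_u] at h2
      obtain ⟨P, hP⟩ := h1
      exact ⟨P, fun _ => hP⟩
    · exact ⟨0, fun h => absurd h hu⟩
  choose H hH using hH
  obtain ⟨k, hk⟩ : ∃ k, k = h.natDegree := ⟨_, rfl⟩
  obtain ⟨S, hS⟩ : ∃ S : ℕ, (S : ℤ) = ∑ i ∈ range (h.natDegree + 1), |h.coeff i| := by
    refine ⟨∑ i ∈ range (h.natDegree + 1), (h.coeff i).natAbs, ?_⟩
    push_cast; rfl
  have hlamZ : ∀ u, (0 : ℤ) < lamf e u := fun u => by exact_mod_cast lamf_pos e u
  -- evaluation
  have heval : ∀ u : ℕ, 1 ≤ u → ∀ x : ℤ, h.eval (r u + u * x) = lamf e u * (H u).eval x := by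
    intro u hu x
    have h1 := congrArg (Polynomial.eval x) (hH u hu)
    rw [eval_comp, eval_mul, eval_C] at h1
    rw [← h1]
    simp [aff]
  have hcoef : ∀ u : ℕ, 1 ≤ u → ∀ j, (h.comp (aff (r u) u)).coeff j =
      lamf e u * (H u).coeff j := by
    intro u hu j
    rw [hH u hu, coeff_C_mul]
  have haffdeg : ∀ u : ℕ, 1 ≤ u → (aff (r u) (u : ℤ)).natDegree = 1 ∧
      (aff (r u) (u : ℤ)).leadingCoeff = (u : ℤ) := by
    intro u hu
    have hu0 : (u : ℤ) ≠ 0 := by exact_mod_cast (by omega : u ≠ 0)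
    have h1 : aff (r u) (u : ℤ) = C (u : ℤ) * X + C (r u) := by rw [aff]; ring
    rw [h1]
    exact ⟨natDegree_linear hu0, leadingCoeff_linear hu0⟩
  have hnd : ∀ u : ℕ, 1 ≤ u → (H u).natDegree = h.natDegree := by
    intro u hu
    have h1 : (h.comp (aff (r u) u)).natDegree = h.natDegree := by
      rw [natDegree_comp, (haffdeg u hu).1, mul_one]
    rw [hH u hu, natDegree_C_mul (hlamZ u).ne'] at h1
    exact h1
  have hlcu : ∀ u : ℕ, 1 ≤ u →
      (lamf e u : ℤ) * (H u).leadingCoeff = h.leadingCoeff * (u : ℤ) ^ h.natDegree := by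
    intro u hu
    have h1 : (h.comp (aff (r u) u)).leadingCoeff = h.leadingCoeff * (u : ℤ) ^ h.natDegree := by
      rw [leadingCoeff_comp (by rw [(haffdeg u hu).1]; norm_num), (haffdeg u hu).2]
    rw [hH u hu, leadingCoeff_mul, leadingCoeff_C] at h1
    exact h1
  have hlcpos : ∀ u : ℕ, 1 ≤ u → 0 < (H u).leadingCoeff := by
    intro u hu
    have h1 := hlcu u hu
    have hu0 : (0 : ℤ) < u := by exact_mod_cast hu
    have h2 : 0 < (lamf e u : ℤ) * (H u).leadingCoeff := by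
      rw [h1]; positivity
    exact (pos_iff_pos_of_mul_pos h2).mp (hlamZ u)
  refine ⟨H, lamf e, N.natAbs + (h.natDegree + 1) * 2 ^ h.natDegree * S + 1, by omega, ?_, ?_,
    ?_, ?_⟩
  · have h1 := hr 1 le_rfl
    have h2 : r 1 = 0 := by
      have := h1.1; have := h1.2.1; push_cast at *; omega
    have h3 := hH 1 le_rfl
    rw [lamf_one, h2] at h3
    have h4 : aff 0 ((1 : ℕ) : ℤ) = X := by simp [aff]
    rw [h4, comp_X] at h3
    simpa using h3.symm
  · intro v hv
    exact ⟨dvd_lamf e (fun p hp => (he p hp).1) v (by omega), lamf_pos e v,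
      lamf_le e _ (fun p hp => (he p hp).2) v (by omega)⟩
  · intro u v hu hv
    have huv : 1 ≤ u * v := Nat.mul_pos hu hv
    have hu0 : (0 : ℤ) < u := by exact_mod_cast hu
    have hdiv : (u : ℤ) ∣ r (u * v) - r u := by
      apply dvd_of_local u hu
      intro p hp
      have hp' : p.Prime := Nat.prime_of_mem_primeFactors hp
      have h1 := hr' u hu p hp'
      have h2 := hr' (u * v) huv p hp'
      have h3 : u.factorization p ≤ (u * v).factorization p := by
        rw [Nat.factorization_mul (by omega) (by omega)]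
        simp
      have h4 := hζ p hp' _ _ h3
      have h5 := (pow_dvd_pow (p : ℤ) h3).trans h2
      have h6 := dvd_sub (dvd_add h5 h4) h1
      have h7 : r (u * v) - ζ p ((u * v).factorization p) +
          (ζ p ((u * v).factorization p) - ζ p (u.factorization p)) -
          (r u - ζ p (u.factorization p)) = r (u * v) - r u := by ring
      rwa [h7] at h6
    obtain ⟨s, hs⟩ := hdiv
    have hru := hr u hu
    have hruv := hr (u * v) huv
    refine ⟨s, ?_, ?_, ?_⟩
    · have h1 : -((u : ℤ) * v) < u * s := by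
        have := hruv.1; push_cast at this
        have := hru.2.1
        linarith
      by_contra hcon
      push Not at hcon
      have : (u : ℤ) * s ≤ u * (-v) := mul_le_mul_of_nonneg_left hcon hu0.le
      linarith
    · have h1 : (u : ℤ) * s < u * 1 := by
        have := hruv.2.1
        have := hru.1
        linarith
      have := lt_of_mul_lt_mul_left h1 hu0.le
      omega
    · intro x
      have h1 := heval u hu (s + v * x)
      have h2 := heval (u * v) huv x
      have h3 : r u + (u : ℤ) * (s + v * x) = r (u * v) + ((u * v : ℕ) : ℤ) * x := by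
        push_cast; linear_combination -hs
      rw [h3, h2, lamf_mul e u v (by omega) (by omega)] at h1
      push_cast at h1
      have h4 : (lamf e u : ℤ) * (lamf e v * (H (u * v)).eval x) =
          lamf e u * (H u).eval (s + v * x) := by rw [← h1]; ring
      exact (mul_left_cancel₀ (hlamZ u).ne' h4).symm
  · intro u hu
    have hu0 : (0 : ℤ) < u := by exact_mod_cast hu
    have hlamu := hlamZ u
    have hru := hr u hu
    have hC1 : (2 ^ h.natDegree * (S : ℤ)) ≤
        ((N.natAbs + (h.natDegree + 1) * 2 ^ h.natDegree * S + 1 : ℕ) : ℤ) := by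
      push_cast
      have h1 : (0 : ℤ) ≤ |N| := abs_nonneg N
      have h2 : (0 : ℤ) ≤ h.natDegree * 2 ^ h.natDegree * S := by positivity
      nlinarith
    have hC2 : (h.natDegree * 2 ^ h.natDegree * (S : ℤ)) ≤
        ((N.natAbs + (h.natDegree + 1) * 2 ^ h.natDegree * S + 1 : ℕ) : ℤ) := by
      push_cast
      have h1 : (0 : ℤ) ≤ |N| := abs_nonneg N
      have h2 : (0 : ℤ) ≤ 2 ^ h.natDegree * S := by positivity
      nlinarith
    have hC3 : (S : ℤ) ≤
        ((N.natAbs + (h.natDegree + 1) * 2 ^ h.natDegree * S + 1 : ℕ) : ℤ) := by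
      refine le_trans ?_ hC1
      have h1 : (1 : ℤ) ≤ 2 ^ h.natDegree := one_le_pow₀ (by norm_num)
      have h2 : (0 : ℤ) ≤ S := by positivity
      nlinarith
    generalize hCdef : N.natAbs + (h.natDegree + 1) * 2 ^ h.natDegree * S + 1 = CC at hC1 hC2 hC3 ⊢
    have hlc1 : 1 ≤ h.leadingCoeff := hlc
    refine ⟨hnd u hu, hlcpos u hu, ?_, ?_, ?_, ?_⟩
    · intro g hg
      by_cases hg0 : g = 0
      · omega
      · have h1 : (g : ℤ) ∣ N := by
          apply dvd_of_local g (by omega)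
          intro p hp
          have hp' : p.Prime := Nat.prime_of_mem_primeFactors hp
          refine (hloc p hp' (u.factorization p) (r u)
            ((u / p ^ (u.factorization p) : ℕ) : ℤ) (hr' u hu p hp')).2 (g.factorization p)
            ?_ ?_
          · intro hcon
            have : p ∣ u / p ^ (u.factorization p) := by exact_mod_cast hcon
            exact Nat.not_dvd_ordCompl hp' (by omega) this
          · intro j hj
            rw [← split_u, hcoef u hu j, pow_add]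
            apply mul_dvd_mul (pow_dvd_lamf e u p)
            have h2 : (p : ℤ) ^ (g.factorization p) ∣ (g : ℤ) := by
              exact_mod_cast Nat.ordProj_dvd g p
            exact h2.trans (hg j hj)
        have h2 : g ≤ N.natAbs := by
          apply Nat.le_of_dvd (Int.natAbs_pos.mpr hN)
          exact Int.natCast_dvd.mp h1
        omega
    · intro j
      have h1 := coeff_bound h (r u) u hu (by rw [abs_le]; constructor <;> omega) j
      rw [hcoef u hu j, abs_mul, abs_of_pos hlamu, ← hS] at h1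
      have h2 : |(H u).coeff j| ≤ (lamf e u : ℤ) * |(H u).coeff j| :=
        le_mul_of_one_le_left (abs_nonneg _) hlamu
      calc |(H u).coeff j| ≤ (2 ^ h.natDegree * (S : ℤ)) * (u : ℤ) ^ h.natDegree := h2.trans h1
        _ ≤ _ := by gcongr
    · intro n hn
      have hpos : 0 ≤ r u + u * n := by nlinarith
      have h1 := eval_bound h (r u + u * n) (u * n) (by nlinarith)
        (by rw [abs_of_nonneg hpos]; linarith [hru.2.1])
      rw [heval u hu n, abs_mul, abs_of_pos hlamu, ← hS] at h1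
      have h2 : (lamf e u : ℤ) * |(H u).eval n| ≤
          lamf e u * (CC * (H u).leadingCoeff * n ^ h.natDegree) := by
        calc (lamf e u : ℤ) * |(H u).eval n| ≤ S * (u * n) ^ h.natDegree := h1
          _ ≤ CC * (u * n) ^ h.natDegree := by gcongr
          _ ≤ CC * (h.leadingCoeff * (u * n) ^ h.natDegree) := by
            gcongr
            exact le_mul_of_one_le_left (by positivity) hlc1
          _ = CC * ((lamf e u * (H u).leadingCoeff) * n ^ h.natDegree) := by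
            rw [hlcu u hu, mul_pow]; ring
          _ = _ := by ring
      exact le_of_mul_le_mul_left h2 hlamu
    · intro n hn
      have hpos : 0 ≤ r u + u * n := by nlinarith
      have h1 := diff_bound h (r u + u * n) u n hu hn hpos (by linarith [hru.2.1]) (by omega)
      have h0 : r u + (u : ℤ) * n + u = r u + u * (n + 1) := by ring
      rw [h0, heval u hu n, heval u hu (n + 1), ← mul_sub, abs_mul, abs_of_pos hlamu, ← hS] at h1
      have h2 : (lamf e u : ℤ) * |(H u).eval (n + 1) - (H u).eval n| ≤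
          lamf e u * (CC * (H u).leadingCoeff * n ^ (h.natDegree - 1)) := by
        calc (lamf e u : ℤ) * |(H u).eval (n + 1) - (H u).eval n|
            ≤ h.natDegree * 2 ^ h.natDegree * S * (u : ℤ) ^ h.natDegree *
              n ^ (h.natDegree - 1) := h1
          _ ≤ CC * (u : ℤ) ^ h.natDegree * n ^ (h.natDegree - 1) := by gcongr
          _ ≤ CC * (h.leadingCoeff * (u : ℤ) ^ h.natDegree) * n ^ (h.natDegree - 1) := by
            gcongr
            exact le_mul_of_one_le_left (by positivity) hlc1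
          _ = CC * (lamf e u * (H u).leadingCoeff) * n ^ (h.natDegree - 1) := by
            rw [hlcu u hu]
          _ = _ := by ring
      exact le_of_mul_le_mul_left h2 hlamu

end Vale.Agent.P042
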