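import Mathlib

/-! Definitions used in the statement of the final theorem of P042. -/

namespace Vale.Agent.P042

open Finset Polynomial

/-- `h` is intersective: it has a root modulo every positive integer. -/
def Intersective (h : ℤ[X]) : Prop :=
  ∀ q : ℕ, 1 ≤ q → ∃ t : ℤ, (q : ℤ) ∣ h.eval t

/-- `(A - A) ∩ h(ℕ₊) ⊆ {0}`: no difference of two elements of `A` is a nonzero value `h(n)`
with `n ≥ 1`. -/
def Avoids (h : ℤ[X]) (A : Finset ℤ) : Prop :=
  ∀ a ∈ A, ∀ b ∈ A, ∀ n : ℕ, 1 ≤ n → a - b = h.eval (n : ℤ) → a - b = 0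

open Classical in
/-- `r_h(N)`: the largest size of a subset `A` of `{1, …, N}` with
`(A - A) ∩ h(ℕ₊) ⊆ {0}`. -/
noncomputable def rh (h : ℤ[X]) (N : ℕ) : ℕ :=
  ((Finset.Icc (1 : ℤ) N).powerset.filter (Avoids h)).sup Finset.card

end Vale.Agent.P042
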