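/-!
P042 BLUEPRINT (comments only).  Notation: l = log(2/alpha), e(x)=exp(2 pi i x), [Q] etc.

=== A. Hyper.lean : see the doc string in Skel.lean (complete proof there). ===

=== B. Level.lean ===
Notation K_R(t) = prod_{p in R} (p 1[p | t] - 1).  F^{=R}(r) = comp F y J R r = E_x F(x) K_R(x-r).
(B1) energy(R) = avg_r F^{=R}(r)^2 = E_x F(x) F^{=R}(x)  (because avg_r K_R(x-r) K_R(x'-r) = K_R(x-x')).
(B2) Let RR = {R subset Ps : |R|=d, prod R <= Q}, g(x) = sum_{R in RR} F^{=R}(x), W_d = sum_{RR} energy(R).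
 So W_d = E F g, and by Holder/Jensen W_d^{2m} <= (E F)^{2m-1} E F g^{2m} <= A^{2m-1} E F g^{2m}.
(B3) moment transfer.  g^{2m} = sum over (R_1..R_2m) in RR^{2m} of prod F^{=R_i}, each periodic with
 period P = prod(union R_i) <= Q^{2m}, P coprime to W, sup norm <= (Q A)^{2m}  (|F^{=R}| <= 2^{|R|} A <= Q A
 from hreg by expanding the product over subsets).  For a P-periodic phi:
 |E_x W 1[x=c mod W] phi(x) - avg phi| <= 2 W P sup|phi| / J.  Number of tuples <= Q^{2m}
 (R -> prod R is injective).  So with G(z) = sum_{RR} F^{=R}(z) as a function on prod_{p in Ps} Z/p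
 (CRT), E F g^{2m} <= E_x W 1[x=c] g(x)^{2m} <= avg_z G(z)^{2m} + 2 W Q^{6m} A^{2m} / J.
(B4) Apply Module A with index type = subtype Ps (or a Fintype of your choice), Omega_p = ZMod p or Fin p,
 phi_R = F^{=R} for R in RR, and 0 otherwise:
 (1/(14m))^{md} avg G^{2m} <= sum_{|S|<=d} (2m)^{m|S|} avg_{x_S} (avg_{S^c} |L_S G|^2)^m, L_S G = sum_{R in RR, S subset R} F^{=R}.
 S = empty: term = W_d^m.   |S| = s >= 1: term <= sup^{m-1} * sum_{R in RR, S subset R} energy(R),
 where sup = sup_{x_S} avg_{S^c}|L_S G|^2, and sum over |S|=s gives sup^{m-1} * C(d,s) * W_d.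
(B5) sup bound: fix x_S = r_S.  F^{=R}(r_S, .) = sum_{T subset S} (-1)^{|S|-|T|} (F_T)^{=R minus S}(.),
 F_T(x) = F(x) prod_{p in T} p 1[x = r_p mod p].  Triangle inequality in l^2:
 (avg_{S^c}|L_S G|^2)^{1/2} <= sum_{T subset S} ( sum_{R' subset Ps\S, |R'|=d-s, prod R' <= Q/prod S} energy(F_T,R') )^{1/2}.
 Induction hypothesis for F_T (W' = W prod T, c' by CRT, Ps' = Ps\S, Q' = Q / prod S, same m, A, J, y; hreg for F_T
 follows from hreg for F with R = R' union T; hJ since W' Q'^{10m+10} <= W Q^{10m+10}) :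
 each inner sum <= A^2 (200m)^{d-s}  (for d-s = 0 it is (E F_T)^2 <= A^2).  So sup <= 4^s A^2 w_{d-s}, w_j = (200m)^j.
(B6) Suppose X := W_d/A^2 > w_d.  Then
 A^{4m} X^{2m} <= A^{2m-1} A^{2m} { (14m)^{md} [ X^m + X sum_{s=1}^d C(d,s) (2m)^{ms} 4^{s(m-1)} w_{d-s}^{m-1} ] + 2 W Q^{6m}/J }
 => A <= (14/200)^{md} (1 + (2m)^m 4^{m-1} / (200m)^{m-1})^d + 2 W Q^{6m}/J, and
 (2m)^m 4^{m-1}/(200m)^{m-1} = 2m (1/25)^{m-1} <= 4/25 for m >= 2, so the RHS <= (0.07^m * 1.16)^d + e^{-m}/4 < e^{-m} <= A. Contradiction.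

=== C. WeylInv.lean ===  (polynomial dependence; cf. Green-Tao Prop 4.3)
 Induction on k.  k=1: |sum e(an)| <= 1/(2||a||).
 Step k>=2.  If M <= (2/delta)^{C'} trivial (q=1, |a - round a| <= 1/2 <= (2/delta)^C/M^j).
 (C1) leading coefficient: Weyl differencing k-1 times: |S|^{2^{k-1}} <= (2M)^{2^{k-1}-k} sum_{|h_i|<M} min(M, 1/(2||k! h_1...h_{k-1} a_k||)),
  so >= delta^{C} M^{k-1} tuples 1<=h_i<=M (say) satisfy ||k! h_1...h_{k-1} a_k|| <= (2/delta)^C/M.
 (C1') Vinogradov lemma: if ||theta h|| <= eps for >= delta' M integers 1<=h<=M, eps <= delta'/100, then there is 1<=q<=16/delta' with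
  ||q theta|| <= 16 eps/(delta' M)  (Dirichlet with denominator ~ M; count).  Apply it for h_{k-1}, then h_{k-2}, ... :
  fix (h_1..h_{k-2}) in a set of >= delta^C M^{k-2}; get q <= (2/delta)^C (pigeonhole q common) etc.  End: ||q k! a_k|| <= (2/delta)^C / M^k.
 (C2) lower coefficients: replace a_k = z/q + beta, split [1,M] in progressions of difference q and length ~ delta^{C'} M: on one of them
  |sum_m e(sum_{j<k} a_j (n0+qm)^j)| >= (delta/2) length (z n^k/q is constant mod 1, beta n^k varies by <= delta/100).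
  Induction hypothesis for degree k-1 in m; solve downwards j=k-1,...,1 for a_j (multiply by q^k).
  (It may be cleaner to prove the statement with hypothesis sum over any interval (y, y+M], |y| <= M/delta^C, or to let the
  helper lemma treat a general real polynomial given by coefficients a : N -> R and use binomial expansion.)

=== C2. MinorArc.lean ===
 a_j = theta c_j (constant term is only a phase).  weyl_inverse: q0 <= (2/delta)^C, |q0 theta c_j - z_j| <= (2/delta)^C/M^j.
 Dirichlet: |theta - a/q| <= 1/(q R), 1<=q<=R ~ M^{1/2}, coprime (Real.exists_rat_abs_sub_le_and_den_le).  For M >= ((2/delta) B)^{C'}: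
 |q0 c_j a/q - z_j| < 1/q, so q | q0 c_j a, so q | q0 c_j for all j>=1, so q/gcd(q,q0) divides all c_j, so q <= q0 D.
 Then z_k = q0 c_k a/q exactly so |theta - a/q| <= (2/delta)^C/(q0 c_k M^k).
 gs_decay: ES P (qT) (a/q) = q T gs(a,q) (norms), delta = ||gs||; minor_arc with M = qT, T -> infinity gives a'/q' = a/q.

=== D. MajorArc.lean ===
 blocks of q consecutive n: e((a/q+beta)P(n)) = e(aP(n)/q) e(beta P(n0)) + O(2 pi |beta| |P(n)-P(n0)|), |P(n)-P(n0)| <= sum over block of |P(n+1)-P(n)|.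

=== L. Local.lean ===
 gs_le_prod: multiplicativity gs(P,a,q1 q2) = gs(P,a q2^{-1},q1) gs(P,a q1^{-1},q2) (a = a1 q2 + a2 q1 mod q1 q2), induction on q
 (Nat.recOnPosPrimePosCoprime).  gs_prime_pow: x = y + p^{e-1} z: P(x) = P(y) + p^{e-1} z P'(y) mod p^e, sum over z vanishes unless
 p | P'(y); number of such y mod p is <= natDegree - 1 (P' is nonzero mod p).

=== W. ===
 W1: complete the square, |Gauss sum|^2 = p (or direct |sum|^2 computation).
 W2 (Mordell): T = sum_{(a_1..a_k) mod p} |sum_x e((a_1x+..+a_kx^k)/p)|^{2k} = p^k * #{power sums equal} <= p^k k! p^k; the polynomials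
  lambda^i-scalings: a P(ux+v), u != 0, v give >= p(p-1)/k distinct (mod constants) polynomials with the same |sum|, so
  (p(p-1)/k) |S|^{2k} <= k! p^{2k}, |S| <= C p^{1-1/k}.   (Newton identities: equal power sums s_1..s_k for k variables, p>k => same multiset.)
 W3 (Stepanov): q=p^r, g = sum_{i<r} f^{p^i} (g(x) = Tr f(x)).  Hasse derivatives: D^l(f^{p^i}) = (D^{l/p^i} f)^{p^i} if p^i | l else 0,
  so for 1<=l, D^l g is a polynomial of degree <= (k-1) l (l < q) hence D^l(g^i) is a combination of g^{i'} with coefficients of degree <= (k-1) l.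
  R = sum_{0<=i<p} sum_{0<=j<Jn} a_{ij}(x) g^i x^{qj}, deg a_ij < q/p; the degrees i k q/p + j q + deg a_ij are distinct (i k + j p distinct
  since p does not divide k, i<p), so R != 0 unless all a_ij = 0.  For x in F_q with g(x)=c, l<M<=q: D^l R(x) = value at x of a polynomial of degree
  < q/p + k l + Jn whose coefficients are linear in the a_ij (x^{qj} = x^j, D^l x^{qj} = 0 for 0<l<q).  Require
  M (q/p + kM + Jn) < q Jn: take M ~ sqrt q, Jn ~ M/p + k + 2.  Then N_c M <= deg R <= q(Jn + k), N_c <= q/p + C sqrt q.  (small r: enlarge C.)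
 W4: for monic G in F_p[x] let lam(G) = psi( sum over roots of f ) = psi(Tr_{F_p[x]/G} f(x)) (completely multiplicative).
  A_n = sum_{G monic deg n} lam(G);  A_0=1, A_n=0 for n>=k: sum over roots of f(theta) = f_k p_k + lower power sums, p_k = +-k e_k + (poly in
  e_1..e_{k-1}); for n>=k the coefficient e_k is free and p does not divide k f_k, psi != 1.
  n A_n = sum_{j=1}^n S_j A_{n-j} where S_j = sum_{P irreducible monic, deg P | j} deg P lam(P)^{j/deg P} = sum_{x in F_{p^j}} psi(Tr f(x)) =: S_j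
  (count n = sum_{P^i | G} deg P; minimal polynomials of elements of F_{p^j}).  Then factor sum_n A_n T^n = prod_{i<k-1}(1 - w_i T); Newton => S_j = - sum w_i^j.
 W5: choose r with all w_i^r / |w_i|^r close to 1 (pigeonhole/Dirichlet), or generating functions.
 W6: reduce P mod p (degree d with 1<=d<=k, p>k); S_r(a) = sum_c psi(c) N_c, sum_c psi(c)=0 so |S_r| <= sum_c |N_c - q/p| <= C sqrt q
  (lower bounds for N_c from sum_c N_c = q).  W4+W5 => |S_1| <= (d-1) sqrt p.

=== F. Aux.lean ===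
 For each prime p choose z_p in Z_p with h(z_p)=0 (compactness of Z_p: h has roots mod all p^n), of multiplicity m_p (1 <= m_p <= k).
 r_u := the integer in (-u,0] with r_u = z_p mod p^{v_p(u)} for all p | u; lam(u) = prod p^{m_p v_p(u)}; H_u(x) = h(r_u+u x)/lam(u).
 Integrality: h(X) = (X - z_p)^{m_p} G_p(X) over Z_p, so h(r_u+ux) has all coefficients divisible by p^{m_p v_p(u)}.  r_{uv} = r_u mod u.
 Content of nonconstant coefficients, bounded uniformly in u: fix p, w = v_p(u).  If w = 0: the substitution is invertible over Z_p, same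
 p-part as h (bounded).  If w>=1: H_u(x) = unit * ((r_u - z_p)/p^w + (u/p^w) x)^{m_p} G_p(r_u+ux); over Z_p, after the invertible substitution y = that
 linear form, it is y^{m} G_p(z_p + p^w y) whose coefficient of y^m is G_p(z_p) != 0, m >= 1.  So v_p(content) <= v_p(G_p(z_p)) (finite),
 and it is 0 for all but finitely many p UNIFORMLY IN u: over Q write h = c g_1^{e_1}...g_s^{e_s} (squarefree g_i coprime): for p not dividing finitely many
 resultants/leading coefficients z_p is a root of exactly one g_i, simple, so m_p = e_i, G_p(z_p) is a unit.  (Alternative: for the factor g with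
 g(z_p)=0, h = g^m w, G_p(z_p) = g'(z_p)^m w(z_p); Bezout A g + B g' w = N over Z gives v_p <= (m)(v_p(N)).)
 The last three bounds: |r_u+un| <= un for n>=1; lc(H_u) = lc(h) u^k/lam(u).

=== E. Count.lean ===   B := (1+eta) alpha;  G(x) = |A cap (x-J,x]|/J <= B (Regular, v=1), sum_x G = alpha N, support in [1,N+J).
 (E1) for |t| <= N/10: sum_x G(x) G(x+t) >= (1/2) alpha^2 N  (I = {x : x, x+t in [1,N]}, (B-G(x))(B-G(x+t)) >= 0, so
   GG' >= B(G+G') - B^2 on I; |I| <= N; sum_I G >= alpha N - B (N/10 + J)).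
 (E2) f = 1_A, f^(t) = sum_{x in A} e(-tx), mu^(t) = E_{j<J} e(-tj): sum_n sum_x f(x) f(x+P(n)) = int |f^|^2 S, and sum_n sum_x G(x)G(x+P(n)) = int |f^|^2 |mu^|^2 S
   (use either integrals over [0,1] or averages over t = j/T, 0<=j<T, T > 10 N + 10 -- finite sums are easier).
   The first is <= k alpha N.  So (1/2) alpha^2 N M - k alpha N <= int |f^|^2 (1-|mu^|^2) |S|.
 (E3) pointwise |S(t)| <= delta M + M sum_{q<=Q} sum_{a mod q, coprime} b(q) 1[ ||t-a/q||_{R/Z} <= kappa0 ].  int |f^|^2 = alpha N.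
   On the arc |mu^(t-a/q)| >= 1/2 (kappa0 J small), so int over arc |f^|^2 <= 4 int |f^|^2 |mu^(t-a/q)|^2 = 4 sum_y |sum_{x in A, y<x<=y+J} e(-ax/q)/J|^2.
   q = 1: factor 1-|mu^(t)|^2 <= 4 pi kappa0 J <= eta/5 and int |f^|^2|mu^|^2 = sum G^2 <= B alpha N.
   So 4 X >= (1/2 - 3 eta) alpha^2 N.

=== G2. RandomModulus.lean === y0 = (C5 ell)^{1/kappa}.  Tail function f_p(e) (nonincreasing in e, f_p(0)=1):
   p <= y0: f_p(e) = min(1, C0 p^{-kappa}, C0 p^{-e/C1}) (e>=1);  y0 < p <= Q: f_p(1)=f_p(2) = min(1, C0/p), f_p(e) = min(1, C0/p, C0 p^{-e/C1}) (e>=2, f_p(1):=f_p(2)).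
   Weights w_p(e) = f_p(e) - f_p(e+1) (0<=e<E), w_p(E) = f_p(E), E with 2^E > Q; v = prod_{p<=Q} p^{e_p}, W(v) = prod w_p(e_p).
   sum over v with q | v of W(v) = prod_{p|q} f_p(v_p(q)) >= prod bb.   E[log v 1_{q|v}] <= P(q|v) ( C log q + C sum_{p<=min(y0,Q)} p^{-kappa} log p + C sum_{p<=Q} log p/p ),
   because sum_{e'>e} f_p(e')/f_p(e) <= C(C0,C1); sum_{p<=y} p^{-kappa} log p <= C y^{1-kappa} (Chebyshev), sum_{p<=Q} log p/p <= log Q + C; so <= C ell^{(1-kappa)/kappa}
   <= (1/4) log V: Markov: P(v > V | q|v) <= 1/4.  P(some p in R divides v | q|v) <= |R| C0/y0 <= 1/4 since |R| <= log Q/log 2, y0 >= (C5 ell)^2.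

=== G3. Window.lean ===
   A1 := (1+eta)^2 alpha.  C5 chosen large; random modulus gives w on v <= V1, V1 Q <= V.
   (G3a) squarefull/small part: sum_y sum_{q|v, q>=2} EN <= ((1+3eta) - (1-eta)) alpha^2 N by G1a + Cauchy-Schwarz for q=1.
   (G3b) q = q1 prod R, R = {p || q, p > y0} nonempty, |R| = d: b(q) <= b(q1) (C0/(C5 l))^d <= 2 sum_v w(v) ..., level_lemma on each class c mod v with F = v 1_A 1[x=c mod v].
-/
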