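import Vale.Agent.P042.Defs

/-!
P042, module E: the circle-method inequality.
-/

namespace Vale.Agent.P042

open Finset Polynomial

namespace CountAux

open ComplexConjugate

lemma ee_add (x y : ℝ) : ee (x + y) = ee x * ee y := by
  unfold ee
  rw [← Complex.exp_add]
  congr 1
  push_cast
  ring

lemma ee_zero : ee 0 = 1 := by simp [ee]

lemma ee_int (n : ℤ) : ee (n : ℝ) = 1 := by
  unfold ee
  rw [Complex.exp_eq_one_iff]
  exact ⟨n, by push_cast; ring⟩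

lemma norm_ee (x : ℝ) : ‖ee x‖ = 1 := by
  unfold ee
  exact Complex.norm_exp_ofReal_mul_I _

lemma conj_ee (x : ℝ) : conj (ee x) = ee (-x) := by
  unfold ee
  rw [← Complex.exp_conj]
  congr 1
  rw [map_mul, Complex.conj_ofReal, Complex.conj_I]
  push_cast
  ring

lemma ee_nsmul (x : ℝ) (n : ℕ) : ee (n * x) = ee x ^ n := by
  unfold ee
  rw [← Complex.exp_nat_mul]
  congr 1
  push_cast
  ring

lemma norm_ee_sub_one (x : ℝ) : ‖ee x - 1‖ ≤ 2 * Real.pi * |x| := by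
  unfold ee
  have h := Real.norm_exp_I_mul_ofReal_sub_one_le (x := 2 * Real.pi * x)
  rw [mul_comm Complex.I] at h
  refine h.trans (le_of_eq ?_)
  rw [Real.norm_eq_abs, abs_mul, abs_of_pos Real.two_pi_pos]

lemma ee_eq_one_iff (x : ℝ) : ee x = 1 ↔ ∃ n : ℤ, x = n := by
  constructor
  · intro h
    unfold ee at h
    rw [Complex.exp_eq_one_iff] at h
    obtain ⟨n, hn⟩ := h
    refine ⟨n, ?_⟩
    have h1 : ((2 * Real.pi * x : ℝ) : ℂ) * Complex.I = ((2 * Real.pi * n : ℝ) : ℂ) * Complex.I := by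
      rw [hn]; push_cast; ring
    have h2 := mul_right_cancel₀ Complex.I_ne_zero h1
    have h3 : 2 * Real.pi * x = 2 * Real.pi * n := by exact_mod_cast h2
    exact mul_left_cancel₀ Real.two_pi_pos.ne' h3
  · rintro ⟨n, rfl⟩
    exact ee_int n

/-- orthogonality -/
lemma orth (T : ℕ) (hT : 0 < T) (n : ℤ) :
    ∑ j ∈ range T, ee ((j : ℝ) * n / T) = if (T : ℤ) ∣ n then (T : ℂ) else 0 := by
  have hT' : (T : ℝ) ≠ 0 := by positivity
  have h1 : ∀ j : ℕ, ee ((j : ℝ) * n / T) = ee ((n : ℝ) / T) ^ j := by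
    intro j
    rw [← ee_nsmul]
    congr 1
    ring
  simp_rw [h1]
  split_ifs with h
  · obtain ⟨m, hm⟩ := h
    have : ee ((n : ℝ) / T) = 1 := by
      rw [ee_eq_one_iff]
      refine ⟨m, ?_⟩
      rw [hm]; push_cast; field_simp
    simp [this]
  · have hne : ee ((n : ℝ) / T) ≠ 1 := by
      intro h2
      rw [ee_eq_one_iff] at h2
      obtain ⟨m, hm⟩ := h2
      apply h
      refine ⟨m, ?_⟩
      rw [div_eq_iff hT'] at hm
      have : (n : ℝ) = ((T * m : ℤ) : ℝ) := by rw [hm]; push_cast; ring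
      exact_mod_cast this
    rw [geom_sum_eq hne]
    have : ee ((n : ℝ) / T) ^ T = 1 := by
      rw [← ee_nsmul, ee_eq_one_iff]
      exact ⟨n, by field_simp⟩
    rw [this, sub_self, zero_div]

/-- Fourier coefficients of a function on a finite set -/
noncomputable def hat (I : Finset ℤ) (u : ℤ → ℂ) (t : ℝ) : ℂ := ∑ x ∈ I, u x * ee (-(t * x))

lemma parseval (T : ℕ) (hT : 0 < T) (I : Finset ℤ) (u v : ℤ → ℂ) (m : ℤ) :
    ∑ j ∈ range T, hat I u ((j : ℝ) / T) * conj (hat I v ((j : ℝ) / T)) * ee ((j : ℝ) / T * m) =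
      T * ∑ x ∈ I, ∑ y ∈ I, if (T : ℤ) ∣ m - x + y then u x * conj (v y) else 0 := by
  have h1 : ∀ j : ℕ, hat I u ((j : ℝ) / T) * conj (hat I v ((j : ℝ) / T)) * ee ((j : ℝ) / T * m) =
      ∑ x ∈ I, ∑ y ∈ I, u x * conj (v y) * ee ((j : ℝ) * ((m - x + y : ℤ) : ℝ) / T) := by
    intro j
    unfold hat
    rw [map_sum, Finset.sum_mul_sum, Finset.sum_mul]
    refine Finset.sum_congr rfl (fun x _ => ?_)
    rw [Finset.sum_mul]
    refine Finset.sum_congr rfl (fun y _ => ?_)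
    rw [map_mul, conj_ee]
    have : ee ((j : ℝ) * ((m - x + y : ℤ) : ℝ) / T) =
        ee (-((j : ℝ) / T * x)) * ee (- -((j : ℝ) / T * y)) * ee ((j : ℝ) / T * m) := by
      rw [← ee_add, ← ee_add]
      congr 1
      push_cast
      ring
    rw [this]
    ring
  simp_rw [h1]
  rw [Finset.sum_comm, Finset.mul_sum]
  refine Finset.sum_congr rfl (fun x _ => ?_)
  rw [Finset.sum_comm, Finset.mul_sum]
  refine Finset.sum_congr rfl (fun y _ => ?_)
  rw [← Finset.mul_sum, orth T hT]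
  split_ifs <;> ring

/-- Parseval's identity -/
lemma parseval_norm (T : ℕ) (hT : 0 < T) (I : Finset ℤ) (u : ℤ → ℂ)
    (hI : ∀ x ∈ I, ∀ y ∈ I, (T : ℤ) ∣ y - x → x = y) :
    ∑ j ∈ range T, ‖hat I u ((j : ℝ) / T)‖ ^ 2 = T * ∑ x ∈ I, ‖u x‖ ^ 2 := by
  have h := parseval T hT I u u 0
  have h1 : ∀ j : ℕ, hat I u ((j : ℝ) / T) * conj (hat I u ((j : ℝ) / T)) *
      ee ((j : ℝ) / T * (0 : ℤ)) = ((‖hat I u ((j : ℝ) / T)‖ ^ 2 : ℝ) : ℂ) := by
    intro j
    rw [Int.cast_zero, mul_zero, ee_zero, mul_one, Complex.mul_conj, Complex.normSq_eq_norm_sq]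
  simp_rw [h1] at h
  have h2 : ∑ x ∈ I, ∑ y ∈ I, (if (T : ℤ) ∣ 0 - x + y then u x * conj (u y) else 0) =
      ((∑ x ∈ I, ‖u x‖ ^ 2 : ℝ) : ℂ) := by
    push_cast
    refine Finset.sum_congr rfl (fun x hx => ?_)
    rw [Finset.sum_eq_single_of_mem x hx]
    · rw [if_pos (by simp), Complex.mul_conj, Complex.normSq_eq_norm_sq]
      push_cast
      rfl
    · intro y hy hyx
      rw [if_neg]
      intro hd
      exact hyx (hI x hx y hy (by simpa [sub_eq_neg_add] using hd)).symm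
  rw [h2] at h
  exact_mod_cast h

/-- Fejer-type weight -/
noncomputable def mu (J : ℕ) (t : ℝ) : ℂ := (∑ j ∈ range J, ee (-(t * j))) / J

lemma norm_mu_le (J : ℕ) (t : ℝ) : ‖mu J t‖ ≤ 1 := by
  unfold mu
  rcases Nat.eq_zero_or_pos J with h | h
  · subst h; simp
  · rw [norm_div, Complex.norm_natCast, div_le_one (by positivity)]
    refine (norm_sum_le _ _).trans ?_
    simp [norm_ee]

lemma mu_add_int (J : ℕ) (t : ℝ) (z : ℤ) : mu J (t + z) = mu J t := by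
  unfold mu
  congr 1
  refine Finset.sum_congr rfl (fun j _ => ?_)
  have : -((t + z) * (j : ℝ)) = -(t * j) + ((-(z * j) : ℤ) : ℝ) := by push_cast; ring
  rw [this, ee_add, ee_int, mul_one]

lemma norm_mu_sub_one (J : ℕ) (hJ : 0 < J) (t : ℝ) : ‖mu J t - 1‖ ≤ 2 * Real.pi * |t| * J := by
  have hJ' : (J : ℂ) ≠ 0 := by exact_mod_cast hJ.ne'
  have : mu J t - 1 = (∑ j ∈ range J, (ee (-(t * j)) - 1)) / J := by
    unfold mu
    rw [Finset.sum_sub_distrib, sub_div]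
    simp [hJ']
  have hJr : (0 : ℝ) < J := by exact_mod_cast hJ
  rw [this, norm_div, Complex.norm_natCast, div_le_iff₀ hJr]
  refine (norm_sum_le _ _).trans ?_
  calc ∑ j ∈ range J, ‖ee (-(t * j)) - 1‖ ≤ ∑ j ∈ range J, 2 * Real.pi * |t| * J := by
        refine Finset.sum_le_sum (fun j hj => (norm_ee_sub_one _).trans ?_)
        rw [abs_neg, abs_mul, Nat.abs_cast, ← mul_assoc]
        refine mul_le_mul_of_nonneg_left ?_ (by positivity)
        exact_mod_cast (mem_range.1 hj).le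
    _ = _ := by rw [Finset.sum_const, card_range, nsmul_eq_mul]; ring

/-- convolution of `F 1_A` with the uniform measure on `[0, J)` -/
noncomputable def conv (A : Finset ℤ) (J : ℕ) (F : ℤ → ℂ) (y : ℤ) : ℂ :=
  (∑ x ∈ A.filter (fun x => y - J < x ∧ x ≤ y), F x) / J

lemma hat_conv (N J : ℕ) (A : Finset ℤ) (hA : A ⊆ Finset.Icc 1 (N : ℤ)) (F : ℤ → ℂ) (t : ℝ) :
    hat (Icc 1 ((N : ℤ) + J)) (conv A J F) t = hat A F t * mu J t := by
  unfold hat conv mu
  rw [← mul_div_assoc, Finset.sum_mul_sum]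
  simp_rw [div_mul_eq_mul_div, Finset.sum_mul]
  rw [← Finset.sum_div]
  congr 1
  simp_rw [Finset.sum_filter]
  rw [Finset.sum_comm]
  refine Finset.sum_congr rfl (fun x hx => ?_)
  have hx1 := Finset.mem_Icc.1 (hA hx)
  rw [← Finset.sum_filter]
  symm
  refine Finset.sum_nbij' (fun j => x + j) (fun y => (y - x).toNat) ?_ ?_ ?_ ?_ ?_
  · intro j hj
    have := mem_range.1 hj
    simp only [Finset.mem_filter, Finset.mem_Icc]
    omega
  · intro y hy
    simp only [Finset.mem_filter, Finset.mem_Icc] at hy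
    rw [mem_range]
    omega
  · intro j _
    simp
  · intro y hy
    simp only [Finset.mem_filter, Finset.mem_Icc] at hy
    omega
  · intro j _
    rw [mul_assoc, ← ee_add]
    congr 2
    push_cast
    ring

/-- the density of `A` in the window `(y - J, y]` -/
noncomputable def G (A : Finset ℤ) (J : ℕ) (y : ℤ) : ℝ :=
  ((A.filter (fun x => y - J < x ∧ x ≤ y)).card : ℝ) / J

lemma conv_one (A : Finset ℤ) (J : ℕ) (y : ℤ) : conv A J (fun _ => 1) y = (G A J y : ℂ) := by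
  unfold conv G
  rw [Finset.sum_const, nsmul_eq_mul, mul_one]
  push_cast
  rfl

lemma G_nonneg (A : Finset ℤ) (J : ℕ) (y : ℤ) : 0 ≤ G A J y := by unfold G; positivity

lemma sum_G (N J : ℕ) (hJ : 0 < J) (A : Finset ℤ) (hA : A ⊆ Finset.Icc 1 (N : ℤ)) :
    ∑ y ∈ Icc 1 ((N : ℤ) + J), G A J y = A.card := by
  have h := hat_conv N J A hA (fun _ => 1) 0
  unfold hat at h
  have hJ' : (J : ℂ) ≠ 0 := by exact_mod_cast hJ.ne'
  have hmu : mu J 0 = 1 := by
    unfold mu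
    simp [ee_zero, hJ']
  simp only [zero_mul, neg_zero, ee_zero, mul_one, hmu, conv_one, Finset.sum_const,
    nsmul_eq_mul] at h
  exact_mod_cast h

lemma G_le (A : Finset ℤ) (L J : ℕ) (hJ : 0 < J) (B : ℝ) (hreg : Regular A 1 L B) (hLJ : L ≤ J)
    (y : ℤ) : G A J y ≤ B := by
  unfold G
  rw [div_le_iff₀ (by exact_mod_cast hJ)]
  have h := hreg 1 le_rfl le_rfl (y - J + 1) J hLJ
  refine le_trans (le_of_eq ?_) h
  congr 2
  ext x
  simp only [Finset.mem_filter]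
  refine and_congr_right (fun _ => ⟨fun h => ?_, ?_⟩)
  · refine ⟨(x - (y - J + 1)).toNat, ?_, ?_⟩
    · omega
    · push_cast
      omega
  · rintro ⟨i, hi, rfl⟩
    push_cast
    constructor <;> omega

lemma card_shift (N : ℕ) (t : ℤ) (ht : 10 * |t| ≤ N) :
    ((((Icc 1 (N : ℤ)).filter (fun y => y + t ∈ Icc 1 (N : ℤ))).card : ℕ) : ℤ) = N - |t| := by
  have : (Icc 1 (N : ℤ)).filter (fun y => y + t ∈ Icc 1 (N : ℤ)) =
      Icc (max 1 (1 - t)) (min (N : ℤ) (N - t)) := by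
    ext y
    simp only [Finset.mem_filter, Finset.mem_Icc]
    omega
  rw [this, Int.card_Icc]
  rcases abs_cases t with ⟨h1, h2⟩ | ⟨h1, h2⟩ <;> rw [h1] at ht ⊢ <;> omega

/-- lower bound for sums of `G` over large subsets of the support -/
lemma sum_G_sub (N J : ℕ) (hJ : 0 < J) (A : Finset ℤ) (hA : A ⊆ Finset.Icc 1 (N : ℤ)) (B : ℝ)
    (hG : ∀ y, G A J y ≤ B) (S : Finset ℤ) (hS : S ⊆ Icc 1 ((N : ℤ) + J)) :
    (A.card : ℝ) - B * (N + J - S.card) ≤ ∑ y ∈ S, G A J y := by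
  have h1 := Finset.sum_sdiff (f := G A J) hS
  rw [sum_G N J hJ A hA] at h1
  have h2 : ∑ y ∈ Icc 1 ((N : ℤ) + J) \ S, G A J y ≤ (Icc 1 ((N : ℤ) + J) \ S).card • B :=
    Finset.sum_le_card_nsmul _ _ _ (fun y _ => hG y)
  rw [Finset.card_sdiff_of_subset hS, nsmul_eq_mul] at h2
  have h3 : S.card ≤ (Icc 1 ((N : ℤ) + J)).card := Finset.card_le_card hS
  have h4 : (Icc 1 ((N : ℤ) + J)).card = N + J := by
    rw [Int.card_Icc]; omega
  rw [h4] at h2 h3
  rw [Nat.cast_sub h3] at h2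
  push_cast at h2
  linarith

/-- correlations of `G` -/
lemma corr_lower (N J T : ℕ) (hJ : 0 < J) (A : Finset ℤ) (hA : A ⊆ Finset.Icc 1 (N : ℤ))
    (α η : ℝ) (hcard : (A.card : ℝ) = α * N) (hα : 0 < α) (hη : 0 < η) (hη1 : η ≤ 1 / 1000)
    (hJN : (J : ℝ) ≤ η * N) (hG : ∀ y, G A J y ≤ (1 + η) * α) (t : ℤ) (ht : 10 * |t| ≤ N) :
    3 / 4 * (α ^ 2 * N) ≤ ∑ x ∈ Icc 1 ((N : ℤ) + J), ∑ y ∈ Icc 1 ((N : ℤ) + J),
      if (T : ℤ) ∣ t - x + y then G A J x * G A J y else 0 := by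
  set B := (1 + η) * α with hB
  set S := (Icc 1 (N : ℤ)).filter (fun y => y + t ∈ Icc 1 (N : ℤ)) with hS
  set S' := (Icc 1 (N : ℤ)).filter (fun y => y + (-t) ∈ Icc 1 (N : ℤ)) with hS'
  have hN0 : (0 : ℝ) ≤ N := by positivity
  have hB0 : 0 < B := by positivity
  have hcS : ((S.card : ℕ) : ℝ) = N - |(t : ℝ)| := by
    have := card_shift N t ht
    rw [← hS] at this
    have h2 : (((S.card : ℕ) : ℤ) : ℝ) = (((N : ℤ) - |t| : ℤ) : ℝ) := by rw [this]
    push_cast at h2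
    exact h2
  have hcS' : ((S'.card : ℕ) : ℝ) = N - |(t : ℝ)| := by
    have := card_shift N (-t) (by rwa [abs_neg])
    rw [← hS', abs_neg] at this
    have h2 : (((S'.card : ℕ) : ℤ) : ℝ) = (((N : ℤ) - |t| : ℤ) : ℝ) := by rw [this]
    push_cast at h2
    exact h2
  have htR : 10 * |(t : ℝ)| ≤ N := by exact_mod_cast ht
  have hsub : ∀ s : ℤ, (Icc 1 (N : ℤ)).filter (fun y => y + s ∈ Icc 1 (N : ℤ)) ⊆
      Icc 1 ((N : ℤ) + J) := by
    intro s y hy
    simp only [Finset.mem_filter, Finset.mem_Icc] at hy ⊢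
    omega
  have h1 := sum_G_sub N J hJ A hA B hG S (hsub t)
  have h2 := sum_G_sub N J hJ A hA B hG S' (hsub (-t))
  have h3 : ∑ y ∈ S, G A J (y + t) = ∑ y ∈ S', G A J y := by
    refine Finset.sum_nbij' (fun y => y + t) (fun y => y + (-t)) ?_ ?_ ?_ ?_ ?_
    · intro y hy
      simp only [hS, hS', Finset.mem_filter] at hy ⊢
      exact ⟨hy.2, by simpa using hy.1⟩
    · intro y hy
      simp only [hS, hS', Finset.mem_filter] at hy ⊢
      exact ⟨hy.2, by simpa using hy.1⟩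
    · intro y _; simp
    · intro y _; simp
    · intro y _; rfl
  rw [← h3] at h2
  -- the double sum dominates the diagonal
  have hlow : ∑ y ∈ S, G A J (y + t) * G A J y ≤ ∑ x ∈ Icc 1 ((N : ℤ) + J),
      ∑ y ∈ Icc 1 ((N : ℤ) + J), if (T : ℤ) ∣ t - x + y then G A J x * G A J y else 0 := by
    rw [Finset.sum_comm]
    refine (Finset.sum_le_sum (f := fun y => G A J (y + t) * G A J y)
      (g := fun y => ∑ x ∈ Icc 1 ((N : ℤ) + J),
        if (T : ℤ) ∣ t - x + y then G A J x * G A J y else 0) (fun y hy => ?_)).trans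
      (Finset.sum_le_sum_of_subset_of_nonneg (hsub t) (fun y _ _ =>
        Finset.sum_nonneg (fun x _ => ?_)))
    · have hmem : y + t ∈ Icc 1 ((N : ℤ) + J) := by
        simp only [hS, Finset.mem_filter, Finset.mem_Icc] at hy ⊢
        omega
      have := Finset.single_le_sum (f := fun x =>
        if (T : ℤ) ∣ t - x + y then G A J x * G A J y else 0) (fun x _ => by
          split_ifs
          · exact mul_nonneg (G_nonneg _ _ _) (G_nonneg _ _ _)
          · exact le_rfl) hmem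
      refine le_trans (le_of_eq ?_) this
      rw [if_pos]
      exact ⟨0, by ring⟩
    · split_ifs
      · exact mul_nonneg (G_nonneg _ _ _) (G_nonneg _ _ _)
      · exact le_rfl
  have hpt : ∑ y ∈ S, (B * (G A J y + G A J (y + t)) - B ^ 2) ≤
      ∑ y ∈ S, G A J (y + t) * G A J y := by
    refine Finset.sum_le_sum (fun y _ => ?_)
    nlinarith [mul_nonneg (sub_nonneg.2 (hG y)) (sub_nonneg.2 (hG (y + t)))]
  rw [Finset.sum_sub_distrib, ← Finset.mul_sum, Finset.sum_add_distrib, Finset.sum_const,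
    nsmul_eq_mul] at hpt
  refine le_trans ?_ (hpt.trans hlow)
  rw [hcS] at h1 hpt ⊢
  rw [hcS'] at h2
  rw [hcard] at h1 h2
  have habs : 0 ≤ |(t : ℝ)| := abs_nonneg _
  have e1 : B * ((∑ y ∈ S, G A J y) + ∑ y ∈ S, G A J (y + t)) ≥
      B * (2 * (α * N) - 2 * B * (J + |(t : ℝ)|)) := by
    apply mul_le_mul_of_nonneg_left _ hB0.le
    linarith
  have e2 : (N - |(t : ℝ)|) * B ^ 2 ≤ N * B ^ 2 := by
    apply mul_le_mul_of_nonneg_right _ (sq_nonneg _)
    linarith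
  have e3 : 2 * B * (J + |(t : ℝ)|) ≤ 2 * B * ((η + 1 / 10) * N) := by
    apply mul_le_mul_of_nonneg_left _ (by positivity)
    linarith
  have e4 : B * (2 * (α * N) - 2 * B * ((η + 1 / 10) * N)) - N * B ^ 2 =
      (α ^ 2 * N) * (2 * (1 + η) - 2 * (1 + η) ^ 2 * (η + 1 / 10) - (1 + η) ^ 2) := by
    rw [hB]; ring
  have e5 : 3 / 4 ≤ 2 * (1 + η) - 2 * (1 + η) ^ 2 * (η + 1 / 10) - (1 + η) ^ 2 := by
    nlinarith [mul_pos hη hη, mul_pos (mul_pos hη hη) hη]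
  have e6 : (α ^ 2 * N) * (3 / 4) ≤ (α ^ 2 * N) * (2 * (1 + η) - 2 * (1 + η) ^ 2 * (η + 1 / 10) -
      (1 + η) ^ 2) := mul_le_mul_of_nonneg_left e5 (by positivity)
  have e7 : B * (2 * (α * N) - 2 * B * ((η + 1 / 10) * N)) ≤
      B * (2 * (α * N) - 2 * B * (J + |(t : ℝ)|)) := by
    apply mul_le_mul_of_nonneg_left _ hB0.le
    linarith
  linarith

/-- correlations of `A` -/
lemma corr_avoid (N T : ℕ) (A : Finset ℤ) (hA : A ⊆ Finset.Icc 1 (N : ℤ)) (hT : 2 * N < T)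
    (P : ℤ[X]) (hav : Avoids P A) (n : ℕ) (hn : 1 ≤ n) (hPn : 10 * |P.eval (n : ℤ)| ≤ (N : ℤ)) :
    (∑ x ∈ A, ∑ y ∈ A, if (T : ℤ) ∣ P.eval (n : ℤ) - x + y then (1 : ℝ) else 0) ≤
      if P.eval (n : ℤ) = 0 then (A.card : ℝ) else 0 := by
  have hdvd : ∀ x ∈ A, ∀ y ∈ A, (T : ℤ) ∣ P.eval (n : ℤ) - x + y → x - y = P.eval (n : ℤ) := by
    intro x hx y hy hd
    have hx1 := Finset.mem_Icc.1 (hA hx)
    have hy1 := Finset.mem_Icc.1 (hA hy)
    have habs := abs_le.1 (show |P.eval (n : ℤ)| ≤ N by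
      have := abs_nonneg (P.eval (n : ℤ)); omega)
    have h0 : P.eval (n : ℤ) - x + y = 0 := by
      refine Int.eq_zero_of_abs_lt_dvd hd ?_
      rw [abs_lt]
      have := abs_le.1 (show |P.eval (n : ℤ)| ≤ (N : ℤ) by
        have := abs_nonneg (P.eval (n : ℤ)); omega)
      have hT' : (2 * N : ℤ) < T := by exact_mod_cast hT
      constructor <;> omega
    omega
  split_ifs with h0
  · refine le_of_eq ?_
    rw [show (A.card : ℝ) = ∑ x ∈ A, (1 : ℝ) by simp]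
    refine Finset.sum_congr rfl (fun x hx => ?_)
    rw [Finset.sum_eq_single_of_mem x hx]
    · rw [if_pos]
      rw [h0]; simp
    · intro y hy hyx
      rw [if_neg]
      intro hd
      have := hdvd x hx y hy hd
      rw [h0] at this
      omega
  · refine le_of_eq (Finset.sum_eq_zero (fun x hx => Finset.sum_eq_zero (fun y hy => ?_)))
    rw [if_neg]
    intro hd
    have h1 := hdvd x hx y hy hd
    have h2 := hav x hx y hy n hn h1
    omega

/-- the contribution of one arc -/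
lemma arc_le (N J T : ℕ) (hT : 0 < T) (hTN : N + J < T) (A : Finset ℤ)
    (hA : A ⊆ Finset.Icc 1 (N : ℤ)) (a q : ℕ) :
    ∑ j ∈ range T, ‖hat A (fun _ => 1) ((j : ℝ) / T)‖ ^ 2 * ‖mu J ((j : ℝ) / T - a / q)‖ ^ 2 =
      T * ∑ y ∈ Icc 1 ((N : ℤ) + J), ‖(∑ x ∈ A.filter (fun x => y - J < x ∧ x ≤ y - J + J),
        ee (-((a : ℝ) * (x : ℝ) / q))) / (J : ℂ)‖ ^ 2 := by
  set F : ℤ → ℂ := fun x => ee (-((a : ℝ) * (x : ℝ) / q)) with hF
  have h1 : ∀ t : ℝ, hat A (fun _ => 1) t = hat A F (t - a / q) := by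
    intro t
    unfold hat
    refine Finset.sum_congr rfl (fun x _ => ?_)
    rw [one_mul, hF, ← ee_add]
    congr 1
    ring
  have h2 : ∀ t : ℝ, hat A F (t - a / q) * mu J (t - a / q) =
      hat (Icc 1 ((N : ℤ) + J)) (fun y => conv A J F y * ee ((a : ℝ) / q * y)) t := by
    intro t
    rw [← hat_conv N J A hA]
    unfold hat
    refine Finset.sum_congr rfl (fun y _ => ?_)
    rw [mul_assoc, ← ee_add]
    congr 2
    ring
  have h3 : ∀ j : ℕ, ‖hat A (fun _ => 1) ((j : ℝ) / T)‖ ^ 2 *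
      ‖mu J ((j : ℝ) / T - a / q)‖ ^ 2 = ‖hat (Icc 1 ((N : ℤ) + J))
        (fun y => conv A J F y * ee ((a : ℝ) / q * y)) ((j : ℝ) / T)‖ ^ 2 := by
    intro j
    rw [← mul_pow, ← norm_mul, h1, h2]
  simp_rw [h3]
  rw [parseval_norm T hT]
  · congr 1
    refine Finset.sum_congr rfl (fun y _ => ?_)
    rw [norm_mul, norm_ee, mul_one]
    unfold conv
    congr 3
    refine Finset.sum_congr ?_ (fun _ _ => rfl)
    ext x
    simp only [Finset.mem_filter]
    refine and_congr_right (fun _ => ?_)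
    rw [sub_add_cancel]
  · intro x hx y hy hd
    have hx1 := Finset.mem_Icc.1 hx
    have hy1 := Finset.mem_Icc.1 hy
    have hT' : (N + J : ℤ) < T := by exact_mod_cast hTN
    have h0 : y - x = 0 := by
      refine Int.eq_zero_of_abs_lt_dvd hd ?_
      rw [abs_lt]
      constructor <;> omega
    omega

/-- shifting the window -/
lemma sum_window (N J : ℕ) (hN : 0 < N) (A : Finset ℤ) (hA : A ⊆ Finset.Icc 1 (N : ℤ)) (q : ℕ) :
    ∑ y ∈ Icc 1 ((N : ℤ) + J), EN A (y - J) J q = ∑ y ∈ Ioo (-(J : ℤ)) N, EN A y J q := by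
  have h1 : ∑ y ∈ Icc 1 ((N : ℤ) + J), EN A (y - J) J q =
      ∑ y ∈ Ioc (-(J : ℤ)) N, EN A y J q := by
    refine Finset.sum_nbij' (fun y => y - J) (fun y => y + J) ?_ ?_ ?_ ?_ ?_
    · intro y hy; simp only [Finset.mem_Icc, Finset.mem_Ioc] at hy ⊢; omega
    · intro y hy; simp only [Finset.mem_Icc, Finset.mem_Ioc] at hy ⊢; omega
    · intro y _; simp
    · intro y _; simp
    · intro y _; rfl
  have h2 : Ioc (-(J : ℤ)) N = insert (N : ℤ) (Ioo (-(J : ℤ)) N) := by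
    ext y; simp only [Finset.mem_insert, Finset.mem_Ioc, Finset.mem_Ioo]; omega
  have h3 : EN A (N : ℤ) J q = 0 := by
    unfold EN
    refine Finset.sum_eq_zero (fun a _ => ?_)
    have : A.filter (fun x => (N : ℤ) < x ∧ x ≤ N + J) = ∅ := by
      rw [Finset.filter_eq_empty_iff]
      intro x hx
      have := Finset.mem_Icc.1 (hA hx)
      omega
    rw [this]
    simp
  rw [h1, h2, Finset.sum_insert (by simp), h3, zero_add]

lemma hhatG (N J : ℕ) (A : Finset ℤ) (hA : A ⊆ Finset.Icc 1 (N : ℤ)) (t : ℝ) :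
    hat A (fun _ => 1) t * mu J t =
      hat (Icc 1 ((N : ℤ) + J)) (fun y => (G A J y : ℂ)) t := by
  rw [← hat_conv N J A hA]
  unfold hat
  refine Finset.sum_congr rfl (fun y _ => ?_)
  rw [conv_one]

/-- the energy of the frequency `j / T` -/
noncomputable def En (A : Finset ℤ) (T j : ℕ) : ℝ := ‖hat A (fun _ => 1) ((j : ℝ) / T)‖ ^ 2

/-- the weight of the frequency `j / T` -/
noncomputable def Wt (J T j : ℕ) : ℝ := ‖mu J ((j : ℝ) / T)‖ ^ 2

lemma En_nonneg (A : Finset ℤ) (T j : ℕ) : 0 ≤ En A T j := by unfold En; positivity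

lemma Wt_nonneg (J T j : ℕ) : 0 ≤ Wt J T j := by unfold Wt; positivity

lemma Wt_le_one (J T j : ℕ) : Wt J T j ≤ 1 := pow_le_one₀ (norm_nonneg _) (norm_mu_le _ _)

lemma ident (T : ℕ) (hT0 : 0 < T) (M : ℕ) (P : ℤ[X]) (I : Finset ℤ) (u : ℤ → ℝ) :
    ∑ j ∈ range T, ((‖hat I (fun x => (u x : ℂ)) ((j : ℝ) / T)‖ ^ 2 : ℝ) : ℂ) *
      ES P M ((j : ℝ) / T) = ((T * ∑ n ∈ Icc 1 M, ∑ x ∈ I, ∑ y ∈ I,
    (if (T : ℤ) ∣ P.eval (n : ℤ) - x + y then u x * u y else 0) : ℝ) : ℂ) := by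
  have e : ∀ j : ℕ, ((‖hat I (fun x => (u x : ℂ)) ((j : ℝ) / T)‖ ^ 2 : ℝ) : ℂ) *
      ES P M ((j : ℝ) / T) = ∑ n ∈ Icc 1 M,
      hat I (fun x => (u x : ℂ)) ((j : ℝ) / T) *
        conj (hat I (fun x => (u x : ℂ)) ((j : ℝ) / T)) *
        ee ((j : ℝ) / T * ((P.eval (n : ℤ) : ℤ) : ℝ)) := by
    intro j
    unfold ES
    rw [Finset.mul_sum]
    refine Finset.sum_congr rfl (fun n _ => ?_)
    rw [Complex.mul_conj, Complex.normSq_eq_norm_sq]
  simp_rw [e]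
  rw [Finset.sum_comm]
  push_cast
  rw [Finset.mul_sum]
  refine Finset.sum_congr rfl (fun n _ => ?_)
  rw [parseval T hT0]
  congr 1
  refine Finset.sum_congr rfl (fun x _ => Finset.sum_congr rfl (fun y _ => ?_))
  split_ifs
  · rw [Complex.conj_ofReal]
    push_cast
    rfl
  · push_cast
    rfl

lemma diff_le (N J T M : ℕ) (hT0 : 0 < T) (A : Finset ℤ) (hA : A ⊆ Finset.Icc 1 (N : ℤ))
    (P : ℤ[X]) :
    T * ((∑ n ∈ Icc 1 M, ∑ x ∈ Icc 1 ((N : ℤ) + J), ∑ y ∈ Icc 1 ((N : ℤ) + J),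
      (if (T : ℤ) ∣ P.eval (n : ℤ) - x + y then G A J x * G A J y else 0)) -
      ∑ n ∈ Icc 1 M, ∑ x ∈ A, ∑ y ∈ A,
        (if (T : ℤ) ∣ P.eval (n : ℤ) - x + y then (1 : ℝ) else 0)) ≤
    ∑ j ∈ range T, En A T j * (1 - Wt J T j) * ‖ES P M ((j : ℝ) / T)‖ := by
  set X1 : ℝ := ∑ n ∈ Icc 1 M, ∑ x ∈ A, ∑ y ∈ A,
    (if (T : ℤ) ∣ P.eval (n : ℤ) - x + y then (1 : ℝ) else 0) with hX1
  set X2 : ℝ := ∑ n ∈ Icc 1 M, ∑ x ∈ Icc 1 ((N : ℤ) + J), ∑ y ∈ Icc 1 ((N : ℤ) + J),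
    (if (T : ℤ) ∣ P.eval (n : ℤ) - x + y then G A J x * G A J y else 0) with hX2
  have hid1 : ∑ j ∈ range T, (En A T j : ℂ) * ES P M ((j : ℝ) / T) = ((T * X1 : ℝ) : ℂ) := by
    have := ident T hT0 M P A (fun _ => 1)
    simp only [Complex.ofReal_one, mul_one] at this
    exact this
  have hid2 : ∑ j ∈ range T, ((En A T j * Wt J T j : ℝ) : ℂ) * ES P M ((j : ℝ) / T) =
      ((T * X2 : ℝ) : ℂ) := by
    rw [hX2, ← ident T hT0 M P (Icc 1 ((N : ℤ) + J)) (G A J)]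
    refine Finset.sum_congr rfl (fun j _ => ?_)
    rw [← hhatG N J A hA, norm_mul, mul_pow]
    rfl
  have h1 : ∑ j ∈ range T, ((En A T j * (Wt J T j - 1) : ℝ) : ℂ) * ES P M ((j : ℝ) / T) =
      ((T * (X2 - X1) : ℝ) : ℂ) := by
    have : ((T * (X2 - X1) : ℝ) : ℂ) = ((T * X2 : ℝ) : ℂ) - ((T * X1 : ℝ) : ℂ) := by
      push_cast; ring
    rw [this, ← hid1, ← hid2, ← Finset.sum_sub_distrib]
    refine Finset.sum_congr rfl (fun j _ => ?_)
    push_cast
    ring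
  have h2 : T * (X2 - X1) ≤ ‖((T * (X2 - X1) : ℝ) : ℂ)‖ := by
    rw [Complex.norm_real]
    exact le_abs_self _
  rw [← h1] at h2
  refine h2.trans ((norm_sum_le _ _).trans (Finset.sum_le_sum (fun j _ => ?_)))
  rw [norm_mul, Complex.norm_real, Real.norm_eq_abs, abs_mul, abs_of_nonneg (En_nonneg A T j),
    abs_sub_comm, abs_of_nonneg (sub_nonneg.2 (Wt_le_one J T j))]

open Classical in
/-- indicator of the arc around `a / q` -/
noncomputable def ind (κ₀ : ℝ) (T q a j : ℕ) : ℝ :=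
  if ∃ z : ℤ, |(j : ℝ) / T - a / q - z| ≤ κ₀ then 1 else 0

lemma ind_nonneg (κ₀ : ℝ) (T q a j : ℕ) : 0 ≤ ind κ₀ T q a j := by
  unfold ind
  split_ifs <;> norm_num

lemma point (P : ℤ[X]) (M T Q : ℕ) (δ κ₀ : ℝ) (b : ℕ → ℝ) (hb0 : ∀ q, 0 ≤ b q)
    (hM : (1 : ℝ) ≤ M)
    (harc : ∀ θ : ℝ, ‖ES P M θ‖ ≤ δ * M ∨ ∃ (a : ℤ) (q : ℕ), 1 ≤ q ∧ q ≤ Q ∧ Int.gcd a q = 1 ∧
      |θ - a / q| ≤ κ₀ ∧ ‖ES P M θ‖ ≤ (b q + δ) * M) (j : ℕ) :
    ‖ES P M ((j : ℝ) / T)‖ ≤ M * (δ + ∑ q ∈ Icc 1 Q,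
      ∑ a ∈ (range q).filter (fun a => Nat.Coprime a q), b q * ind κ₀ T q a j) := by
  have hnn : 0 ≤ ∑ q ∈ Icc 1 Q, ∑ a ∈ (range q).filter (fun a => Nat.Coprime a q),
      b q * ind κ₀ T q a j :=
    Finset.sum_nonneg (fun q _ => Finset.sum_nonneg (fun a _ =>
      mul_nonneg (hb0 q) (ind_nonneg _ _ _ _ _)))
  rcases harc ((j : ℝ) / T) with h | ⟨a, q, hq1, hqQ, hgcd, hclose, hbd⟩
  · refine h.trans ?_
    nlinarith
  · refine hbd.trans ?_
    rw [mul_comm]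
    refine mul_le_mul_of_nonneg_left ?_ (by linarith)
    rw [add_comm]
    refine add_le_add_right ?_ δ
    have hq0 : (0 : ℤ) < q := by exact_mod_cast hq1
    set a' : ℕ := (a % q).toNat with ha'
    have ha'1 : (a' : ℤ) = a % q := Int.toNat_of_nonneg (Int.emod_nonneg _ hq0.ne')
    have ha'q : a' < q := by
      have := Int.emod_lt_of_pos a hq0
      omega
    have hcop : Nat.Coprime a' q := by
      have h1 : Int.gcd (a' : ℤ) q = 1 := by
        rw [ha'1, Int.gcd_emod]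
        exact hgcd
      simpa using h1
    have hindv : ind κ₀ T q a' j = 1 := by
      unfold ind
      rw [if_pos]
      refine ⟨a / q, ?_⟩
      have : ((a' : ℕ) : ℝ) / q + ((a / q : ℤ) : ℝ) = (a : ℝ) / q := by
        have h1 : (a : ℤ) = a' + q * (a / q) := by
          rw [ha'1]; exact (Int.emod_add_mul_ediv a q).symm
        have h2 : (a : ℝ) = a' + q * ((a / q : ℤ) : ℝ) := by exact_mod_cast h1
        have hq' : (q : ℝ) ≠ 0 := by positivity
        rw [eq_div_iff hq']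
        rw [add_mul, div_mul_cancel₀ _ hq']
        linarith
      have h2 : (j : ℝ) / T - (a' : ℝ) / q - ((a / q : ℤ) : ℝ) = (j : ℝ) / T - a / q := by
        rw [← this]; ring
      rw [h2]
      exact hclose
    calc b q = b q * ind κ₀ T q a' j := by rw [hindv, mul_one]
      _ ≤ ∑ a ∈ (range q).filter (fun a => Nat.Coprime a q), b q * ind κ₀ T q a j :=
          Finset.single_le_sum (f := fun a => b q * ind κ₀ T q a j)
            (fun a _ => mul_nonneg (hb0 q) (ind_nonneg _ _ _ _ _))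
            (Finset.mem_filter.2 ⟨mem_range.2 ha'q, hcop⟩)
      _ ≤ _ := Finset.single_le_sum (f := fun q =>
          ∑ a ∈ (range q).filter (fun a => Nat.Coprime a q), b q * ind κ₀ T q a j)
            (fun q _ => Finset.sum_nonneg (fun a _ =>
              mul_nonneg (hb0 q) (ind_nonneg _ _ _ _ _)))
            (Finset.mem_Icc.2 ⟨hq1, hqQ⟩)

lemma mu_close (J : ℕ) (hJ : 0 < J) (κ₀ η : ℝ) (hκJ : κ₀ * J ≤ η / 100) (s : ℝ) (z : ℤ)
    (hs : |s - z| ≤ κ₀) : ‖mu J s - 1‖ ≤ η / 15 := by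
  have hpi : Real.pi ≤ 3.15 := Real.pi_lt_d2.le
  have h1 : mu J s = mu J (s - z) := by
    rw [← mu_add_int J (s - z) z, sub_add_cancel]
  rw [h1]
  refine (norm_mu_sub_one J hJ _).trans ?_
  have h2 : |s - z| * J ≤ η / 100 := (mul_le_mul_of_nonneg_right hs (by positivity)).trans hκJ
  have h0 : 0 ≤ |s - z| * J := by positivity
  have h3 : 2 * Real.pi * |s - z| * J = 2 * Real.pi * (|s - z| * J) := by ring
  rw [h3]
  have h4 : 2 * Real.pi * (|s - z| * J) ≤ 2 * 3.15 * (η / 100) := by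
    apply mul_le_mul (by linarith) h2 h0 (by norm_num)
  linarith

lemma one_sub_le (J : ℕ) (s : ℝ) : 1 - ‖mu J s - 1‖ ≤ ‖mu J s‖ := by
  have := norm_sub_norm_le (1 : ℂ) (1 - mu J s)
  rw [norm_one, norm_sub_rev, sub_sub_cancel] at this
  exact this

lemma mu_close2 (J : ℕ) (hJ : 0 < J) (κ₀ η : ℝ) (hη1 : η ≤ 1 / 1000) (hκJ : κ₀ * J ≤ η / 100)
    (s : ℝ) (z : ℤ) (hs : |s - z| ≤ κ₀) : 1 ≤ 4 * ‖mu J s‖ ^ 2 := by
  have h1 := mu_close J hJ κ₀ η hκJ s z hs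
  have h2 := one_sub_le J s
  nlinarith

lemma big_arc (N J T : ℕ) (hN : 0 < N) (hJ : 0 < J) (hT0 : 0 < T) (hTN : N + J < T)
    (A : Finset ℤ) (hA : A ⊆ Finset.Icc 1 (N : ℤ)) (κ₀ η : ℝ) (hη1 : η ≤ 1 / 1000)
    (hκJ : κ₀ * J ≤ η / 100) (q : ℕ) :
    ∑ a ∈ (range q).filter (fun a => Nat.Coprime a q),
      ∑ j ∈ range T, En A T j * (1 - Wt J T j) * ind κ₀ T q a j ≤
      4 * T * ∑ y ∈ Ioo (-(J : ℤ)) N, EN A y J q := by
  have h1 : ∀ a ∈ (range q).filter (fun a => Nat.Coprime a q),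
      ∑ j ∈ range T, En A T j * (1 - Wt J T j) * ind κ₀ T q a j ≤
        4 * (T * ∑ y ∈ Icc 1 ((N : ℤ) + J),
        ‖(∑ x ∈ A.filter (fun x => y - J < x ∧ x ≤ y - J + J),
      ee (-((a : ℝ) * (x : ℝ) / q))) / (J : ℂ)‖ ^ 2) := by
    intro a _
    rw [← arc_le N J T hT0 (by omega) A hA a q, Finset.mul_sum]
    refine Finset.sum_le_sum (fun j _ => ?_)
    unfold ind
    split_ifs with h
    · obtain ⟨z, hz⟩ := h
      have h2 := mu_close2 J hJ κ₀ η hη1 hκJ _ z hz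
      calc En A T j * (1 - Wt J T j) * 1 ≤ En A T j * 1 * 1 := by
            have := Wt_nonneg J T j
            have := En_nonneg A T j
            nlinarith
        _ ≤ En A T j * (4 * ‖mu J ((j : ℝ) / T - a / q)‖ ^ 2) := by
            rw [mul_one, mul_one]
            calc En A T j = En A T j * 1 := (mul_one _).symm
              _ ≤ _ := mul_le_mul_of_nonneg_left h2 (En_nonneg A T j)
        _ = _ := by unfold En; ring
    · rw [mul_zero]; positivity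
  refine (Finset.sum_le_sum h1).trans (le_of_eq ?_)
  rw [← Finset.mul_sum, ← Finset.mul_sum, Finset.sum_comm, ← mul_assoc,
    ← sum_window N J hN A hA q]
  rfl

lemma zero_arc (J T : ℕ) (hJ : 0 < J)
    (A : Finset ℤ) (κ₀ η : ℝ) (hη0 : 0 < η) (hη1 : η ≤ 1 / 1000)
    (hκJ : κ₀ * J ≤ η / 100) :
    ∑ a ∈ (range 1).filter (fun a => Nat.Coprime a 1),
      ∑ j ∈ range T, En A T j * (1 - Wt J T j) * ind κ₀ T 1 a j ≤
      (8 * η / 15) * ∑ j ∈ range T, En A T j * Wt J T j := by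
  have h0 : (range 1).filter (fun a => Nat.Coprime a 1) = {0} := by decide
  rw [h0, Finset.sum_singleton, Finset.mul_sum]
  refine Finset.sum_le_sum (fun j _ => ?_)
  have hE := En_nonneg A T j
  have hW := Wt_nonneg J T j
  unfold ind
  split_ifs with h
  · obtain ⟨z, hz⟩ := h
    have hz' : |(j : ℝ) / T - z| ≤ κ₀ := by simpa using hz
    have h2 := mu_close2 J hJ κ₀ η hη1 hκJ _ z hz'
    have h3 := mu_close J hJ κ₀ η hκJ _ z hz'
    have h5 := one_sub_le J ((j : ℝ) / T)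
    have h6 := norm_mu_le J ((j : ℝ) / T)
    have h4 : 1 - Wt J T j ≤ 2 * (η / 15) := by
      unfold Wt
      nlinarith [norm_nonneg (mu J ((j : ℝ) / T))]
    have h7 : 1 ≤ 4 * Wt J T j := h2
    have h8 : En A T j * (1 - Wt J T j) ≤ En A T j * (2 * (η / 15)) :=
      mul_le_mul_of_nonneg_left h4 hE
    have h9 : En A T j * (2 * (η / 15)) * 1 ≤ En A T j * (2 * (η / 15)) * (4 * Wt J T j) :=
      mul_le_mul_of_nonneg_left h7 (by positivity)
    linarith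
  · rw [mul_zero]
    positivity

/-- abstract summation over the arcs -/
lemma sum_arcs (T M Q : ℕ) (E W S : ℕ → ℝ) (ii : ℕ → ℕ → ℕ → ℝ) (b : ℕ → ℝ)
    (δ X0 X1 : ℝ) (Y : ℕ → ℝ) (hδ0 : 0 ≤ δ) (hM : (1 : ℝ) ≤ M)
    (hE0 : ∀ j, 0 ≤ E j) (hW0 : ∀ j, 0 ≤ W j) (hW1 : ∀ j, W j ≤ 1)
    (hi0 : ∀ q a j, 0 ≤ ii q a j) (hb0 : ∀ q, 0 ≤ b q) (hb1 : b 1 ≤ 1)
    (hpoint : ∀ j, S j ≤ M * (δ + ∑ q ∈ Icc 1 Q,
      ∑ a ∈ (range q).filter (fun a => Nat.Coprime a q), b q * ii q a j))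
    (hEsum : ∑ j ∈ range T, E j ≤ X0)
    (hq1 : ∑ a ∈ (range 1).filter (fun a => Nat.Coprime a 1),
      ∑ j ∈ range T, E j * (1 - W j) * ii 1 a j ≤ X1)
    (hq2 : ∀ q ∈ Icc 2 Q, ∑ a ∈ (range q).filter (fun a => Nat.Coprime a q),
      ∑ j ∈ range T, E j * (1 - W j) * ii q a j ≤ Y q) :
    ∑ j ∈ range T, E j * (1 - W j) * S j ≤
      M * (δ * X0 + X1 + ∑ q ∈ Icc 2 Q, b q * Y q) := by
  have h1 : ∑ j ∈ range T, E j * (1 - W j) * S j ≤
      ∑ j ∈ range T, E j * (1 - W j) * (M * (δ + ∑ q ∈ Icc 1 Q,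
        ∑ a ∈ (range q).filter (fun a => Nat.Coprime a q), b q * ii q a j)) :=
    Finset.sum_le_sum (fun j _ => mul_le_mul_of_nonneg_left (hpoint j)
      (mul_nonneg (hE0 j) (sub_nonneg.2 (hW1 j))))
  have h2 : ∑ j ∈ range T, E j * (1 - W j) * (M * (δ + ∑ q ∈ Icc 1 Q,
        ∑ a ∈ (range q).filter (fun a => Nat.Coprime a q), b q * ii q a j)) =
      M * (δ * ∑ j ∈ range T, E j * (1 - W j) + ∑ q ∈ Icc 1 Q, b q *
        ∑ a ∈ (range q).filter (fun a => Nat.Coprime a q),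
          ∑ j ∈ range T, E j * (1 - W j) * ii q a j) := by
    have e1 : ∀ j : ℕ, E j * (1 - W j) * (M * (δ + ∑ q ∈ Icc 1 Q,
        ∑ a ∈ (range q).filter (fun a => Nat.Coprime a q), b q * ii q a j)) =
        M * (δ * (E j * (1 - W j))) + M * ∑ q ∈ Icc 1 Q,
          ∑ a ∈ (range q).filter (fun a => Nat.Coprime a q),
            b q * (E j * (1 - W j) * ii q a j) := by
      intro j
      have : ∑ q ∈ Icc 1 Q, ∑ a ∈ (range q).filter (fun a => Nat.Coprime a q),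
            b q * (E j * (1 - W j) * ii q a j) = (E j * (1 - W j)) * ∑ q ∈ Icc 1 Q,
        ∑ a ∈ (range q).filter (fun a => Nat.Coprime a q), b q * ii q a j := by
        rw [Finset.mul_sum]
        refine Finset.sum_congr rfl (fun q _ => ?_)
        rw [Finset.mul_sum]
        refine Finset.sum_congr rfl (fun a _ => ?_)
        ring
      rw [this]
      ring
    simp_rw [e1]
    rw [Finset.sum_add_distrib, ← Finset.mul_sum, ← Finset.mul_sum, ← Finset.mul_sum, ← mul_add]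
    congr 2
    rw [Finset.sum_comm]
    refine Finset.sum_congr rfl (fun q _ => ?_)
    rw [Finset.sum_comm, Finset.mul_sum]
    refine Finset.sum_congr rfl (fun a _ => ?_)
    rw [Finset.mul_sum]
  rw [h2] at h1
  refine h1.trans (mul_le_mul_of_nonneg_left ?_ (by linarith))
  have h3 : δ * ∑ j ∈ range T, E j * (1 - W j) ≤ δ * X0 := by
    refine mul_le_mul_of_nonneg_left (le_trans (Finset.sum_le_sum (fun j _ => ?_)) hEsum) hδ0
    have := hE0 j
    have := hW0 j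
    nlinarith
  have hnn : ∀ q, 0 ≤ ∑ a ∈ (range q).filter (fun a => Nat.Coprime a q),
        ∑ j ∈ range T, E j * (1 - W j) * ii q a j := fun q =>
    Finset.sum_nonneg (fun a _ => Finset.sum_nonneg (fun j _ =>
      mul_nonneg (mul_nonneg (hE0 j) (sub_nonneg.2 (hW1 j))) (hi0 _ _ _)))
  have h4 : ∑ q ∈ Icc 1 Q, b q * ∑ a ∈ (range q).filter (fun a => Nat.Coprime a q),
          ∑ j ∈ range T, E j * (1 - W j) * ii q a j ≤
      X1 + ∑ q ∈ Icc 2 Q, b q * Y q := by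
    have hsub : Icc 1 Q ⊆ insert 1 (Icc 2 Q) := by
      intro q hq
      simp only [Finset.mem_insert, Finset.mem_Icc] at hq ⊢
      omega
    refine (Finset.sum_le_sum_of_subset_of_nonneg hsub (fun q _ _ =>
      mul_nonneg (hb0 q) (hnn q))).trans ?_
    rw [Finset.sum_insert (by simp)]
    refine add_le_add ?_ ?_
    · calc b 1 * _ ≤ 1 * ∑ a ∈ (range 1).filter (fun a => Nat.Coprime a 1),
          ∑ j ∈ range T, E j * (1 - W j) * ii 1 a j :=
            mul_le_mul_of_nonneg_right hb1 (hnn 1)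
        _ ≤ _ := by rw [one_mul]; exact hq1
    · exact Finset.sum_le_sum (fun q hq => mul_le_mul_of_nonneg_left (hq2 q hq) (hb0 q))
  linarith

end CountAux

open CountAux ComplexConjugate in
theorem counting (N : ℕ) (A : Finset ℤ) (hA : A ⊆ Finset.Icc 1 (N : ℤ)) (α η δ κ₀ : ℝ)
    (hcard : (A.card : ℝ) = α * N) (hα : 0 < α) (hα1 : α ≤ 1) (hη : 0 < η) (hη1 : η ≤ 1 / 1000)
    (P : ℤ[X]) (M k : ℕ) (hM : 1 ≤ M)
    (hPM : ∀ n ∈ Finset.Icc 1 M, 10 * |P.eval (n : ℤ)| ≤ (N : ℤ)) (hav : Avoids P A)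
    (hroots : ((Finset.Icc 1 M).filter (fun n : ℕ => P.eval (n : ℤ) = 0)).card ≤ k)
    (hk : (k : ℝ) ≤ η * α * M) (hδ0 : 0 ≤ δ) (hδ : δ ≤ η * α) (L J Q : ℕ)
    (hreg : Regular A 1 L ((1 + η) * α)) (hL : 1 ≤ L) (hLJ : L ≤ J)
    (hJN : (J : ℝ) ≤ η * N) (hκ : 0 ≤ κ₀) (hκJ : κ₀ * J ≤ η / 100)
    (b : ℕ → ℝ) (hb0 : ∀ q, 0 ≤ b q) (hb1 : b 1 ≤ 1)
    (harc : ∀ θ : ℝ, ‖ES P M θ‖ ≤ δ * M ∨ ∃ (a : ℤ) (q : ℕ), 1 ≤ q ∧ q ≤ Q ∧ Int.gcd a q = 1 ∧
      |θ - a / q| ≤ κ₀ ∧ ‖ES P M θ‖ ≤ (b q + δ) * M) :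
    α ^ 2 * N / 4 ≤ 8 * ∑ y ∈ Finset.Ioo (-(J : ℤ)) N, ∑ q ∈ Finset.Icc 2 Q, b q * EN A y J q := by
  classical
  have hJ : 0 < J := by omega
  have hN : 0 < N := by
    rcases Nat.eq_zero_or_pos N with h | h
    · subst h
      simp at hJN
      omega
    · exact h
  have hNr : (0 : ℝ) < N := by exact_mod_cast hN
  have hMr : (1 : ℝ) ≤ M := by exact_mod_cast hM
  set T : ℕ := 10 * (N + J) + 10 with hT
  have hT0 : 0 < T := by omega
  have hTr : (0 : ℝ) < T := by exact_mod_cast hT0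
  set B := (1 + η) * α with hB
  have hB0 : 0 < B := by positivity
  have hG : ∀ y, G A J y ≤ B := fun y => G_le A L J hJ B hreg hLJ y
  -- Parseval
  have hEsum : ∑ j ∈ range T, En A T j ≤ T * (α * N) := by
    unfold En
    rw [parseval_norm T hT0]
    · rw [← hcard]; simp
    · intro x hx y hy hd
      have hx1 := Finset.mem_Icc.1 (hA hx)
      have hy1 := Finset.mem_Icc.1 (hA hy)
      have h0 : y - x = 0 := by
        refine Int.eq_zero_of_abs_lt_dvd hd ?_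
        rw [abs_lt]
        constructor <;> omega
      omega
  have hI2 : ∀ x ∈ Icc 1 ((N : ℤ) + J), ∀ y ∈ Icc 1 ((N : ℤ) + J), (T : ℤ) ∣ y - x → x = y := by
    intro x hx y hy hd
    have hx1 := Finset.mem_Icc.1 hx
    have hy1 := Finset.mem_Icc.1 hy
    have h0 : y - x = 0 := by
      refine Int.eq_zero_of_abs_lt_dvd hd ?_
      rw [abs_lt]
      constructor <;> omega
    omega
  have hEWsum : ∑ j ∈ range T, En A T j * Wt J T j ≤ T * (B * (α * N)) := by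
    have h1 : ∀ j : ℕ, En A T j * Wt J T j = ‖hat (Icc 1 ((N : ℤ) + J))
        (fun y => (G A J y : ℂ)) ((j : ℝ) / T)‖ ^ 2 := by
      intro j
      unfold En Wt
      rw [← mul_pow, ← norm_mul, hhatG N J A hA]
    simp_rw [h1]
    rw [parseval_norm T hT0 _ _ hI2]
    refine mul_le_mul_of_nonneg_left ?_ hTr.le
    rw [← hcard, ← sum_G N J hJ A hA, Finset.mul_sum]
    refine Finset.sum_le_sum (fun y _ => ?_)
    rw [Complex.norm_real, Real.norm_eq_abs, sq_abs, sq]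
    exact mul_le_mul_of_nonneg_right (hG y) (G_nonneg _ _ _)
  -- the two counting identities
  have hdiff := diff_le N J T M hT0 A hA P
  set X1 : ℝ := ∑ n ∈ Icc 1 M, ∑ x ∈ A, ∑ y ∈ A,
    (if (T : ℤ) ∣ P.eval (n : ℤ) - x + y then (1 : ℝ) else 0) with hX1
  set X2 : ℝ := ∑ n ∈ Icc 1 M, ∑ x ∈ Icc 1 ((N : ℤ) + J), ∑ y ∈ Icc 1 ((N : ℤ) + J),
    (if (T : ℤ) ∣ P.eval (n : ℤ) - x + y then G A J x * G A J y else 0) with hX2
  have hX1le : X1 ≤ k * (α * N) := by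
    have h1 : X1 ≤ ∑ n ∈ Icc 1 M, if P.eval (n : ℤ) = 0 then (A.card : ℝ) else 0 := by
      rw [hX1]
      refine Finset.sum_le_sum (fun n hn => ?_)
      exact corr_avoid N T A hA (by omega) P hav n (Finset.mem_Icc.1 hn).1 (hPM n hn)
    rw [← Finset.sum_filter, Finset.sum_const, nsmul_eq_mul, hcard] at h1
    refine h1.trans (mul_le_mul_of_nonneg_right ?_ (by positivity))
    exact_mod_cast hroots
  have hX2ge : M * (3 / 4 * (α ^ 2 * N)) ≤ X2 := by
    have h1 : ∑ n ∈ Icc 1 M, 3 / 4 * (α ^ 2 * N) ≤ X2 := by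
      rw [hX2]
      exact Finset.sum_le_sum (fun n hn => corr_lower N J T hJ A hA α η hcard hα hη hη1 hJN hG
        (P.eval (n : ℤ)) (hPM n hn))
    rw [Finset.sum_const, nsmul_eq_mul, Nat.card_Icc] at h1
    simpa using h1
  -- conclusion
  set X : ℝ := ∑ y ∈ Finset.Ioo (-(J : ℤ)) N, ∑ q ∈ Finset.Icc 2 Q, b q * EN A y J q with hX
  have hX' : ∑ q ∈ Icc 2 Q, b q * (4 * T * ∑ y ∈ Ioo (-(J : ℤ)) N, EN A y J q) = 4 * T * X := by
    rw [hX, Finset.sum_comm, Finset.mul_sum]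
    refine Finset.sum_congr rfl (fun q _ => ?_)
    rw [← Finset.mul_sum]
    ring
  have hmajor := sum_arcs T M Q (En A T) (Wt J T) (fun j => ‖ES P M ((j : ℝ) / T)‖) (ind κ₀ T) b δ
    (T * (α * N)) ((8 * η / 15) * (T * (B * (α * N))))
    (fun q => 4 * T * ∑ y ∈ Ioo (-(J : ℤ)) N, EN A y J q) hδ0 hMr (En_nonneg A T)
    (Wt_nonneg J T) (Wt_le_one J T) (ind_nonneg κ₀ T) hb0 hb1
    (point P M T Q δ κ₀ b hb0 hMr harc) hEsum
    ((zero_arc J T hJ A κ₀ η hη hη1 hκJ).trans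
      (mul_le_mul_of_nonneg_left hEWsum (by positivity)))
    (fun q _ => big_arc N J T hN hJ hT0 (by omega) A hA κ₀ η hη1 hκJ q)
  rw [hX'] at hmajor
  have hfin := hdiff.trans hmajor
  have h3 : (8 * η / 15) * (T * (B * (α * N))) ≤ T * (η * (α ^ 2 * N)) := by
    have h3 : (8 * η / 15) * (T * (B * (α * N))) =
        (8 / 15 * (1 + η)) * (T * (η * (α ^ 2 * N))) := by
      rw [hB]; ring
    rw [h3]
    have h4 : 8 / 15 * (1 + η) ≤ 1 := by linarith
    calc _ ≤ 1 * (T * (η * (α ^ 2 * N))) := mul_le_mul_of_nonneg_right h4 (by positivity)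
      _ = _ := one_mul _
  have hTM : 0 < T * (M : ℝ) := by positivity
  have h1 : T * M * (3 / 4 * (α ^ 2 * N) - η * (α ^ 2 * N)) ≤ T * (X2 - X1) := by
    have h2 : (k : ℝ) * (α * N) ≤ η * α * M * (α * N) :=
      mul_le_mul_of_nonneg_right hk (by positivity)
    have h3 : M * (3 / 4 * (α ^ 2 * N)) - η * α * M * (α * N) ≤ X2 - X1 := by linarith
    calc T * M * (3 / 4 * (α ^ 2 * N) - η * (α ^ 2 * N)) =
        T * (M * (3 / 4 * (α ^ 2 * N)) - η * α * M * (α * N)) := by ring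
      _ ≤ _ := mul_le_mul_of_nonneg_left h3 hTr.le
  have h2 : δ * (α * N) ≤ η * (α ^ 2 * N) := by
    calc δ * (α * N) ≤ η * α * (α * N) := mul_le_mul_of_nonneg_right hδ (by positivity)
      _ = _ := by ring
  have h5 : T * M * (3 / 4 * (α ^ 2 * N) - η * (α ^ 2 * N)) ≤
      T * M * (η * (α ^ 2 * N) + η * (α ^ 2 * N) + 4 * X) := by
    refine h1.trans (hfin.trans ?_)
    calc _ ≤ M * (δ * (T * (α * N)) + T * (η * (α ^ 2 * N)) + 4 * T * X) := by
          refine mul_le_mul_of_nonneg_left ?_ (by linarith)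
          linarith
      _ = T * M * (δ * (α * N) + η * (α ^ 2 * N) + 4 * X) := by ring
      _ ≤ _ := by
        refine mul_le_mul_of_nonneg_left ?_ hTM.le
        linarith
  have h6 := le_of_mul_le_mul_left h5 hTM
  have h7 : 0 ≤ α ^ 2 * N := by positivity
  have h8 : η * (α ^ 2 * N) ≤ 1 / 1000 * (α ^ 2 * N) := mul_le_mul_of_nonneg_right hη1 h7
  linarith

end Vale.Agent.P042
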