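import Mathlib
import Vale.Agent.P042.Base

namespace Vale.Agent.P042

open Finset Polynomial

/-- `e(x) = exp(2πix)`. -/
noncomputable def ee (x : ℝ) : ℂ := Complex.exp ((2 * Real.pi * x : ℝ) * Complex.I)

/-- Exponential sum `∑_{n=1}^{M} e(θ P(n))`. -/
noncomputable def ES (P : ℤ[X]) (M : ℕ) (θ : ℝ) : ℂ :=
  ∑ n ∈ Finset.Icc 1 M, ee (θ * ((P.eval (n : ℤ) : ℤ) : ℝ))

/-- Normalised complete sum `q⁻¹ ∑_{r<q} e(a P(r)/q)`. -/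
noncomputable def gs (P : ℤ[X]) (a : ℤ) (q : ℕ) : ℂ :=
  (∑ r ∈ Finset.range q, ee ((a : ℝ) * ((P.eval (r : ℤ) : ℤ) : ℝ) / q)) / q

/-- The nonconstant coefficients of `P` have no common divisor larger than `D`. -/
def ContentLE (P : ℤ[X]) (D : ℕ) : Prop :=
  ∀ g : ℕ, (∀ j, 1 ≤ j → (g : ℤ) ∣ P.coeff j) → g ≤ D

section avdef
variable {ι : Type} [Fintype ι] [DecidableEq ι] {Ω : ι → Type} [∀ i, Fintype (Ω i)]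

/-- average of `φ` over resampling the coordinates in `S` -/
noncomputable def av (S : Finset ι) (φ : (∀ i, Ω i) → ℝ) (x : ∀ i, Ω i) : ℝ :=
  (∑ y : (∀ i, Ω i), φ (S.piecewise y x)) / Fintype.card (∀ i, Ω i)

end avdef

/-- `F^{=R}(r) = E_{x ∈ (y,y+J]} F(x) ∏_{p∈R} (p·1[x ≡ r mod p] - 1)` -/
noncomputable def comp (F : ℤ → ℝ) (y : ℤ) (J : ℕ) (R : Finset ℕ) (r : ℤ) : ℝ :=
  (∑ x ∈ Finset.Ioc y (y + J),
    F x * ∏ p ∈ R, ((if x ≡ r [ZMOD (p : ℤ)] then (p : ℝ) else 0) - 1)) / J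

/-- `‖F^{=R}‖₂²` -/
noncomputable def energy (F : ℤ → ℝ) (y : ℤ) (J : ℕ) (R : Finset ℕ) : ℝ :=
  (∑ r ∈ Finset.range (∏ p ∈ R, p), (comp F y J R r) ^ 2) / ((∏ p ∈ R, p : ℕ) : ℝ)

/-- complete sums modulo primes `p > k` decay like `C p^{-κ}` (degree `k`, nonconstant mod `p`) -/
def LocalDecay (k : ℕ) (κ : ℝ) : Prop := ∃ C : ℝ, 1 ≤ C ∧
  ∀ (P : ℤ[X]), P.natDegree = k → ∀ p : ℕ, p.Prime → k < p →
    (∃ j, 1 ≤ j ∧ ¬ (p : ℤ) ∣ P.coeff j) → ∀ a : ℤ, ¬ (p : ℤ) ∣ a →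
    ‖gs P a p‖ ≤ C * (p : ℝ) ^ (-κ)

/-- `∑_{(a,q)=1} |E_{x∈(y,y+J]} 1_A(x) e(-ax/q)|²` -/
noncomputable def EN (A : Finset ℤ) (y : ℤ) (J : ℕ) (q : ℕ) : ℝ :=
  ∑ a ∈ (Finset.range q).filter (fun a => Nat.Coprime a q),
    ‖(∑ x ∈ A.filter (fun x => y < x ∧ x ≤ y + J), ee (-((a : ℝ) * (x : ℝ) / q))) / (J : ℂ)‖ ^ 2

/-- every AP of difference `v ≤ V` with `l ≥ L` terms has at most `D * l` elements of `A`. -/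
def Regular (A : Finset ℤ) (V L : ℕ) (D : ℝ) : Prop :=
  ∀ v : ℕ, 1 ≤ v → v ≤ V → ∀ (c : ℤ) (l : ℕ), L ≤ l →
    ((A.filter (fun x => ∃ i : ℕ, i < l ∧ x = c + v * i)).card : ℝ) ≤ D * l

/-- Size conditions on the local majorants `bb p e` of the complete sums modulo `p^e`. -/
structure LocalMajorant (κ C0 C1 : ℝ) (bb : ℕ → ℕ → ℝ) : Prop where
  nonneg : ∀ p e, 0 ≤ bb p e
  le_one : ∀ p e, bb p e ≤ 1
  one : ∀ p : ℕ, p.Prime → bb p 1 ≤ C0 * (p : ℝ) ^ (-κ)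
  two : ∀ p e : ℕ, p.Prime → 2 ≤ e → bb p e ≤ C0 / p
  decay : ∀ p e : ℕ, p.Prime → 1 ≤ e → bb p e ≤ C0 * (p : ℝ) ^ (-((e : ℝ) / C1))

end Vale.Agent.P042
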