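import Vale.Agent.P042.Defs

/-!
# P042, module A: hypercontractive inequality for homogeneous functions
-/

namespace Vale.Agent.P042

open Finset Polynomial

namespace HyperAux

lemma one_var (m : ℕ) (hm : 1 ≤ m) (u v : ℝ) (huv : u ^ 2 ≤ v) :
    (1 + 2 * u + v) ^ m ≤ 1 + 2 * m * u + 14 * m ^ 2 * v + (28 * m ^ 2 * v) ^ m := by
  have hmR : (1 : ℝ) ≤ m := by exact_mod_cast hm
  have hv : 0 ≤ v := (sq_nonneg u).trans huv
  obtain ⟨r, hr0, hrv⟩ : ∃ r : ℝ, 0 ≤ r ∧ r ^ 2 = v := ⟨Real.sqrt v, Real.sqrt_nonneg v,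
    Real.sq_sqrt hv⟩
  have hur : |u| ≤ r := by
    apply abs_le_of_sq_le_sq _ hr0
    rw [hrv]; exact huv
  obtain ⟨hu1, hu2⟩ := abs_le.1 hur
  obtain ⟨w, hw⟩ : ∃ w : ℝ, w = m * r := ⟨_, rfl⟩
  have hw0 : 0 ≤ w := by rw [hw]; positivity
  have hrw : r ≤ w := by rw [hw]; exact le_mul_of_one_le_left hr0 hmR
  have hw2 : (m : ℝ) ^ 2 * v = w ^ 2 := by rw [hw, ← hrv]; ring
  have e1 : 14 * (m : ℝ) ^ 2 * v = 14 * w ^ 2 := by rw [mul_assoc, hw2]
  have e2 : 28 * (m : ℝ) ^ 2 * v = 28 * w ^ 2 := by rw [mul_assoc, hw2]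
  rw [e1, e2]
  have hmu1 : -w ≤ m * u := by
    rw [hw]
    have : (m : ℝ) * (-r) ≤ m * u := mul_le_mul_of_nonneg_left hu1 (by linarith)
    linarith
  have hmu2 : m * u ≤ w := by
    rw [hw]; exact mul_le_mul_of_nonneg_left hu2 (by linarith)
  have hbase : 0 ≤ 1 + 2 * u + v := by nlinarith [sq_nonneg (1 + u)]
  rcases le_or_gt (1 / 4) w with hcase | hcase
  · have h1 : 1 + 2 * u + v ≤ 28 * w ^ 2 := by
      have h2 : 1 + 2 * u + v ≤ (1 + r) ^ 2 := by nlinarith
      have h3 : (1 + r) ^ 2 ≤ (5 * w) ^ 2 := by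
        apply pow_le_pow_left₀ (by linarith); linarith
      nlinarith
    have h4 := pow_le_pow_left₀ hbase h1 m
    have h5 : 0 ≤ 1 + 2 * m * u + 14 * w ^ 2 := by nlinarith [sq_nonneg (w - 1 / 4)]
    linarith
  · have hX : (1 + 2 * u + v) ^ m ≤ Real.exp (m * (2 * u + v)) := by
      have h1 : 1 + 2 * u + v ≤ Real.exp (2 * u + v) := by
        have := Real.add_one_le_exp (2 * u + v)
        linarith
      calc (1 + 2 * u + v) ^ m ≤ Real.exp (2 * u + v) ^ m := pow_le_pow_left₀ hbase h1 m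
        _ = Real.exp (m * (2 * u + v)) := by rw [← Real.exp_nat_mul]
    have hmv : m * v ≤ w ^ 2 := by
      rw [← hw2, pow_two, mul_assoc]
      exact le_mul_of_one_le_left (by positivity) hmR
    have hmv0 : 0 ≤ m * v := by positivity
    have hww : w ^ 2 ≤ w / 4 := by nlinarith
    have hY : |(m : ℝ) * (2 * u + v)| ≤ 9 / 4 * w := by
      rw [abs_le]; constructor <;> nlinarith
    have h2 := Real.abs_exp_sub_one_sub_id_le (hY.trans (by linarith) : |(m : ℝ) * (2 * u + v)| ≤ 1)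
    have h3 := (abs_le.1 h2).2
    have h4 : ((m : ℝ) * (2 * u + v)) ^ 2 ≤ (9 / 4 * w) ^ 2 := by
      rw [← sq_abs]
      exact pow_le_pow_left₀ (abs_nonneg _) hY 2
    have h5 : (0 : ℝ) ≤ (28 * w ^ 2) ^ m := by positivity
    nlinarith

lemma one_var' (k : ℕ) {ρ A B τ : ℝ} (hρ : ρ ^ 2 = 1 / (14 * ((k : ℝ) + 1))) (hA : 0 ≤ A)
    (hB : 0 ≤ B) (hτ : τ ^ 2 ≤ A * B) :
    (A + 2 * ρ * τ + ρ ^ 2 * B) ^ (k + 1) ≤ A ^ (k + 1) + 2 * (k + 1) * ρ * A ^ k * τ +
      (k + 1) * A ^ k * B + (2 * (k + 1)) ^ (k + 1) * B ^ (k + 1) := by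
  have hk0 : (0 : ℝ) ≤ k := Nat.cast_nonneg k
  rcases hA.eq_or_lt with h0 | hpos
  · have hτ0 : τ = 0 := by
      rw [← h0, zero_mul] at hτ
      exact pow_eq_zero_iff (two_ne_zero) |>.1 (le_antisymm hτ (sq_nonneg _))
    rw [← h0, hτ0]
    have h1 : ρ ^ 2 ≤ 2 * (k + 1) := by
      rw [hρ, div_le_iff₀ (by positivity)]
      nlinarith
    have h2 : (0 + 2 * ρ * 0 + ρ ^ 2 * B) ^ (k + 1) ≤ (2 * (k + 1)) ^ (k + 1) * B ^ (k + 1) := by
      have h3 : 0 + 2 * ρ * 0 + ρ ^ 2 * B = ρ ^ 2 * B := by ring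
      rw [← mul_pow, h3]
      exact pow_le_pow_left₀ (by positivity) (mul_le_mul_of_nonneg_right h1 hB) _
    have h3 : (0 : ℝ) ≤ 0 ^ (k + 1) + 2 * (k + 1) * ρ * 0 ^ k * 0 + (k + 1) * 0 ^ k * B := by
      have : (0 : ℝ) ≤ (k + 1) * 0 ^ k * B := by positivity
      simpa using this
    linarith
  · have h1 := one_var (k + 1) (by omega) (ρ * (τ / A)) (ρ ^ 2 * (B / A)) (by
      rw [mul_pow, div_pow]
      apply mul_le_mul_of_nonneg_left _ (sq_nonneg _)
      rw [div_le_div_iff₀ (by positivity) hpos]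
      nlinarith)
    have h2 := mul_le_mul_of_nonneg_left h1 (pow_nonneg hA (k + 1))
    rw [← mul_pow] at h2
    have e0 : A * (1 + 2 * (ρ * (τ / A)) + ρ ^ 2 * (B / A)) = A + 2 * ρ * τ + ρ ^ 2 * B := by
      field_simp
    rw [e0] at h2
    refine h2.trans (le_of_eq ?_)
    push_cast
    have e1 : 28 * ((k : ℝ) + 1) ^ 2 * (ρ ^ 2 * (B / A)) = 2 * (k + 1) * (B / A) := by
      rw [hρ]; field_simp; ring
    have e2 : 14 * ((k : ℝ) + 1) ^ 2 * (ρ ^ 2 * (B / A)) = (k + 1) * (B / A) := by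
      rw [hρ]; field_simp
    rw [e1, e2]
    have e3 : A ^ (k + 1) * (2 * ((k : ℝ) + 1) * (B / A)) ^ (k + 1) =
        (2 * (k + 1)) ^ (k + 1) * B ^ (k + 1) := by
      rw [← mul_pow, ← mul_pow]
      congr 1
      field_simp
    rw [mul_add, e3, mul_add, mul_add, pow_succ A k]
    field_simp

lemma bern (k : ℕ) {A y : ℝ} (hA : 0 ≤ A) (hy : 0 ≤ y) :
    A ^ (k + 1) + (k + 1) * A ^ k * y ≤ (A + y) ^ (k + 1) := by
  induction k with
  | zero => simp
  | succ k ih =>
    have h1 := mul_le_mul_of_nonneg_left ih (add_nonneg hA hy)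
    have h2 : (A + y) * (A + y) ^ (k + 1) = (A + y) ^ (k + 1 + 1) := by ring
    rw [h2] at h1
    refine le_trans ?_ h1
    push_cast
    have h3 : (A + y) * (A ^ (k + 1) + (k + 1) * A ^ k * y) =
      A ^ (k + 1 + 1) + (k + 1 + 1) * A ^ (k + 1) * y + (k + 1) * A ^ k * y ^ 2 := by ring
    rw [h3]
    have : 0 ≤ ((k : ℝ) + 1) * A ^ k * y ^ 2 := by positivity
    linarith

section avs
variable {ι : Type} [Fintype ι] [DecidableEq ι] {Ω : ι → Type} [∀ i, Fintype (Ω i)]

lemma av_add (S : Finset ι) (f g : (∀ i, Ω i) → ℝ) (x : ∀ i, Ω i) :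
    av S (fun z => f z + g z) x = av S f x + av S g x := by
  unfold av
  rw [Finset.sum_add_distrib, add_div]

lemma av_mul (S : Finset ι) (c : ℝ) (f : (∀ i, Ω i) → ℝ) (x : ∀ i, Ω i) :
    av S (fun z => c * f z) x = c * av S f x := by
  unfold av
  rw [← Finset.mul_sum, mul_div_assoc]

lemma av_mono (S : Finset ι) {f g : (∀ i, Ω i) → ℝ} (h : ∀ z, f z ≤ g z) (x : ∀ i, Ω i) :
    av S f x ≤ av S g x := by
  unfold av
  exact div_le_div_of_nonneg_right (Finset.sum_le_sum fun y _ => h _) (Nat.cast_nonneg _)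

lemma av_nonneg (S : Finset ι) {f : (∀ i, Ω i) → ℝ} (h : ∀ z, 0 ≤ f z) (x : ∀ i, Ω i) :
    0 ≤ av S f x := by
  unfold av
  exact div_nonneg (Finset.sum_nonneg fun y _ => h _) (Nat.cast_nonneg _)

lemma av_congr (S : Finset ι) {f g : (∀ i, Ω i) → ℝ} (x : ∀ i, Ω i)
    (h : ∀ y, f (S.piecewise y x) = g (S.piecewise y x)) : av S f x = av S g x := by
  unfold av
  rw [Finset.sum_congr rfl fun y _ => h y]

lemma sq_le (S : Finset ι) (f g : (∀ i, Ω i) → ℝ) (x : ∀ i, Ω i) :
    (av S (fun z => f z * g z) x) ^ 2 ≤ av S (fun z => f z ^ 2) x * av S (fun z => g z ^ 2) x := by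
  unfold av
  rw [div_pow, div_mul_div_comm, ← pow_two]
  exact div_le_div_of_nonneg_right (Finset.sum_mul_sq_le_sq_mul_sq _ _ _) (by positivity)

variable [∀ i, Nonempty (Ω i)]

lemma card_ne : ((Fintype.card (∀ i, Ω i) : ℕ) : ℝ) ≠ 0 := by
  have : 0 < Fintype.card (∀ i, Ω i) := Fintype.card_pos
  positivity

lemma av_const (S : Finset ι) (c : ℝ) (x : ∀ i, Ω i) : av S (fun _ => c) x = c := by
  unfold av
  rw [Finset.sum_const, Finset.card_univ, nsmul_eq_mul, mul_comm, mul_div_assoc,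
    div_self card_ne, mul_one]

lemma av_empty (f : (∀ i, Ω i) → ℝ) (x : ∀ i, Ω i) : av ∅ f x = f x := by
  rw [av_congr (g := fun _ => f x) ∅ x (fun y => by simp), av_const]

/-- exchange of the coordinates in `T` -/
def swapT (T : Finset ι) : ((∀ i, Ω i) × (∀ i, Ω i)) ≃ ((∀ i, Ω i) × (∀ i, Ω i)) where
  toFun p := (T.piecewise p.2 p.1, T.piecewise p.1 p.2)
  invFun p := (T.piecewise p.2 p.1, T.piecewise p.1 p.2)
  left_inv p := by
    ext i
    · by_cases h : i ∈ T <;> simp [h]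
    · by_cases h : i ∈ T <;> simp [h]
  right_inv p := by
    ext i
    · by_cases h : i ∈ T <;> simp [h]
    · by_cases h : i ∈ T <;> simp [h]

lemma av_av (S T : Finset ι) (f : (∀ i, Ω i) → ℝ) (x : ∀ i, Ω i) :
    av S (av T f) x = av (S ∪ T) f x := by
  unfold av
  have h1 : ∀ y z : (∀ i, Ω i), T.piecewise z (S.piecewise y x) =
      (S ∪ T).piecewise (T.piecewise z y) x := by
    intro y z
    ext i
    by_cases hT : i ∈ T
    · simp [hT]
    · by_cases hS : i ∈ S <;> simp [hT, hS]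
  simp only [h1]
  rw [← Finset.sum_div, ← Fintype.sum_prod_type (f := fun p : (∀ i, Ω i) × (∀ i, Ω i) =>
    f ((S ∪ T).piecewise (T.piecewise p.2 p.1) x))]
  have h2 : ∑ p : (∀ i, Ω i) × (∀ i, Ω i), f ((S ∪ T).piecewise (T.piecewise p.2 p.1) x) =
      ∑ p : (∀ i, Ω i) × (∀ i, Ω i), f ((S ∪ T).piecewise p.1 x) :=
    Equiv.sum_comp (swapT T) (fun p => f ((S ∪ T).piecewise p.1 x))
  rw [h2, Fintype.sum_prod_type]
  simp only [Finset.sum_const, Finset.card_univ, nsmul_eq_mul]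
  rw [← Finset.mul_sum, div_div]
  have := card_ne (Ω := Ω)
  field_simp

lemma av_comm (S T : Finset ι) (f : (∀ i, Ω i) → ℝ) (x : ∀ i, Ω i) :
    av S (av T f) x = av T (av S f) x := by
  rw [av_av, av_av, Finset.union_comm]

variable [∀ i, DecidableEq (Ω i)]

lemma av_singleton_zero (i : ι) (f : (∀ i, Ω i) → ℝ) (x : ∀ i, Ω i)
    (h : ∑ t : Ω i, f (Function.update x i t) = 0) : av {i} f x = 0 := by
  unfold av
  have h1 : ∀ y : (∀ i, Ω i), ({i} : Finset ι).piecewise y x = Function.update x i (y i) := by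
    intro y
    exact Finset.piecewise_singleton y x i
  simp only [h1]
  have h2 : ∑ y : (∀ i, Ω i), f (Function.update x i (y i)) =
      ∑ p : Ω i × (∀ j : {j // j ≠ i}, Ω j), f (Function.update x i p.1) :=
    Equiv.sum_comp (Equiv.piSplitAt i Ω) (fun p => f (Function.update x i p.1))
  rw [h2, Fintype.sum_prod_type]
  simp only [Finset.sum_const]
  rw [← Finset.smul_sum, h, smul_zero, zero_div]

lemma av_free (Q : Finset ι) {i : ι} (hi : i ∉ Q) {f : (∀ i, Ω i) → ℝ}
    (h : ∀ x t, f (Function.update x i t) = f x) (x : ∀ i, Ω i) (t : Ω i) :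
    av Q f (Function.update x i t) = av Q f x := by
  unfold av
  congr 1
  refine Finset.sum_congr rfl fun y _ => ?_
  rw [← h (Q.piecewise y x) t]
  congr 1
  ext j
  by_cases hj : j = i
  · subst hj; simp [hi]
  · by_cases hQ : j ∈ Q <;> simp [hj, hQ]

lemma coord_step (k : ℕ) {ρ : ℝ} (hρ : ρ ^ 2 = 1 / (14 * ((k : ℝ) + 1))) (i : ι) (Q : Finset ι)
    (hi : i ∉ Q) (G0 G1 : (∀ i, Ω i) → ℝ) (h0 : ∀ x t, G0 (Function.update x i t) = G0 x)
    (h1 : ∀ x, ∑ t, G1 (Function.update x i t) = 0) (x : ∀ i, Ω i) :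
    av {i} (fun x => (av Q (fun z => (G0 z + ρ * G1 z) ^ 2) x) ^ (k + 1)) x ≤
      (av (insert i Q) (fun z => (G0 z + G1 z) ^ 2) x) ^ (k + 1) +
      (2 * ((k : ℝ) + 1)) ^ (k + 1) *
        av {i} (fun x => (av Q (fun z => (G1 z) ^ 2) x) ^ (k + 1)) x := by
  obtain ⟨A, hA⟩ : ∃ A, A = av Q (fun z => G0 z ^ 2) := ⟨_, rfl⟩
  obtain ⟨τ, hτ⟩ : ∃ τ, τ = av Q (fun z => G0 z * G1 z) := ⟨_, rfl⟩
  obtain ⟨B, hB⟩ : ∃ B, B = av Q (fun z => G1 z ^ 2) := ⟨_, rfl⟩
  have hexp : ∀ (r : ℝ) x, av Q (fun z => (G0 z + r * G1 z) ^ 2) x =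
      A x + 2 * r * τ x + r ^ 2 * B x := by
    intro r x
    have e : (fun z => (G0 z + r * G1 z) ^ 2) =
        fun z => (G0 z ^ 2 + 2 * r * (G0 z * G1 z)) + r ^ 2 * (G1 z ^ 2) := by
      ext z; ring
    rw [e, av_add, av_add, av_mul, av_mul, hA, hτ, hB]
  have hA0 : ∀ x, 0 ≤ A x := fun x => by rw [hA]; exact av_nonneg Q (fun z => sq_nonneg _) x
  have hB0 : ∀ x, 0 ≤ B x := fun x => by rw [hB]; exact av_nonneg Q (fun z => sq_nonneg _) x
  have hcs : ∀ x, τ x ^ 2 ≤ A x * B x := fun x => by rw [hA, hB, hτ]; exact sq_le Q G0 G1 x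
  have hAfree : ∀ x t, A (Function.update x i t) = A x := by
    intro x t
    rw [hA]
    exact av_free Q hi (fun x t => by rw [h0]) x t
  have hGfree : ∀ y x, G0 (({i} : Finset ι).piecewise y x) = G0 x := by
    intro y x
    rw [Finset.piecewise_singleton, h0]
  have hAfree' : ∀ y x, A (({i} : Finset ι).piecewise y x) = A x := by
    intro y x
    rw [Finset.piecewise_singleton, hAfree]
  have hτ0 : av {i} τ x = 0 := by
    rw [hτ, av_comm]
    have : av {i} (fun z => G0 z * G1 z) = fun _ => 0 := by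
      ext z
      rw [av_congr (g := fun w => G0 z * G1 w) {i} z (fun y => by rw [hGfree]), av_mul,
        av_singleton_zero i G1 z (h1 z), mul_zero]
    rw [this, av_const]
  have hAi : av {i} A x = A x := by
    rw [av_congr (g := fun _ => A x) {i} x (fun y => hAfree' y x), av_const]
  have hone : av (insert i Q) (fun z => (G0 z + G1 z) ^ 2) x = A x + av {i} B x := by
    have e1 : insert i Q = {i} ∪ Q := rfl
    rw [e1, ← av_av]
    have e2 : av Q (fun z => (G0 z + G1 z) ^ 2) = fun x => (A x + 2 * τ x) + B x := by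
      ext x
      have := hexp 1 x
      simp only [one_mul, mul_one, one_pow] at this
      exact this
    rw [e2, av_add, av_add, av_mul, hτ0, hAi]
    ring
  have hBi : 0 ≤ av {i} B x := av_nonneg _ hB0 x
  calc av {i} (fun x => (av Q (fun z => (G0 z + ρ * G1 z) ^ 2) x) ^ (k + 1)) x
      ≤ av {i} (fun z => A z ^ (k + 1) + 2 * (k + 1) * ρ * A z ^ k * τ z +
      (k + 1) * A z ^ k * B z + (2 * (k + 1)) ^ (k + 1) * B z ^ (k + 1)) x := by
        apply av_mono
        intro z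
        rw [hexp]
        exact one_var' k hρ (hA0 z) (hB0 z) (hcs z)
    _ = av {i} (fun z => A x ^ (k + 1) + 2 * (k + 1) * ρ * A x ^ k * τ z +
      (k + 1) * A x ^ k * B z + (2 * (k + 1)) ^ (k + 1) * B z ^ (k + 1)) x := by
        apply av_congr
        intro y
        rw [hAfree']
    _ = A x ^ (k + 1) + (k + 1) * A x ^ k * av {i} B x + (2 * (k + 1)) ^ (k + 1) *
        av {i} (fun z => B z ^ (k + 1)) x := by
        rw [av_add, av_add, av_add, av_mul, av_mul, av_mul, av_const, hτ0]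
        ring
    _ ≤ _ := by
        rw [hone]
        have := bern k (hA0 x) hBi
        have e : (fun x => (av Q (fun z => (G1 z) ^ 2) x) ^ (k + 1)) = fun z => B z ^ (k + 1) := by
          rw [hB]
        rw [e]
        linarith

lemma claim (k : ℕ) {ρ : ℝ} (hρ : ρ ^ 2 = 1 / (14 * ((k : ℝ) + 1))) (U : Finset ι) :
    ∀ (Q : Finset ι), Disjoint Q U → ∀ (φ : Finset ι → (∀ i, Ω i) → ℝ),
    (∀ R x y, (∀ i ∈ R, x i = y i) → φ R x = φ R y) →
    (∀ R, ∀ i ∈ R, ∀ x, ∑ t : Ω i, φ R (Function.update x i t) = 0) →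
    ∀ x0 : (∀ i, Ω i),
    av univ (fun x => (av Q (fun z => (∑ R, ρ ^ ((R ∩ U).card) * φ R z) ^ 2) x) ^ (k + 1)) x0 ≤
    ∑ S ∈ U.powerset, (2 * ((k : ℝ) + 1)) ^ ((k + 1) * S.card) *
      av univ (fun x => (av (Q ∪ (U \ S)) (fun z =>
        (∑ R ∈ univ.filter (fun R => S ⊆ R), φ R z) ^ 2) x) ^ (k + 1)) x0 := by
  induction U using Finset.induction_on with
  | empty =>
    intro Q _ φ _ _ x0
    simp
  | insert i U hiU ih =>
    intro Q hQ φ hdep hzero x0
    have hiQ : i ∉ Q := fun h => (Finset.disjoint_left.1 hQ h) (Finset.mem_insert_self i U)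
    have hQU : Disjoint Q U := hQ.mono_right (Finset.subset_insert i U)
    have hQU' : Disjoint (insert i Q) U := by
      rw [Finset.disjoint_insert_left]; exact ⟨hiU, hQU⟩
    obtain ⟨φ0, hφ0⟩ : ∃ φ0 : Finset ι → (∀ i, Ω i) → ℝ,
      φ0 = fun R z => if i ∈ R then 0 else φ R z := ⟨_, rfl⟩
    obtain ⟨φ1, hφ1⟩ : ∃ φ1 : Finset ι → (∀ i, Ω i) → ℝ,
      φ1 = fun R z => if i ∈ R then φ R z else 0 := ⟨_, rfl⟩
    have hdep1 : ∀ R x y, (∀ i ∈ R, x i = y i) → φ1 R x = φ1 R y := by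
      intro R x y hxy
      rw [hφ1]
      simp only
      split_ifs
      · exact hdep R x y hxy
      · rfl
    have hzero1 : ∀ R, ∀ i ∈ R, ∀ x, ∑ t : Ω i, φ1 R (Function.update x i t) = 0 := by
      intro R j hj x
      rw [hφ1]
      simp only
      split_ifs
      · exact hzero R j hj x
      · simp
    obtain ⟨G0, hG0⟩ : ∃ G0 : (∀ i, Ω i) → ℝ,
      G0 = fun z => ∑ R, ρ ^ ((R ∩ U).card) * φ0 R z := ⟨_, rfl⟩
    obtain ⟨G1, hG1⟩ : ∃ G1 : (∀ i, Ω i) → ℝ,
      G1 = fun z => ∑ R, ρ ^ ((R ∩ U).card) * φ1 R z := ⟨_, rfl⟩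
    have hG : ∀ z, ∑ R, ρ ^ ((R ∩ insert i U).card) * φ R z = G0 z + ρ * G1 z := by
      intro z
      rw [hG0, hG1]
      simp only
      rw [Finset.mul_sum, ← Finset.sum_add_distrib]
      refine Finset.sum_congr rfl fun R _ => ?_
      rw [hφ0, hφ1]
      by_cases hi : i ∈ R
      · have e1 : R ∩ insert i U = insert i (R ∩ U) := Finset.inter_insert_of_mem hi
        have e2 : i ∉ R ∩ U := fun h => hiU (Finset.mem_inter.1 h).2
        simp only [hi, if_true, e1, Finset.card_insert_of_notMem e2]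
        ring
      · have e1 : R ∩ insert i U = R ∩ U := Finset.inter_insert_of_notMem hi
        simp only [hi, if_false, e1]
        ring
    have hGG : ∀ z, G0 z + G1 z = ∑ R, ρ ^ ((R ∩ U).card) * φ R z := by
      intro z
      rw [hG0, hG1]
      simp only
      rw [← Finset.sum_add_distrib]
      refine Finset.sum_congr rfl fun R _ => ?_
      rw [hφ0, hφ1]
      by_cases hi : i ∈ R
      · simp only [hi, if_true]; ring
      · simp only [hi, if_false]; ring
    have h0 : ∀ x t, G0 (Function.update x i t) = G0 x := by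
      intro x t
      rw [hG0]
      simp only
      refine Finset.sum_congr rfl fun R _ => ?_
      rw [hφ0]
      by_cases hi : i ∈ R
      · simp only [hi, if_true]
      · simp only [hi, if_false]
        rw [hdep R (Function.update x i t) x]
        intro j hj
        rw [Function.update_of_ne]
        rintro rfl
        exact hi hj
    have h1 : ∀ x, ∑ t, G1 (Function.update x i t) = 0 := by
      intro x
      rw [hG1]
      simp only
      rw [Finset.sum_comm]
      apply Finset.sum_eq_zero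
      intro R _
      rw [← Finset.mul_sum]
      by_cases hi : i ∈ R
      · rw [hzero1 R i hi x, mul_zero]
      · have : ∀ t, φ1 R (Function.update x i t) = 0 := by
          intro t; rw [hφ1]; simp only [hi, if_false]
        simp [this]
    have key : av univ (fun x => (av Q (fun z =>
        (∑ R, ρ ^ ((R ∩ insert i U).card) * φ R z) ^ 2) x) ^ (k + 1)) x0 ≤
        av univ (fun x => (av (insert i Q) (fun z => (∑ R, ρ ^ ((R ∩ U).card) * φ R z) ^ 2) x)
          ^ (k + 1)) x0 + (2 * ((k : ℝ) + 1)) ^ (k + 1) *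
        av univ (fun x => (av Q (fun z => (∑ R, ρ ^ ((R ∩ U).card) * φ1 R z) ^ 2) x)
          ^ (k + 1)) x0 := by
      have e1 : ∀ f : (∀ i, Ω i) → ℝ, av univ f x0 = av univ (av {i} f) x0 := by
        intro f
        rw [av_av]
        congr 1
        exact (Finset.union_eq_left.2 (Finset.subset_univ _)).symm
      simp only [hG]
      rw [e1, e1 (fun x => (av Q (fun z => (∑ R, ρ ^ ((R ∩ U).card) * φ1 R z) ^ 2) x) ^ (k + 1)),
        ← av_mul, ← av_add]
      apply av_mono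
      intro x
      have := coord_step k hρ i Q hiQ G0 G1 h0 h1 x
      simp only [hGG] at this
      rw [hG1] at this
      rw [hG1]
      exact this
    have ih1 := ih (insert i Q) hQU' φ hdep hzero x0
    have ih2 := ih Q hQU φ1 hdep1 hzero1 x0
    rw [Finset.sum_powerset_insert hiU]
    refine key.trans (add_le_add (ih1.trans (le_of_eq ?_)) ?_)
    · refine Finset.sum_congr rfl fun S hS => ?_
      have hSU := Finset.mem_powerset.1 hS
      have hiS : i ∉ S := fun h => hiU (hSU h)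
      have e : insert i Q ∪ U \ S = Q ∪ (insert i U) \ S := by
        ext j
        simp only [Finset.mem_union, Finset.mem_insert, Finset.mem_sdiff]
        by_cases hj : j = i
        · subst hj; simp [hiS]
        · simp [hj]
      rw [e]
    · have h3 : (2 * ((k : ℝ) + 1)) ^ (k + 1) *
          av univ (fun x => (av Q (fun z => (∑ R, ρ ^ ((R ∩ U).card) * φ1 R z) ^ 2) x)
          ^ (k + 1)) x0 ≤ (2 * ((k : ℝ) + 1)) ^ (k + 1) * _ :=
        mul_le_mul_of_nonneg_left ih2 (by positivity)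
      refine h3.trans (le_of_eq ?_)
      rw [Finset.mul_sum]
      refine Finset.sum_congr rfl fun S hS => ?_
      have hSU := Finset.mem_powerset.1 hS
      have hiS : i ∉ S := fun h => hiU (hSU h)
      rw [Finset.card_insert_of_notMem hiS, ← mul_assoc, ← pow_add]
      have e1 : k + 1 + (k + 1) * S.card = (k + 1) * (S.card + 1) := by ring
      have e2 : (insert i U) \ (insert i S) = U \ S := by
        ext j
        simp only [Finset.mem_sdiff, Finset.mem_insert]
        by_cases hj : j = i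
        · subst hj; simp [hiU]
        · simp [hj]
      have e3 : ∀ z, ∑ R ∈ univ.filter (fun R => S ⊆ R), φ1 R z =
          ∑ R ∈ univ.filter (fun R => insert i S ⊆ R), φ R z := by
        intro z
        rw [Finset.sum_filter, Finset.sum_filter]
        refine Finset.sum_congr rfl fun R _ => ?_
        rw [hφ1]
        by_cases hi : i ∈ R
        · simp [hi, Finset.insert_subset_iff]
        · simp [hi, Finset.insert_subset_iff]
      simp only [e1, e2, e3]

end avs

end HyperAux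

section A
variable {ι : Type} [Fintype ι] [DecidableEq ι] {Ω : ι → Type} [∀ i, Fintype (Ω i)]
  [∀ i, Nonempty (Ω i)] [∀ i, DecidableEq (Ω i)]

open HyperAux in
theorem hyper_homog (m d : ℕ) (hm : 1 ≤ m) (φ : Finset ι → (∀ i, Ω i) → ℝ)
    (hdep : ∀ R x y, (∀ i ∈ R, x i = y i) → φ R x = φ R y)
    (hzero : ∀ R, ∀ i ∈ R, ∀ x, ∑ t : Ω i, φ R (Function.update x i t) = 0)
    (x0 : ∀ i, Ω i) :
    (1 / (14 * (m : ℝ))) ^ (m * d) *
      av univ (fun x => (∑ R ∈ (univ : Finset (Finset ι)).filter (fun R => R.card = d),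
        φ R x) ^ (2 * m)) x0
    ≤ ∑ S ∈ (univ : Finset (Finset ι)).filter (fun S => S.card ≤ d),
        (2 * (m : ℝ)) ^ (m * S.card) *
        av univ (fun x => (av Sᶜ (fun z =>
          (∑ R ∈ (univ : Finset (Finset ι)).filter (fun R => R.card = d ∧ S ⊆ R),
            φ R z) ^ 2) x) ^ m) x0 := by
  obtain ⟨k, rfl⟩ : ∃ k, m = k + 1 := ⟨m - 1, by omega⟩
  push_cast
  obtain ⟨ρ, hρ⟩ : ∃ ρ : ℝ, ρ ^ 2 = 1 / (14 * ((k : ℝ) + 1)) :=
    ⟨Real.sqrt (1 / (14 * ((k : ℝ) + 1))), Real.sq_sqrt (by positivity)⟩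
  obtain ⟨φ', hφ'⟩ : ∃ φ' : Finset ι → (∀ i, Ω i) → ℝ,
    φ' = fun R z => if R.card = d then φ R z else 0 := ⟨_, rfl⟩
  have hdep' : ∀ R x y, (∀ i ∈ R, x i = y i) → φ' R x = φ' R y := by
    intro R x y hxy
    rw [hφ']
    simp only
    split_ifs
    · exact hdep R x y hxy
    · rfl
  have hzero' : ∀ R, ∀ i ∈ R, ∀ x, ∑ t : Ω i, φ' R (Function.update x i t) = 0 := by
    intro R j hj x
    rw [hφ']
    simp only
    split_ifs
    · exact hzero R j hj x
    · simp
  have h := claim k hρ univ ∅ (Finset.disjoint_empty_left _) φ' hdep' hzero' x0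
  have e1 : ∀ z, ∑ R : Finset ι, ρ ^ ((R ∩ univ).card) * φ' R z =
      ρ ^ d * ∑ R ∈ (univ : Finset (Finset ι)).filter (fun R => R.card = d), φ R z := by
    intro z
    rw [Finset.sum_filter, Finset.mul_sum]
    refine Finset.sum_congr rfl fun R _ => ?_
    rw [hφ', Finset.inter_univ]
    by_cases hR : R.card = d
    · simp only [hR, if_true]
    · simp only [hR, if_false, mul_zero]
  have e2 : ∀ (S : Finset ι) z, ∑ R ∈ univ.filter (fun R => S ⊆ R), φ' R z =
      ∑ R ∈ (univ : Finset (Finset ι)).filter (fun R => R.card = d ∧ S ⊆ R), φ R z := by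
    intro S z
    rw [Finset.sum_filter, Finset.sum_filter]
    refine Finset.sum_congr rfl fun R _ => ?_
    rw [hφ']
    by_cases hR : R.card = d
    · simp [hR]
    · simp [hR]
  simp only [e1, e2, av_empty, Finset.empty_union] at h
  have e3 : ∀ x : (∀ i, Ω i), ((ρ ^ d * ∑ R ∈ (univ : Finset (Finset ι)).filter
      (fun R => R.card = d), φ R x) ^ 2) ^ (k + 1) = (1 / (14 * ((k : ℝ) + 1))) ^ ((k + 1) * d) *
      (∑ R ∈ (univ : Finset (Finset ι)).filter (fun R => R.card = d), φ R x) ^ (2 * (k + 1)) := by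
    intro x
    rw [← hρ, ← pow_mul, mul_pow, ← pow_mul, ← pow_mul]
    congr 2
    ring
  simp only [e3] at h
  rw [av_mul] at h
  refine h.trans (le_of_eq ?_)
  rw [Finset.powerset_univ, Finset.sum_filter]
  refine Finset.sum_congr rfl fun S _ => ?_
  split_ifs with hS
  · rw [← Finset.compl_eq_univ_sdiff]
  · have hempty : (univ : Finset (Finset ι)).filter (fun R => R.card = d ∧ S ⊆ R) = ∅ := by
      apply Finset.filter_eq_empty_iff.2
      rintro R _ ⟨h1, h2⟩
      have := Finset.card_le_card h2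
      omega
    rw [hempty]
    simp only [Finset.sum_empty]
    have : (fun x : (∀ i, Ω i) => (av (univ \ S) (fun _ => (0 : ℝ) ^ 2) x) ^ (k + 1)) =
        fun _ => 0 := by
      ext x
      rw [av_const]
      simp
    rw [this, av_const, mul_zero]

end A

end Vale.Agent.P042
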