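import Mathlib

/-! The convolution identity `n A_n = ∑ S_j A_{n-j}` for completely multiplicative functions on
monic polynomials over a finite field; used in `LFun.lean`. -/

namespace Vale.Agent.P042.LFunAux

open Finset Polynomial UniqueFactorizationMonoid

section mon
variable {F : Type*} [Field F] [Fintype F]

open Classical in
/-- monic polynomials of degree `n` -/
noncomputable def mon (F : Type*) [Field F] [Fintype F] (n : ℕ) : Finset F[X] :=
  (univ : Finset (Fin n → F)).image (fun c => X ^ n + ∑ i : Fin n, C (c i) * X ^ (i : ℕ))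

lemma mem_mon {n : ℕ} {g : F[X]} : g ∈ mon F n ↔ g.Monic ∧ g.natDegree = n := by
  classical
  unfold mon
  rw [mem_image]
  constructor
  · rintro ⟨c, -, rfl⟩
    have hdeg : (∑ i : Fin n, C (c i) * X ^ (i : ℕ)).degree < (n : WithBot ℕ) := by
      rw [← mem_degreeLT]
      refine Submodule.sum_mem _ fun i _ => ?_
      rw [mem_degreeLT]
      refine lt_of_le_of_lt (degree_C_mul_X_pow_le _ _) ?_
      exact_mod_cast i.2
    refine ⟨monic_X_pow_add hdeg, ?_⟩
    rw [natDegree_add_eq_left_of_degree_lt]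
    · exact natDegree_X_pow n
    · rw [degree_X_pow]; exact hdeg
  · rintro ⟨hg, rfl⟩
    refine ⟨fun i => g.coeff i, mem_univ _, ?_⟩
    rw [Finset.sum_fin_eq_sum_range]
    conv_rhs => rw [hg.as_sum]
    congr 1
    apply sum_congr rfl
    intro i hi
    rw [mem_range] at hi
    simp [hi]

open Classical in
/-- monic irreducible polynomials of degree `n` -/
noncomputable def irr (F : Type*) [Field F] [Fintype F] (n : ℕ) : Finset F[X] :=
  (mon F n).filter Irreducible

lemma mem_irr {n : ℕ} {g : F[X]} : g ∈ irr F n ↔ g.Monic ∧ g.natDegree = n ∧ Irreducible g := by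
  classical
  unfold irr
  rw [mem_filter, mem_mon, and_assoc]

omit [Fintype F] in
open Classical in
lemma pow_dvd_iff {P g : F[X]} (hP : P.Monic) (hPi : Irreducible P) (hg : g ≠ 0) (m : ℕ) :
    P ^ m ∣ g ↔ m ≤ (normalizedFactors g).count P := by
  rw [dvd_iff_normalizedFactors_le_normalizedFactors (pow_ne_zero _ hPi.ne_zero) hg,
    normalizedFactors_pow, normalizedFactors_irreducible hPi, hP.normalize_eq_self,
    Multiset.nsmul_singleton, ← Multiset.le_count_iff_replicate_le]

open Classical in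
lemma natDegree_eq_sum {n : ℕ} {g : F[X]} (hg : g ∈ mon F n) :
    (n : ℂ) = ∑ d ∈ Icc 1 n, ∑ P ∈ irr F d, ∑ m ∈ Icc 1 n, if P ^ m ∣ g then (d : ℂ) else 0 := by
  rw [mem_mon] at hg
  obtain ⟨hgm, hgn⟩ := hg
  have hg0 := hgm.ne_zero
  have h1 : g = (normalizedFactors g).prod := by
    rw [prod_normalizedFactors_eq hg0, hgm.normalize_eq_self]
  have h2 : n = ((normalizedFactors g).map natDegree).sum := by
    rw [← natDegree_multiset_prod _ (zero_notMem_normalizedFactors g), ← h1, hgn]
  have h3 : ((normalizedFactors g).map natDegree).sum =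
      ∑ P ∈ (normalizedFactors g).toFinset, (normalizedFactors g).count P * P.natDegree := by
    rw [Finset.sum_multiset_map_count]
    simp
  have h4 : ∑ P ∈ (normalizedFactors g).toFinset, (normalizedFactors g).count P * P.natDegree =
      ∑ d ∈ Icc 1 n, ∑ P ∈ irr F d, (normalizedFactors g).count P * P.natDegree := by
    rw [← sum_biUnion]
    · apply sum_subset
      · intro P hP
        rw [Multiset.mem_toFinset] at hP
        have e1 : Irreducible P := irreducible_of_normalized_factor P hP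
        have e2 : P ∣ g := dvd_of_mem_normalizedFactors hP
        have e3 : P.Monic := by
          have := normalize_normalized_factor P hP
          rw [← this]
          exact monic_normalize e1.ne_zero
        rw [mem_biUnion]
        refine ⟨P.natDegree, ?_, mem_irr.2 ⟨e3, rfl, e1⟩⟩
        rw [mem_Icc, ← hgn]
        exact ⟨e1.natDegree_pos, natDegree_le_of_dvd e2 hg0⟩
      · intro P _ hP
        rw [Multiset.mem_toFinset] at hP
        rw [Multiset.count_eq_zero_of_notMem hP, zero_mul]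
    · intro d _ d' _ hdd'
      rw [Function.onFun, disjoint_left]
      intro P hP hP'
      rw [mem_irr] at hP hP'
      exact hdd' (hP.2.1.symm.trans hP'.2.1)
  rw [h3, h4] at h2
  refine (congrArg (Nat.cast : ℕ → ℂ) h2).trans ?_
  push_cast
  apply sum_congr rfl
  intro d _
  apply sum_congr rfl
  intro P hP
  rw [mem_irr] at hP
  obtain ⟨hPm, hPd, hPi⟩ := hP
  have h5 : ∀ m, P ^ m ∣ g ↔ m ≤ (normalizedFactors g).count P := pow_dvd_iff hPm hPi hg0
  have h6 : (normalizedFactors g).count P ≤ n := by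
    have e1 := (h5 _).2 le_rfl
    have e2 := natDegree_le_of_dvd e1 hg0
    rw [hPm.natDegree_pow, hgn] at e2
    have e3 := hPi.natDegree_pos
    exact (Nat.le_mul_of_pos_right _ e3).trans e2
  have h7 : (Icc 1 n).filter (fun m => P ^ m ∣ g) = Icc 1 ((normalizedFactors g).count P) := by
    ext m
    rw [mem_filter, mem_Icc, mem_Icc, h5]
    omega
  rw [← sum_filter, h7, sum_const, Nat.card_Icc, nsmul_eq_mul, hPd]
  simp

/-- `χ` is completely multiplicative on monic polynomials. -/
structure CM (χ : F[X] → ℂ) : Prop where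
  one : χ 1 = 1
  mul : ∀ g h : F[X], g.Monic → h.Monic → χ (g * h) = χ g * χ h

omit [Fintype F] in
lemma CM.pow {χ : F[X] → ℂ} (h : CM χ) {g : F[X]} (hg : g.Monic) (m : ℕ) :
    χ (g ^ m) = χ g ^ m := by
  induction m with
  | zero => simp [h.one]
  | succ m ih => rw [pow_succ, h.mul _ _ (hg.pow m) hg, ih, pow_succ]

/-- `A_n` -/
noncomputable def AA (χ : F[X] → ℂ) (n : ℕ) : ℂ := ∑ g ∈ mon F n, χ g

/-- `S_j` -/
noncomputable def SS (χ : F[X] → ℂ) (j : ℕ) : ℂ :=
  ∑ d ∈ j.divisors, ∑ P ∈ irr F d, (d : ℂ) * χ P ^ (j / d)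

lemma AA_zero {χ : F[X] → ℂ} (h : CM χ) : AA χ 0 = 1 := by
  have : mon F 0 = {1} := by
    ext g
    rw [mem_mon, mem_singleton]
    constructor
    · rintro ⟨h1, h2⟩
      exact h1.natDegree_eq_zero.1 h2
    · rintro rfl
      exact ⟨monic_one, natDegree_one⟩
  rw [AA, this, sum_singleton, h.one]

open Classical in
lemma sum_multiples {χ : F[X] → ℂ} (h : CM χ) {P : F[X]} (hP : P.Monic) {n d m : ℕ}
    (hd : P.natDegree = d) :
    ∑ g ∈ mon F n, (if P ^ m ∣ g then χ g else 0) =
      if m * d ≤ n then χ P ^ m * AA χ (n - m * d) else 0 := by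
  rw [← sum_filter]
  have hPm := hP.pow m
  have hdeg : (P ^ m).natDegree = m * d := by rw [hP.natDegree_pow, hd]
  split_ifs with hmd
  · have : (mon F n).filter (fun g => P ^ m ∣ g) =
        (mon F (n - m * d)).image (fun g => P ^ m * g) := by
      ext g
      rw [mem_filter, mem_image, mem_mon]
      constructor
      · rintro ⟨⟨hg, hgn⟩, g', rfl⟩
        have hg' : g'.Monic := hPm.of_mul_monic_left hg
        refine ⟨g', ?_, rfl⟩
        rw [mem_mon]
        refine ⟨hg', ?_⟩
        rw [hPm.natDegree_mul hg', hdeg] at hgn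
        omega
      · rintro ⟨g', hg', rfl⟩
        rw [mem_mon] at hg'
        refine ⟨⟨hPm.mul hg'.1, ?_⟩, dvd_mul_right _ _⟩
        rw [hPm.natDegree_mul hg'.1, hdeg, hg'.2]
        omega
    rw [this, sum_image, AA, mul_sum]
    · apply sum_congr rfl
      intro g hg
      rw [mem_mon] at hg
      rw [h.mul _ _ hPm hg.1, h.pow hP]
    · intro g _ g' _ hgg'
      exact mul_left_cancel₀ hPm.ne_zero hgg'
  · have : (mon F n).filter (fun g => P ^ m ∣ g) = ∅ := by
      rw [filter_eq_empty_iff]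
      intro g hg hdvd
      rw [mem_mon] at hg
      have := natDegree_le_of_dvd hdvd hg.1.ne_zero
      rw [hdeg, hg.2] at this
      exact hmd this
    rw [this, sum_empty]

theorem convolution {χ : F[X] → ℂ} (h : CM χ) (n : ℕ) :
    (n : ℂ) * AA χ n = ∑ j ∈ Icc 1 n, SS χ j * AA χ (n - j) := by
  classical
  have e1 : (n : ℂ) * AA χ n = ∑ d ∈ Icc 1 n, ∑ P ∈ irr F d, ∑ m ∈ Icc 1 n,
      (d : ℂ) * (if m * d ≤ n then χ P ^ m * AA χ (n - m * d) else 0) := by
    have e2 : (n : ℂ) * AA χ n = ∑ g ∈ mon F n, ∑ d ∈ Icc 1 n, ∑ P ∈ irr F d, ∑ m ∈ Icc 1 n,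
        (d : ℂ) * (if P ^ m ∣ g then χ g else 0) := by
      rw [AA, mul_sum]
      apply sum_congr rfl
      intro g hg
      rw [natDegree_eq_sum hg, sum_mul]
      apply sum_congr rfl
      intro d _
      rw [sum_mul]
      apply sum_congr rfl
      intro P _
      rw [sum_mul]
      apply sum_congr rfl
      intro m _
      split_ifs <;> simp
    rw [e2, sum_comm]
    apply sum_congr rfl
    intro d _
    rw [sum_comm]
    apply sum_congr rfl
    intro P hP
    rw [mem_irr] at hP
    rw [sum_comm]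
    apply sum_congr rfl
    intro m _
    rw [← mul_sum, sum_multiples h hP.1 hP.2.1]
  rw [e1]
  -- right-hand side
  have e3 : ∑ j ∈ Icc 1 n, SS χ j * AA χ (n - j) =
      ∑ j ∈ Icc 1 n, ∑ d ∈ Icc 1 n, if d ∣ j then
        ∑ P ∈ irr F d, (d : ℂ) * (χ P ^ (j / d) * AA χ (n - j)) else 0 := by
    apply sum_congr rfl
    intro j hj
    rw [mem_Icc] at hj
    rw [SS, sum_mul, ← sum_filter]
    have : j.divisors = (Icc 1 n).filter (fun d => d ∣ j) := by
      ext d
      rw [Nat.mem_divisors, mem_filter, mem_Icc]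
      constructor
      · rintro ⟨h1, h2⟩
        exact ⟨⟨Nat.pos_of_dvd_of_pos h1 (by omega), (Nat.le_of_dvd (by omega) h1).trans hj.2⟩, h1⟩
      · rintro ⟨_, h1⟩
        exact ⟨h1, by omega⟩
    rw [this]
    apply sum_congr rfl
    intro d _
    rw [sum_mul]
    apply sum_congr rfl
    intro P _
    ring
  rw [e3, sum_comm]
  apply sum_congr rfl
  intro d hd
  rw [mem_Icc] at hd
  rw [← sum_filter, sum_comm]
  have e4 : ∀ j ∈ (Icc 1 n).filter (fun j => d ∣ j),
      (∑ P ∈ irr F d, (d : ℂ) * (χ P ^ (j / d) * AA χ (n - j))) =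
      ∑ P ∈ irr F d, (d : ℂ) * (χ P ^ (j / d) * AA χ (n - j)) := fun _ _ => rfl
  -- reindex `j = m d`
  have e5 : ∑ m ∈ Icc 1 n, ∑ P ∈ irr F d,
      (d : ℂ) * (if m * d ≤ n then χ P ^ m * AA χ (n - m * d) else 0) =
      ∑ m ∈ (Icc 1 n).filter (fun m => m * d ≤ n), ∑ P ∈ irr F d,
      (d : ℂ) * (χ P ^ m * AA χ (n - m * d)) := by
    rw [sum_filter]
    apply sum_congr rfl
    intro m _
    split_ifs with h1
    · rfl
    · simp
  rw [e5]
  refine sum_bij' (fun m _ => m * d) (fun j _ => j / d) ?_ ?_ ?_ ?_ ?_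
  · intro m hm
    rw [mem_filter, mem_Icc] at hm ⊢
    refine ⟨⟨Nat.mul_pos (by omega) (by omega), hm.2⟩, Dvd.intro_left _ rfl⟩
  · intro j hj
    rw [mem_filter, mem_Icc] at hj ⊢
    have h1 : j / d * d = j := Nat.div_mul_cancel hj.2
    refine ⟨⟨Nat.div_pos (Nat.le_of_dvd (by omega) hj.2) (by omega), ?_⟩, ?_⟩
    · exact (Nat.div_le_self _ _).trans hj.1.2
    · rw [h1]; exact hj.1.2
  · intro m _
    exact Nat.mul_div_cancel _ (by omega)
  · intro j hj
    rw [mem_filter] at hj
    exact Nat.div_mul_cancel hj.2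
  · intro m _
    rw [Nat.mul_div_cancel _ (by omega : 0 < d)]

end mon

end Vale.Agent.P042.LFunAux
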