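import Vale.Agent.P042.LFunA
import Vale.Agent.P042.LFunB

/-! The `L`-function of `ψ(f)` is a polynomial (module W4). -/

namespace Vale.Agent.P042.LFunAux

open Finset Polynomial

section count
variable {F L : Type*} [Field F] [Fintype F] [Field L] [Fintype L] [Algebra F L]

open Classical in
lemma card_minpoly_eq {P : F[X]} (hP : P.Monic) (hPi : Irreducible P)
    (hd : P.natDegree ∣ Module.finrank F L) :
    ((univ : Finset L).filter (fun x => minpoly F x = P)).card = P.natDegree := by
  have : Fact (Irreducible P) := ⟨hPi⟩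
  have hfin : Module.finrank F (AdjoinRoot P) = P.natDegree := by
    rw [(AdjoinRoot.powerBasis hPi.ne_zero).finrank, AdjoinRoot.powerBasis_dim]
  obtain ⟨φ⟩ := FiniteField.nonempty_algHom_of_finrank_dvd (F := F) (K := AdjoinRoot P) (L := L)
    (by rw [hfin]; exact hd)
  have hroot : aeval (φ (AdjoinRoot.root P)) P = 0 := by
    rw [aeval_algHom_apply, AdjoinRoot.aeval_eq, AdjoinRoot.mk_self, map_zero]
  have hmin : minpoly F (φ (AdjoinRoot.root P)) = P :=
    (minpoly.eq_of_irreducible_of_monic hPi hroot hP).symm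
  have hsplit : (P.map (algebraMap F L)).Splits := by
    rw [← hmin]; exact Normal.splits inferInstance _
  have hsep : P.Separable := by
    rw [← hmin]; exact Algebra.IsSeparable.isSeparable F _
  have hset : (univ : Finset L).filter (fun x => minpoly F x = P) = (P.aroots L).toFinset := by
    ext x
    rw [mem_filter, Multiset.mem_toFinset, mem_aroots]
    constructor
    · rintro ⟨-, h⟩
      refine ⟨hP.ne_zero, ?_⟩
      rw [← h]; exact minpoly.aeval F x
    · rintro ⟨-, h⟩
      exact ⟨mem_univ _, (minpoly.eq_of_irreducible_of_monic hPi h hP).symm⟩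
  rw [hset, Multiset.toFinset_card_of_nodup (nodup_roots (Polynomial.Separable.map hsep)),
    ← natDegree_map (algebraMap F L)]
  exact splits_iff_card_roots.1 hsplit

open IntermediateField in
/-- the sum over a field extension, grouped by minimal polynomials -/
theorem sum_eq_SS (f : F[X]) (ψ : AddChar F ℂ) {j : ℕ} (hj : Module.finrank F L = j) :
    ∑ x : L, ψ (Algebra.trace F L (aeval x f)) = SS (fun g => ψ (tr f g)) j := by
  classical
  have hjpos : 0 < j := by rw [← hj]; exact Module.finrank_pos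
  have h1 : ∀ x : L, (minpoly F x).natDegree ∣ j ∧
      Module.finrank F⟮x⟯ L = j / (minpoly F x).natDegree := by
    intro x
    have hx : IsIntegral F x := Algebra.IsIntegral.isIntegral x
    have e1 := Module.finrank_mul_finrank F F⟮x⟯ L
    rw [adjoin.finrank hx, hj] at e1
    have e2 : 0 < (minpoly F x).natDegree := minpoly.natDegree_pos hx
    exact ⟨⟨_, e1.symm⟩, (Nat.div_eq_of_eq_mul_right e2 e1.symm).symm⟩
  have h2 : ∀ x : L, ψ (Algebra.trace F L (aeval x f)) =
      (fun P : F[X] => ψ (tr f P) ^ (j / P.natDegree)) (minpoly F x) := by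
    intro x
    simp only
    rw [tr_minpoly, AddChar.map_nsmul_eq_pow, (h1 x).2]
  simp only [h2]
  have h3 : ∀ x ∈ (univ : Finset L), minpoly F x ∈ j.divisors.biUnion (fun d => irr F d) := by
    intro x _
    have hx : IsIntegral F x := Algebra.IsIntegral.isIntegral x
    rw [mem_biUnion]
    exact ⟨(minpoly F x).natDegree, Nat.mem_divisors.2 ⟨(h1 x).1, by omega⟩,
      mem_irr.2 ⟨minpoly.monic hx, rfl, minpoly.irreducible hx⟩⟩
  rw [← sum_fiberwise_of_maps_to h3, sum_biUnion]
  · rw [SS]
    apply sum_congr rfl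
    intro d hd
    apply sum_congr rfl
    intro P hP
    rw [mem_irr] at hP
    obtain ⟨hPm, hPd, hPi⟩ := hP
    have h4 : ∀ x ∈ (univ : Finset L).filter (fun x => minpoly F x = P),
        ψ (tr f (minpoly F x)) ^ (j / (minpoly F x).natDegree) = ψ (tr f P) ^ (j / d) := by
      intro x hx
      rw [(mem_filter.1 hx).2, hPd]
    rw [sum_congr rfl h4, sum_const, card_minpoly_eq hPm hPi (by
      rw [hPd, hj]; exact (Nat.mem_divisors.1 hd).1), nsmul_eq_mul, hPd]
  · intro d _ d' _ hdd'
    rw [Function.onFun, disjoint_left]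
    intro P hP hP'
    rw [mem_irr] at hP hP'
    exact hdd' (hP.2.1.symm.trans hP'.2.1)

end count

section vanish
variable {F : Type*} [Field F] [Fintype F]

omit [Fintype F] in
lemma CM_tr (f : F[X]) (ψ : AddChar F ℂ) : CM (fun g => ψ (tr f g)) where
  one := by rw [tr_one, AddChar.map_zero_eq_one]
  mul g h hg hh := by rw [tr_mul f hg hh, AddChar.map_add_eq_mul]

/-- `A_n = 0` for `n ≥ k` -/
theorem AA_vanish (f : F[X]) (ψ : AddChar F ℂ) (hψ : ψ ≠ 1) {k : ℕ} (hk : 1 ≤ k)
    (hf : f.natDegree = k) (hkF : (k : F) ≠ 0) {n : ℕ} (hn : k ≤ n) :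
    AA (fun g => ψ (tr f g)) n = 0 := by
  classical
  have hlc : f.leadingCoeff ≠ 0 := by
    rw [Ne, leadingCoeff_eq_zero]
    rintro rfl
    rw [natDegree_zero] at hf
    omega
  obtain ⟨b, hb⟩ : ∃ b, ψ b ≠ 1 := by
    by_contra hcon
    push Not at hcon
    apply hψ
    ext a
    rw [hcon a, AddChar.one_apply]
  set a : F := (k : F) * f.leadingCoeff with ha
  have ha0 : a ≠ 0 := mul_ne_zero hkF hlc
  set c : F := -b / a with hc
  have hkey : AA (fun g => ψ (tr f g)) n = ψ b * AA (fun g => ψ (tr f g)) n := by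
    rw [AA, mul_sum]
    symm
    refine sum_bij' (fun g _ => g + C c * X ^ (n - k)) (fun g _ => g + C (-c) * X ^ (n - k))
      ?_ ?_ ?_ ?_ ?_
    · intro g hg
      rw [mem_mon] at hg ⊢
      have := shift_monic hg.1 hk (by rw [hg.2]; exact hn) c
      rw [hg.2] at this
      exact this
    · intro g hg
      rw [mem_mon] at hg ⊢
      have := shift_monic hg.1 hk (by rw [hg.2]; exact hn) (-c)
      rw [hg.2] at this
      exact this
    · intro g _
      rw [C_neg]; ring
    · intro g _
      rw [C_neg]; ring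
    · intro g hg
      rw [mem_mon] at hg
      have := tr_shift hg.1 hk hf (by rw [hg.2]; exact hn) c
      rw [hg.2] at this
      rw [this, ← ha]
      have e : tr f g - a * c = b + tr f g := by
        rw [hc]; field_simp; ring
      rw [e, AddChar.map_add_eq_mul]
  have h2 : (1 - ψ b) * AA (fun g => ψ (tr f g)) n = 0 := by
    rw [sub_mul, one_mul, ← hkey, sub_self]
  rcases mul_eq_zero.1 h2 with h | h
  · exact absurd (sub_eq_zero.1 h).symm hb
  · exact h

end vanish

lemma sum_Icc_shift (g : ℕ → ℂ) (n : ℕ) : ∑ j ∈ Icc 1 n, g j = ∑ j ∈ range n, g (j + 1) := by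
  induction n with
  | zero => simp
  | succ n ih => rw [Finset.sum_Icc_succ_top (by omega), ih, sum_range_succ]

/-- a sequence satisfying the Newton recursion comes from power sums -/
theorem exists_omega (A S : ℕ → ℂ) (k : ℕ) (hk : 1 ≤ k) (h0 : A 0 = 1) (hA : ∀ n, k ≤ n → A n = 0)
    (hS : ∀ n : ℕ, (n : ℂ) * A n = ∑ j ∈ Icc 1 n, S j * A (n - j)) :
    ∃ ω : Fin (k - 1) → ℂ, ∀ r : ℕ, 1 ≤ r → S r = - ∑ i, (ω i) ^ r := by
  classical
  -- the reversed polynomial
  set R : ℂ[X] := ∑ i ∈ range k, C (A i) * X ^ (k - 1 - i) with hR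
  have hRc : ∀ i, i ≤ k - 1 → R.coeff (k - 1 - i) = A i := by
    intro i hi
    rw [hR, finsetSum_coeff]
    rw [sum_eq_single i]
    · rw [coeff_C_mul, coeff_X_pow, if_pos rfl, mul_one]
    · intro j hj hji
      rw [mem_range] at hj
      rw [coeff_C_mul, coeff_X_pow, if_neg (by omega), mul_zero]
    · intro h
      exact absurd (mem_range.2 (by omega)) h
  have hRdeg : R.natDegree ≤ k - 1 := by
    rw [hR]
    apply natDegree_sum_le_of_forall_le
    intro i _
    exact (natDegree_C_mul_X_pow_le _ _).trans (by omega)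
  have hRlc : R.coeff (k - 1) = 1 := by
    have := hRc 0 (by omega)
    rw [Nat.sub_zero] at this
    rw [this, h0]
  have hRm : R.Monic := monic_of_natDegree_le_of_coeff_eq_one (k - 1) hRdeg hRlc
  have hRn : R.natDegree = k - 1 := by
    apply le_antisymm hRdeg
    apply le_natDegree_of_ne_zero
    rw [hRlc]; exact one_ne_zero
  have hcard : Multiset.card R.roots = R.natDegree :=
    splits_iff_card_roots.1 (IsAlgClosed.splits _)
  have hsa : ∀ i, sa R.roots i = A i := by
    intro i
    rcases le_or_gt i (k - 1) with h | h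
    · have h2 := coeff_eq_esymm_roots_of_card hcard (k := k - 1 - i) (by rw [hRn]; omega)
      rw [hRm.leadingCoeff, one_mul, hRn] at h2
      have h3 : k - 1 - (k - 1 - i) = i := by omega
      rw [h3, hRc i h] at h2
      exact h2.symm
    · rw [hA i (by omega)]
      unfold sa Multiset.esymm
      rw [Multiset.powersetCard_eq_empty]
      · simp
      · rw [hcard, hRn]; exact h
  -- power sums of the roots
  have hps : ∀ r, S (r + 1) = - ps R.roots (r + 1) := by
    intro r
    induction r using Nat.strong_induction_on with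
    | _ r ih =>
      have e1 := hS (r + 1)
      rw [sum_Icc_shift, sum_range_succ] at e1
      have e2 := newton R.roots (r + 1)
      rw [sum_range_succ] at e2
      simp only [hsa] at e2
      have e3 : r + 1 - 1 - r = 0 := by omega
      have e4 : r + 1 - (r + 1) = 0 := by omega
      rw [e3, h0] at e2
      rw [e4, h0] at e1
      have e5 : ∑ j ∈ range r, S (j + 1) * A (r + 1 - (j + 1)) =
          - ∑ j ∈ range r, ps R.roots (j + 1) * A (r + 1 - 1 - j) := by
        rw [← sum_neg_distrib]
        apply sum_congr rfl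
        intro j hj
        rw [mem_range] at hj
        rw [ih j hj]
        have : r + 1 - (j + 1) = r + 1 - 1 - j := by omega
        rw [this]; ring
      rw [e5] at e1
      linear_combination e2 - e1
  obtain ⟨l, hl⟩ : ∃ l : List ℂ, (l : Multiset ℂ) = R.roots := ⟨_, Multiset.coe_toList _⟩
  have hlen : l.length = k - 1 := by
    rw [← hRn, ← hcard, ← hl, Multiset.coe_card]
  refine ⟨fun i => l.get (i.cast hlen.symm), fun r hr => ?_⟩
  obtain ⟨r', rfl⟩ : ∃ r', r = r' + 1 := ⟨r - 1, by omega⟩
  rw [hps, ps, ← hl, Multiset.map_coe, Multiset.sum_coe]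
  congr 1
  have : ∑ i : Fin (k - 1), (l.get (i.cast hlen.symm)) ^ (r' + 1) =
      ∑ i : Fin l.length, (l.get i) ^ (r' + 1) :=
    Fintype.sum_equiv (finCongr hlen.symm) _ _ (fun i => rfl)
  rw [this]
  exact (Fin.sum_univ_fun_getElem l (fun a => a ^ (r' + 1))).symm

end Vale.Agent.P042.LFunAux

namespace Vale.Agent.P042

open LFunAux Polynomial Finset

theorem lfun_roots (p : ℕ) [Fact p.Prime] (f : (ZMod p)[X]) (k : ℕ) (hf : f.natDegree = k)
    (hk : 1 ≤ k) (hkp : k < p) (ψ : AddChar (ZMod p) ℂ) (hψ : ψ ≠ 1) :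
    ∃ ω : Fin (k - 1) → ℂ, ∀ r : ℕ, 1 ≤ r →
      ∑ᶠ x : GaloisField p r, ψ (Algebra.trace (ZMod p) (GaloisField p r)
        ((f.map (algebraMap (ZMod p) (GaloisField p r))).eval x)) = - ∑ i, (ω i) ^ r := by
  have hkF : ((k : ℕ) : ZMod p) ≠ 0 := by
    rw [Ne, ZMod.natCast_eq_zero_iff]
    intro h
    have := Nat.le_of_dvd hk h
    omega
  obtain ⟨ω, hω⟩ := exists_omega (AA (fun g => ψ (tr f g))) (SS (fun g => ψ (tr f g))) k hk
    (AA_zero (CM_tr f ψ)) (fun n hn => AA_vanish f ψ hψ hk hf hkF hn)
    (fun n => convolution (CM_tr f ψ) n)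
  refine ⟨ω, fun r hr => ?_⟩
  have : Fintype (GaloisField p r) := Fintype.ofFinite _
  rw [finsum_eq_sum_of_fintype, ← hω r hr,
    ← sum_eq_SS (L := GaloisField p r) f ψ (GaloisField.finrank p (by omega))]
  apply sum_congr rfl
  intro x _
  rw [aeval_def, eval₂_eq_eval_map]

end Vale.Agent.P042
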