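import Mathlib

/-! Newton identities for multisets and the local analysis of `∑ f(α)` over the roots of a
polynomial over `ZMod p`; used in `LFun.lean`. -/

namespace Vale.Agent.P042.LFunAux

open Finset Polynomial

section newton
variable {R : Type*} [CommRing R]

/-- power sums -/
def ps (s : Multiset R) (j : ℕ) : R := (s.map (fun a => a ^ j)).sum

/-- signed elementary symmetric functions -/
def sa (s : Multiset R) (i : ℕ) : R := (-1) ^ i * s.esymm i

lemma ps_cons (a : R) (s : Multiset R) (j : ℕ) : ps (a ::ₘ s) j = a ^ j + ps s j := by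
  simp [ps]

lemma sa_zero (s : Multiset R) : sa s 0 = 1 := by
  simp [sa, Multiset.esymm]

lemma sa_cons (a : R) (s : Multiset R) (i : ℕ) :
    sa (a ::ₘ s) (i + 1) = sa s (i + 1) - a * sa s i := by
  unfold sa Multiset.esymm
  rw [Multiset.powersetCard_cons, Multiset.map_add, Multiset.sum_add, Multiset.map_map]
  have : (Multiset.map (Multiset.prod ∘ Multiset.cons a) (Multiset.powersetCard i s)).sum =
      a * (Multiset.map Multiset.prod (Multiset.powersetCard i s)).sum := by
    rw [← Multiset.sum_map_mul_left]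
    simp
  rw [this, pow_succ]
  ring

lemma sa_zero_succ (i : ℕ) : sa (0 : Multiset R) (i + 1) = 0 := by
  simp [sa, Multiset.esymm, Multiset.powersetCard_zero_right]

theorem newton (s : Multiset R) : ∀ r : ℕ, ((r : ℕ) : R) * sa s r +
    ∑ j ∈ range r, ps s (j + 1) * sa s (r - 1 - j) = 0 := by
  induction s using Multiset.induction with
  | empty =>
    intro r
    cases r with
    | zero => simp
    | succ r =>
      rw [sa_zero_succ]
      simp [ps]
  | cons a s ih =>
    intro r
    cases r with
    | zero => simp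
    | succ r =>
      have h1 := ih (r + 1)
      have h2 := ih r
      have e1 : ∑ j ∈ range (r + 1), ps (a ::ₘ s) (j + 1) * sa (a ::ₘ s) (r + 1 - 1 - j) =
          ∑ j ∈ range (r + 1), ps s (j + 1) * sa s (r + 1 - 1 - j)
          - a * ∑ j ∈ range r, ps s (j + 1) * sa s (r - 1 - j) + a * sa s r := by
        rw [sum_range_succ, sum_range_succ]
        have e2 : ∀ j ∈ range r, ps (a ::ₘ s) (j + 1) * sa (a ::ₘ s) (r + 1 - 1 - j) =
            ps s (j + 1) * sa s (r + 1 - 1 - j) - a * (ps s (j + 1) * sa s (r - 1 - j)) +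
            (a ^ (j + 1) * sa s (r - j) - a ^ (j + 1 + 1) * sa s (r - (j + 1))) := by
          intro j hj
          rw [mem_range] at hj
          have e3 : r + 1 - 1 - j = (r - 1 - j) + 1 := by omega
          have e4 : r - (j + 1) = r - 1 - j := by omega
          have e5 : r - j = (r - 1 - j) + 1 := by omega
          rw [e3, sa_cons, ps_cons, e4, e5]
          ring
        rw [sum_congr rfl e2, sum_add_distrib, sum_sub_distrib, ← mul_sum,
          sum_range_sub' (fun j => a ^ (j + 1) * sa s (r - j))]
        have e6 : r + 1 - 1 - r = 0 := by omega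
        have e7 : r - r = 0 := by omega
        rw [e6, e7, sa_zero, sa_zero, ps_cons, Nat.sub_zero]
        ring
      rw [e1, sa_cons]
      push_cast at h1 ⊢
      linear_combination h1 - a * h2

/-- strong induction form -/
theorem ps_succ (s : Multiset R) (r : ℕ) : ps s (r + 1) =
    -(((r + 1 : ℕ) : R) * sa s (r + 1)) - ∑ j ∈ range r, ps s (j + 1) * sa s (r - j) := by
  have h := newton s (r + 1)
  rw [sum_range_succ] at h
  have e6 : r + 1 - 1 - r = 0 := by omega
  rw [e6, sa_zero] at h
  have e7 : ∀ j, r + 1 - 1 - j = r - j := fun j => by omega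
  simp only [e7] at h
  linear_combination h

/-- power sums of index `< k` depend only on the first coefficients -/
theorem ps_congr (s s' : Multiset R) (k : ℕ) (h : ∀ i < k, sa s i = sa s' i) :
    ∀ j, j + 1 < k → ps s (j + 1) = ps s' (j + 1) := by
  intro j
  induction j using Nat.strong_induction_on with
  | _ j ih =>
    intro hj
    rw [ps_succ, ps_succ, h _ hj]
    congr 1
    apply sum_congr rfl
    intro i hi
    rw [mem_range] at hi
    rw [ih i hi (by omega), h _ (by omega)]

theorem ps_shift (s s' : Multiset R) (k : ℕ) (h : ∀ i < k + 1, sa s i = sa s' i) (c : R)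
    (hk : sa s' (k + 1) = sa s (k + 1) + c) :
    ps s' (k + 1) = ps s (k + 1) - ((k + 1 : ℕ) : R) * c := by
  rw [ps_succ, ps_succ, hk]
  have : ∑ j ∈ range k, ps s' (j + 1) * sa s' (k - j) =
      ∑ j ∈ range k, ps s (j + 1) * sa s (k - j) := by
    apply sum_congr rfl
    intro i hi
    rw [mem_range] at hi
    rw [ps_congr s s' (k + 1) h i (by omega), h _ (by omega)]
  rw [this]
  ring

end newton

section roots
variable {F K : Type*} [Field F] [Field K] [Algebra F K] [IsAlgClosed K]

/-- `∑ f(α)` over the roots `α` of `g` -/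
noncomputable def rs (K : Type*) [Field K] [Algebra F K] (f g : F[X]) : K :=
  ((g.aroots K).map (fun α => aeval α f)).sum

omit [IsAlgClosed K] in
lemma rs_eq (f g : F[X]) : rs K f g =
    ∑ i ∈ range (f.natDegree + 1), algebraMap F K (f.coeff i) * ps (g.aroots K) i := by
  unfold rs ps
  simp only [aeval_eq_sum_range]
  rw [Multiset.sum_map_sum]
  apply sum_congr rfl
  intro i _
  rw [← Multiset.sum_map_mul_left]
  congr 1
  apply Multiset.map_congr rfl
  intro α _
  rw [Algebra.smul_def]

lemma card_aroots (g : F[X]) : Multiset.card (g.aroots K) = g.natDegree := by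
  rw [aroots_def, ← natDegree_map (algebraMap F K)]
  exact (splits_iff_card_roots).1 (IsAlgClosed.splits _)

lemma sa_aroots {g : F[X]} (hg : g.Monic) {i : ℕ} (hi : i ≤ g.natDegree) :
    sa (g.aroots K) i = algebraMap F K (g.coeff (g.natDegree - i)) := by
  have h1 : Multiset.card ((g.map (algebraMap F K)).roots) = (g.map (algebraMap F K)).natDegree :=
    (splits_iff_card_roots).1 (IsAlgClosed.splits _)
  have h2 := coeff_eq_esymm_roots_of_card h1 (k := g.natDegree - i)
    (by rw [natDegree_map]; omega)
  rw [coeff_map, natDegree_map, (hg.map _).leadingCoeff, one_mul] at h2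
  have h3 : g.natDegree - (g.natDegree - i) = i := by omega
  rw [h3] at h2
  rw [h2]
  rfl

lemma sa_aroots_of_lt {g : F[X]} {i : ℕ} (hi : g.natDegree < i) :
    sa (g.aroots K) i = 0 := by
  unfold sa Multiset.esymm
  rw [Multiset.powersetCard_eq_empty]
  · simp
  · rw [card_aroots]; exact hi

lemma sa_mem {g : F[X]} (hg : g.Monic) (i : ℕ) :
    sa (g.aroots K) i ∈ (algebraMap F K).range := by
  rcases le_or_gt i g.natDegree with h | h
  · rw [sa_aroots hg h]; exact ⟨_, rfl⟩
  · rw [sa_aroots_of_lt h]; exact zero_mem _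

lemma ps_mem {g : F[X]} (hg : g.Monic) (i : ℕ) :
    ps (g.aroots K) i ∈ (algebraMap F K).range := by
  induction i using Nat.strong_induction_on with
  | _ i ih =>
    cases i with
    | zero =>
      have : ps (g.aroots K) 0 = ((g.natDegree : ℕ) : K) := by
        simp [ps, card_aroots]
      rw [this]
      exact natCast_mem _ _
    | succ i =>
      rw [ps_succ]
      refine sub_mem (neg_mem (mul_mem (natCast_mem _ _) (sa_mem hg _))) (sum_mem ?_)
      intro j hj
      rw [mem_range] at hj
      exact mul_mem (ih _ (by omega)) (sa_mem hg _)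

lemma rs_mem (f : F[X]) {g : F[X]} (hg : g.Monic) : rs K f g ∈ (algebraMap F K).range := by
  rw [rs_eq]
  exact sum_mem fun i _ => mul_mem ⟨_, rfl⟩ (ps_mem hg i)

lemma shift_monic {g : F[X]} (hg : g.Monic) {k : ℕ} (hk : 1 ≤ k) (hkn : k ≤ g.natDegree) (c : F) :
    (g + C c * X ^ (g.natDegree - k)).Monic ∧
      (g + C c * X ^ (g.natDegree - k)).natDegree = g.natDegree := by
  have h1 : (C c * X ^ (g.natDegree - k)).degree < g.degree := by
    rw [degree_eq_natDegree hg.ne_zero]
    refine lt_of_le_of_lt (degree_C_mul_X_pow_le _ _) ?_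
    exact_mod_cast (by omega : g.natDegree - k < g.natDegree)
  exact ⟨hg.add_of_left h1, natDegree_add_eq_left_of_degree_lt h1⟩

lemma rs_shift {f g : F[X]} (hg : g.Monic) {k : ℕ} (hk : 1 ≤ k) (hf : f.natDegree = k)
    (hkn : k ≤ g.natDegree) (c : F) :
    rs K f (g + C c * X ^ (g.natDegree - k)) =
      rs K f g - algebraMap F K ((k : F) * f.leadingCoeff * c) := by
  obtain ⟨h1, h2⟩ := shift_monic hg hk hkn c
  set h := g + C c * X ^ (g.natDegree - k) with hh
  have h3 : ∀ i < k, sa (g.aroots K) i = sa (h.aroots K) i := by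
    intro i hi
    rw [sa_aroots hg (by omega), sa_aroots h1 (by omega), h2, hh, coeff_add, coeff_C_mul,
      coeff_X_pow, if_neg (by omega)]
    simp
  have h4 : sa (h.aroots K) k = sa (g.aroots K) k + algebraMap F K c := by
    rw [sa_aroots hg hkn, sa_aroots h1 (by omega), h2, hh, coeff_add, coeff_C_mul,
      coeff_X_pow, if_pos rfl]
    simp
  obtain ⟨k', rfl⟩ : ∃ k', k = k' + 1 := ⟨k - 1, by omega⟩
  have h5 := ps_shift (g.aroots K) (h.aroots K) k' h3 (algebraMap F K c) h4
  have h6 : ∀ i ∈ range (k' + 1), ps (h.aroots K) i = ps (g.aroots K) i := by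
    intro i hi
    rw [mem_range] at hi
    cases i with
    | zero => simp [ps, card_aroots, h2]
    | succ i => exact (ps_congr (g.aroots K) (h.aroots K) (k' + 1) h3 i (by omega)).symm
  rw [rs_eq, rs_eq, hf, sum_range_succ, sum_range_succ _ (k' + 1), h5]
  rw [sum_congr rfl fun i hi => by rw [h6 i hi]]
  have h7 : f.coeff (k' + 1) = f.leadingCoeff := by rw [leadingCoeff, hf]
  rw [h7]
  push_cast
  ring

end roots

section tr
variable {F : Type*} [Field F]

/-- the element of `F` equal to the sum of `f(α)` over the roots of the monic polynomial `g` -/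
noncomputable def tr (f g : F[X]) : F :=
  Function.invFun (algebraMap F (AlgebraicClosure F)) (rs (AlgebraicClosure F) f g)

lemma tr_spec (f : F[X]) {g : F[X]} (hg : g.Monic) :
    algebraMap F (AlgebraicClosure F) (tr f g) = rs (AlgebraicClosure F) f g :=
  Function.invFun_eq (rs_mem f hg)

lemma tr_mul (f : F[X]) {g h : F[X]} (hg : g.Monic) (hh : h.Monic) :
    tr f (g * h) = tr f g + tr f h := by
  apply (algebraMap F (AlgebraicClosure F)).injective
  rw [map_add, tr_spec f (hg.mul hh), tr_spec f hg, tr_spec f hh]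
  unfold rs
  rw [aroots_mul (mul_ne_zero hg.ne_zero hh.ne_zero), Multiset.map_add, Multiset.sum_add]

lemma tr_one (f : F[X]) : tr f 1 = 0 := by
  have h := tr_mul f (monic_one (R := F)) monic_one
  rw [mul_one] at h
  simpa using h

lemma tr_pow (f : F[X]) {g : F[X]} (hg : g.Monic) (m : ℕ) : tr f (g ^ m) = m • tr f g := by
  induction m with
  | zero => simp [tr_one]
  | succ m ih => rw [pow_succ, tr_mul f (hg.pow m) hg, ih, succ_nsmul]

lemma tr_shift {f g : F[X]} (hg : g.Monic) {k : ℕ} (hk : 1 ≤ k) (hf : f.natDegree = k)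
    (hkn : k ≤ g.natDegree) (c : F) :
    tr f (g + C c * X ^ (g.natDegree - k)) = tr f g - (k : F) * f.leadingCoeff * c := by
  apply (algebraMap F (AlgebraicClosure F)).injective
  rw [map_sub, tr_spec f (shift_monic hg hk hkn c).1, tr_spec f hg, rs_shift hg hk hf hkn]

open IntermediateField in
lemma tr_minpoly {L : Type*} [Field L] [Algebra F L] [FiniteDimensional F L]
    [Algebra.IsSeparable F L] (f : F[X]) (x : L) :
    Algebra.trace F L (aeval x f) = (Module.finrank F⟮x⟯ L) • tr f (minpoly F x) := by
  have hx : IsIntegral F x := Algebra.IsIntegral.isIntegral x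
  set y : F⟮x⟯ := AdjoinSimple.gen F x with hy
  have h1 : aeval x f = algebraMap F⟮x⟯ L (aeval y f) := by
    rw [← aeval_algebraMap_apply, hy, AdjoinSimple.algebraMap_gen]
  rw [h1, ← Algebra.trace_trace (S := F⟮x⟯), Algebra.trace_algebraMap, map_nsmul]
  congr 1
  apply (algebraMap F (AlgebraicClosure F)).injective
  rw [tr_spec f (minpoly.monic hx), trace_eq_sum_embeddings (AlgebraicClosure F)]
  classical
  have hnd : ((minpoly F x).aroots (AlgebraicClosure F)).Nodup :=
    nodup_roots (Polynomial.Separable.map (Algebra.IsSeparable.isSeparable F x))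
  have hrs : rs (AlgebraicClosure F) f (minpoly F x) =
      ∑ a ∈ ((minpoly F x).aroots (AlgebraicClosure F)).toFinset, aeval a f := by
    unfold rs
    rw [Finset.sum_eq_multiset_sum, Multiset.toFinset_val, hnd.dedup]
  rw [hrs]
  set e := algHomAdjoinIntegralEquiv F (K := AlgebraicClosure F) hx with he
  have hes : ∀ σ : F⟮x⟯ →ₐ[F] AlgebraicClosure F, ((e σ : _) : AlgebraicClosure F) = σ y := by
    intro σ
    have := algHomAdjoinIntegralEquiv_symm_apply_gen F hx (e σ)
    rw [← he, e.symm_apply_apply] at this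
    exact this.symm
  refine Finset.sum_bij (fun σ _ => σ y) ?_ ?_ ?_ ?_
  · intro σ _
    rw [Multiset.mem_toFinset, ← hes σ]
    exact (e σ).2
  · intro σ _ τ _ h
    apply e.injective
    apply Subtype.ext
    rw [hes, hes]
    exact h
  · intro a ha
    rw [Multiset.mem_toFinset] at ha
    refine ⟨e.symm ⟨a, ha⟩, Finset.mem_univ _, ?_⟩
    exact algHomAdjoinIntegralEquiv_symm_apply_gen F hx ⟨a, ha⟩
  · intro σ _
    rw [← aeval_algHom_apply]

end tr

end Vale.Agent.P042.LFunAux
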