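import Vale.Agent.P042.LevelMoment

/-!
# P042, module B: the level inequality on an interval
-/

namespace Vale.Agent.P042

open Finset

namespace LevelAux

lemma pow_id (m n s : ℕ) (A v K mm : ℝ) (hK : K ≠ 0) :
    (2 * mm) ^ (m * s) * (4 ^ s * (A ^ 2 * v)) ^ n =
      A ^ (2 * n) * (v * K ^ s) ^ n * ((2 * mm) ^ m * 4 ^ n / K ^ n) ^ s := by
  have e1 : (K ^ s) ^ n = (K ^ n) ^ s := by rw [← pow_mul, ← pow_mul, mul_comm]
  have e2 : ((4 : ℝ) ^ s) ^ n = (4 ^ n) ^ s := by rw [← pow_mul, ← pow_mul, mul_comm]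
  have hK' : (K ^ n) ^ s ≠ 0 := pow_ne_zero _ (pow_ne_zero _ hK)
  rw [mul_pow (4 ^ s), mul_pow (A ^ 2), mul_pow v, div_pow, mul_pow ((2 * mm) ^ m),
    pow_mul (2 * mm) m s, e1, e2, pow_mul A 2 n]
  field_simp

section main
variable {ι : Type} [Fintype ι] [DecidableEq ι] (pr : ι → ℕ)

/-- the index family of the level inequality -/
def RRf (Ps : Finset ι) (Q d : ℕ) : Finset (Finset ι) :=
  Ps.powerset.filter (fun R => R.card = d ∧ PR pr R ≤ Q)

omit [Fintype ι] [DecidableEq ι] in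
lemma mem_RRf {Ps : Finset ι} {Q d : ℕ} {R : Finset ι} :
    R ∈ RRf pr Ps Q d ↔ R ⊆ Ps ∧ R.card = d ∧ PR pr R ≤ Q := by
  unfold RRf
  rw [Finset.mem_filter, Finset.mem_powerset]

omit [Fintype ι] [DecidableEq ι] in
lemma card_RRf (hpr : ∀ i, (pr i).Prime) (hinj : Function.Injective pr) (Ps : Finset ι)
    (Q d : ℕ) : (RRf pr Ps Q d).card ≤ Q := by
  calc (RRf pr Ps Q d).card ≤ (Finset.Icc 1 Q).card := by
        apply Finset.card_le_card_of_injOn (PR pr)
        · intro R hR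
          have h := (mem_RRf pr).1 hR
          have : 0 < PR pr R := Finset.prod_pos fun i _ => (hpr i).pos
          rw [Finset.mem_coe, Finset.mem_Icc]
          exact ⟨this, h.2.2⟩
        · exact (PR_injective pr hpr hinj).injOn
    _ = Q := by simp

/-- the restricted weight -/
noncomputable def FT (F : ℤ → ℝ) (T : Finset ι) (x : ∀ i, ZMod (pr i)) (u : ℤ) : ℝ :=
  F u * ∏ i ∈ T, ind pr u x i

omit [Fintype ι] in
/-- decomposition of a component along `S` -/
lemma Ph_decomp (F : ℤ → ℝ) (y : ℤ) (J : ℕ) {R S : Finset ι} (hS : S ⊆ R)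
    (x z : ∀ i, ZMod (pr i)) (hxz : ∀ i ∈ S, z i = x i) :
    Ph pr F y J R z = ∑ T ∈ S.powerset, (-1) ^ (S \ T).card *
      Ph pr (FT pr F T x) y J (R \ S) z := by
  unfold Ph
  simp only [mul_div_assoc']
  rw [← Finset.sum_div]
  congr 1
  simp only [Finset.mul_sum]
  rw [Finset.sum_comm]
  refine Finset.sum_congr rfl fun u _ => ?_
  have h1 : kk pr R u z = kk pr S u x * kk pr (R \ S) u z := by
    unfold kk
    rw [← Finset.prod_sdiff hS, mul_comm]
    congr 1
    refine Finset.prod_congr rfl fun i hi => ?_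
    unfold ind
    rw [hxz i hi]
  have h2 : kk pr S u x = ∑ T ∈ S.powerset, (∏ i ∈ T, ind pr u x i) * (-1) ^ (S \ T).card := by
    unfold kk
    simp only [sub_eq_add_neg]
    rw [Finset.prod_add]
    simp
  rw [h1, h2, Finset.sum_mul, Finset.mul_sum]
  refine Finset.sum_congr rfl fun T _ => ?_
  unfold FT
  ring

variable [∀ i, NeZero (pr i)]

/-- hypothesis package of the level inequality -/
structure Hyp (m : ℕ) (A : ℝ) (y : ℤ) (J : ℕ) (Ps : Finset ι) (Q W : ℕ) (c : ℤ) (F : ℤ → ℝ) :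
    Prop where
  hQ : 1 ≤ Q
  hW : 1 ≤ W
  hcop : ∀ i ∈ Ps, Nat.Coprime (pr i) W
  hF0 : ∀ x, 0 ≤ F x
  hF1 : ∀ x ∈ Finset.Ioc y (y + (J : ℤ)), F x ≤ if x ≡ c [ZMOD (W : ℤ)] then (W : ℝ) else 0
  hreg : ∀ R ⊆ Ps, PR pr R ≤ Q → ∀ z : (∀ i, ZMod (pr i)),
    (∑ x ∈ Finset.Ioc y (y + (J : ℤ)), F x * ∏ i ∈ R, ind pr x z i) / J ≤ A
  hJ : (8 : ℝ) * W * (Q : ℝ) ^ (10 * m + 10) * Real.exp (10 * (m : ℝ) + 10) ≤ J

omit [Fintype ι] in
/-- the hypotheses are inherited by the restricted weights -/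
lemma Hyp.restrict (hpr : ∀ i, (pr i).Prime) (hinj : Function.Injective pr) {m : ℕ} {A : ℝ}
    {y : ℤ} {J : ℕ} {Ps : Finset ι} {Q W : ℕ} {c : ℤ} {F : ℤ → ℝ}
    (h : Hyp pr m A y J Ps Q W c F) {S T : Finset ι} (hS : S ⊆ Ps) (hSQ : PR pr S ≤ Q)
    (hT : T ⊆ S) (x : ∀ i, ZMod (pr i)) :
    ∃ c' : ℤ, Hyp pr m A y J (Ps \ S) (Q / PR pr S) (W * PR pr T) c' (FT pr F T x) := by
  obtain ⟨c', hc'⟩ := crt_set pr hpr hinj W c x T fun i hi => h.hcop i (hS (hT hi))
  have hSpos : 0 < PR pr S := PR_pos pr S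
  have hTS : PR pr T ≤ PR pr S := PR_le_of_subset pr hT
  refine ⟨c', ⟨?_, ?_, ?_, ?_, ?_, ?_, ?_⟩⟩
  · exact Nat.div_pos hSQ hSpos
  · exact Nat.mul_pos h.hW (PR_pos pr T)
  · intro i hi
    rw [Finset.mem_sdiff] at hi
    apply Nat.Coprime.mul_right (h.hcop i hi.1)
    apply Nat.Coprime.prod_right
    intro j hj
    rw [Nat.coprime_primes (hpr i) (hpr j)]
    intro hij
    exact hi.2 (hT ((hinj hij) ▸ hj))
  · intro u
    exact mul_nonneg (h.hF0 u) (Finset.prod_nonneg fun i _ => ind_nonneg pr u x i)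
  · intro u hu
    have h1 := h.hF1 u hu
    unfold FT
    by_cases h2 : ∀ i ∈ T, (u : ZMod (pr i)) = x i
    · have h3 : ∏ i ∈ T, ind pr u x i = ((PR pr T : ℕ) : ℝ) := by
        unfold PR ind
        push_cast
        refine Finset.prod_congr rfl fun i hi => ?_
        rw [if_pos (h2 i hi)]
      rw [h3]
      have hTp : (0 : ℝ) ≤ ((PR pr T : ℕ) : ℝ) := by positivity
      by_cases h4 : u ≡ c [ZMOD (W : ℤ)]
      · rw [if_pos ((hc' u).1 ⟨h4, h2⟩)]
        rw [if_pos h4] at h1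
        push_cast
        exact mul_le_mul_of_nonneg_right h1 hTp
      · rw [if_neg (fun h5 => h4 ((hc' u).2 h5).1)]
        rw [if_neg h4] at h1
        have h6 : F u = 0 := le_antisymm h1 (h.hF0 u)
        rw [h6, zero_mul]
    · push Not at h2
      obtain ⟨i, hi, hne⟩ := h2
      have h3 : ∏ i ∈ T, ind pr u x i = 0 := by
        apply Finset.prod_eq_zero hi
        unfold ind
        rw [if_neg hne]
      rw [h3, mul_zero]
      split_ifs
      · positivity
      · exact le_rfl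
  · intro R hR hRQ z
    have hRS : Disjoint T R := by
      rw [Finset.disjoint_left]
      intro i hiT hiR
      exact (Finset.mem_sdiff.1 (hR hiR)).2 (hT hiT)
    have hle : PR pr (T ∪ R) ≤ Q := by
      have e : PR pr (T ∪ R) = PR pr T * PR pr R := Finset.prod_union hRS
      rw [e]
      calc PR pr T * PR pr R ≤ PR pr S * (Q / PR pr S) := Nat.mul_le_mul hTS hRQ
        _ ≤ Q := Nat.mul_div_le _ _
    have h1 := h.hreg (T ∪ R) (Finset.union_subset (hT.trans hS)
      (hR.trans Finset.sdiff_subset)) hle (T.piecewise x z)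
    refine le_trans (le_of_eq ?_) h1
    congr 1
    refine Finset.sum_congr rfl fun u _ => ?_
    unfold FT
    rw [Finset.prod_union hRS, mul_assoc]
    congr 2
    · refine Finset.prod_congr rfl fun i hi => ?_
      unfold ind
      rw [Finset.piecewise_eq_of_mem _ _ _ hi]
    · refine Finset.prod_congr rfl fun i hi => ?_
      unfold ind
      rw [Finset.piecewise_eq_of_notMem _ _ _ (Finset.disjoint_right.1 hRS hi)]
  · refine le_trans ?_ h.hJ
    apply mul_le_mul_of_nonneg_right _ (Real.exp_pos _).le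
    have h1 : PR pr T * (Q / PR pr S) ^ (10 * m + 10) ≤ Q ^ (10 * m + 10) := by
      calc PR pr T * (Q / PR pr S) ^ (10 * m + 10)
          ≤ (PR pr S) ^ (10 * m + 10) * (Q / PR pr S) ^ (10 * m + 10) := by
            apply Nat.mul_le_mul_right
            exact hTS.trans (Nat.le_self_pow (by omega) _)
        _ = (PR pr S * (Q / PR pr S)) ^ (10 * m + 10) := by rw [mul_pow]
        _ ≤ Q ^ (10 * m + 10) := Nat.pow_le_pow_left (Nat.mul_div_le _ _) _
    have h2 : ((PR pr T : ℕ) : ℝ) * ((Q / PR pr S : ℕ) : ℝ) ^ (10 * m + 10) ≤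
        (Q : ℝ) ^ (10 * m + 10) := by exact_mod_cast h1
    push_cast at h2 ⊢
    have h3 : (0 : ℝ) ≤ 8 * W := by positivity
    calc 8 * ((W : ℝ) * ((PR pr T : ℕ) : ℝ)) * ((Q / PR pr S : ℕ) : ℝ) ^ (10 * m + 10)
        = 8 * W * (((PR pr T : ℕ) : ℝ) * ((Q / PR pr S : ℕ) : ℝ) ^ (10 * m + 10)) := by ring
      _ ≤ 8 * W * (Q : ℝ) ^ (10 * m + 10) := mul_le_mul_of_nonneg_left h2 h3

/-- the bound for the conditional second moment -/
lemma sup_bound (hpr : ∀ i, (pr i).Prime) (hinj : Function.Injective pr) {m d : ℕ} {A : ℝ}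
    {y : ℤ} {J : ℕ} {Ps : Finset ι} {Q W : ℕ} {c : ℤ} {F : ℤ → ℝ}
    (h : Hyp pr m A y J Ps Q W c F)
    (ih : ∀ d' < d, ∀ (Ps : Finset ι) (Q W : ℕ) (c : ℤ) (F : ℤ → ℝ),
      Hyp pr m A y J Ps Q W c F →
      ∑ R ∈ RRf pr Ps Q d', En pr F y J R ≤ A ^ 2 * (200 * (m : ℝ)) ^ d')
    (S : Finset ι) (hS0 : S.Nonempty) (hSd : S.card ≤ d) (x : ∀ i, ZMod (pr i)) :
    av Sᶜ (fun z => (∑ R ∈ (RRf pr Ps Q d).filter (fun R => S ⊆ R), Ph pr F y J R z) ^ 2) x ≤
      4 ^ S.card * (A ^ 2 * (200 * (m : ℝ)) ^ (d - S.card)) := by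
  classical
  have hnn : (0 : ℝ) ≤ 4 ^ S.card * (A ^ 2 * (200 * (m : ℝ)) ^ (d - S.card)) := by positivity
  by_cases hS : S ⊆ Ps ∧ PR pr S ≤ Q
  · obtain ⟨hSP, hSQ⟩ := hS
    have hSc : 0 < S.card := Finset.card_pos.2 hS0
    obtain ⟨RR', hRR'⟩ : ∃ RR' : Finset (Finset ι),
      RR' = RRf pr (Ps \ S) (Q / PR pr S) (d - S.card) := ⟨_, rfl⟩
    -- reindexing
    have hre : ∀ z : (∀ i, ZMod (pr i)), (∀ i ∈ S, z i = x i) →
        ∑ R ∈ (RRf pr Ps Q d).filter (fun R => S ⊆ R), Ph pr F y J R z =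
        ∑ T ∈ S.powerset, (-1) ^ (S \ T).card *
          ∑ R' ∈ RR', Ph pr (FT pr F T x) y J R' z := by
      intro z hz
      have e1 : ∑ R ∈ (RRf pr Ps Q d).filter (fun R => S ⊆ R), Ph pr F y J R z =
          ∑ R ∈ (RRf pr Ps Q d).filter (fun R => S ⊆ R), ∑ T ∈ S.powerset,
            (-1) ^ (S \ T).card * Ph pr (FT pr F T x) y J (R \ S) z := by
        refine Finset.sum_congr rfl fun R hR => ?_
        exact Ph_decomp pr F y J (Finset.mem_filter.1 hR).2 x z hz
      rw [e1, Finset.sum_comm]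
      refine Finset.sum_congr rfl fun T _ => ?_
      rw [← Finset.mul_sum]
      congr 1
      refine Finset.sum_nbij' (fun R => R \ S) (fun R' => R' ∪ S) ?_ ?_ ?_ ?_ ?_
      · intro R hR
        obtain ⟨hR1, hR2⟩ := Finset.mem_filter.1 hR
        obtain ⟨hR3, hR4, hR5⟩ := (mem_RRf pr).1 hR1
        rw [hRR', mem_RRf]
        refine ⟨Finset.sdiff_subset_sdiff hR3 (Finset.Subset.refl S), ?_, ?_⟩
        · rw [Finset.card_sdiff_of_subset hR2, hR4]
        · rw [Nat.le_div_iff_mul_le (PR_pos pr S)]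
          have : PR pr (R \ S) * PR pr S = PR pr R := Finset.prod_sdiff hR2
          rw [this]; exact hR5
      · intro R' hR'
        rw [hRR', mem_RRf] at hR'
        obtain ⟨h1, h2, h3⟩ := hR'
        have hdis : Disjoint R' S := by
          rw [Finset.disjoint_left]
          intro i hi hiS
          exact (Finset.mem_sdiff.1 (h1 hi)).2 hiS
        rw [Finset.mem_filter, mem_RRf]
        refine ⟨⟨Finset.union_subset (h1.trans Finset.sdiff_subset) hSP, ?_, ?_⟩,
          Finset.subset_union_right⟩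
        · rw [Finset.card_union_of_disjoint hdis, h2]; omega
        · have : PR pr (R' ∪ S) = PR pr R' * PR pr S := Finset.prod_union hdis
          rw [this]
          exact (Nat.le_div_iff_mul_le (PR_pos pr S)).1 h3
      · intro R hR
        exact Finset.sdiff_union_of_subset (Finset.mem_filter.1 hR).2
      · intro R' hR'
        rw [hRR', mem_RRf] at hR'
        have hdis : Disjoint R' S := by
          rw [Finset.disjoint_left]
          intro i hi hiS
          exact (Finset.mem_sdiff.1 (hR'.1 hi)).2 hiS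
        rw [Finset.union_sdiff_cancel_right hdis]
      · intro R _; rfl
    -- pointwise Cauchy --Schwarz
    have hcs : ∀ z : (∀ i, ZMod (pr i)), (∀ i ∈ S, z i = x i) →
        (∑ R ∈ (RRf pr Ps Q d).filter (fun R => S ⊆ R), Ph pr F y J R z) ^ 2 ≤
        2 ^ S.card * ∑ T ∈ S.powerset, (∑ R' ∈ RR', Ph pr (FT pr F T x) y J R' z) ^ 2 := by
      intro z hz
      rw [hre z hz]
      have h1 := Finset.sum_mul_sq_le_sq_mul_sq S.powerset (fun T => (-1 : ℝ) ^ (S \ T).card)
        (fun T => ∑ R' ∈ RR', Ph pr (FT pr F T x) y J R' z)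
      have h2 : ∑ T ∈ S.powerset, ((-1 : ℝ) ^ (S \ T).card) ^ 2 = 2 ^ S.card := by
        have : ∀ T ∈ S.powerset, ((-1 : ℝ) ^ (S \ T).card) ^ 2 = 1 := by
          intro T _
          rw [← pow_mul, mul_comm, pow_mul]; simp
        rw [Finset.sum_congr rfl this, Finset.sum_const, Finset.card_powerset, nsmul_eq_mul]
        push_cast; ring
      rw [h2] at h1
      exact h1
    have hT : ∀ T ∈ S.powerset, av Sᶜ (fun z => (∑ R' ∈ RR', Ph pr (FT pr F T x) y J R' z) ^ 2) x ≤
        A ^ 2 * (200 * (m : ℝ)) ^ (d - S.card) := by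
      intro T hT
      obtain ⟨c', hc'⟩ := h.restrict pr hpr hinj hSP hSQ (Finset.mem_powerset.1 hT) x
      have hsub : ∀ R ∈ RR', R ⊆ Sᶜ := by
        intro R hR
        rw [hRR', mem_RRf] at hR
        intro i hi
        rw [Finset.mem_compl]
        exact (Finset.mem_sdiff.1 (hR.1 hi)).2
      rw [av_parseval Sᶜ (fun R => Ph pr (FT pr F T x) y J R)
        (fun R z z' hz => Ph_dep pr _ y J R z z' hz)
        (fun R i hi z => Ph_zero pr _ y J R i hi z) RR' hsub x]
      rw [Finset.sum_congr rfl fun R hR => av_eq_En pr (FT pr F T x) y J R Sᶜ (hsub R hR) x, hRR']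
      exact ih (d - S.card) (by omega) _ _ _ _ _ hc'
    calc av Sᶜ (fun z => (∑ R ∈ (RRf pr Ps Q d).filter (fun R => S ⊆ R), Ph pr F y J R z) ^ 2) x
        ≤ av Sᶜ (fun z => 2 ^ S.card * ∑ T ∈ S.powerset,
            (∑ R' ∈ RR', Ph pr (FT pr F T x) y J R' z) ^ 2) x := by
          unfold av
          apply div_le_div_of_nonneg_right _ (Nat.cast_nonneg _)
          apply Finset.sum_le_sum
          intro u _
          apply hcs
          intro i hi
          rw [Finset.piecewise_eq_of_notMem]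
          rw [Finset.mem_compl]
          exact fun h' => h' hi
      _ = 2 ^ S.card * ∑ T ∈ S.powerset,
            av Sᶜ (fun z => (∑ R' ∈ RR', Ph pr (FT pr F T x) y J R' z) ^ 2) x := by
          rw [HyperAux.av_mul, av_sum]
      _ ≤ 2 ^ S.card * ∑ _T ∈ S.powerset, A ^ 2 * (200 * (m : ℝ)) ^ (d - S.card) :=
          mul_le_mul_of_nonneg_left (Finset.sum_le_sum hT) (by positivity)
      _ = 4 ^ S.card * (A ^ 2 * (200 * (m : ℝ)) ^ (d - S.card)) := by
          rw [Finset.sum_const, Finset.card_powerset, nsmul_eq_mul]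
          push_cast
          rw [← mul_assoc, ← mul_pow]
          norm_num
  · have hempty : (RRf pr Ps Q d).filter (fun R => S ⊆ R) = ∅ := by
      apply Finset.filter_eq_empty_iff.2
      intro R hR hSR
      obtain ⟨h1, h2, h3⟩ := (mem_RRf pr).1 hR
      exact hS ⟨hSR.trans h1, (PR_le_of_subset pr hSR).trans h3⟩
    rw [hempty]
    simp only [Finset.sum_empty]
    rw [HyperAux.av_const]
    simpa using hnn

/-- the level inequality for indexed families of primes -/
lemma level_ind (hpr : ∀ i, (pr i).Prime) (hinj : Function.Injective pr) {m : ℕ} (hm : 2 ≤ m)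
    {A : ℝ} (hA0 : Real.exp (-(m : ℝ)) ≤ A) (y : ℤ) (J : ℕ) (d : ℕ) :
    ∀ (Ps : Finset ι) (Q W : ℕ) (c : ℤ) (F : ℤ → ℝ), Hyp pr m A y J Ps Q W c F →
      ∑ R ∈ RRf pr Ps Q d, En pr F y J R ≤ A ^ 2 * (200 * (m : ℝ)) ^ d := by
  classical
  induction d using Nat.strong_induction_on with
  | _ d ih =>
  intro Ps Q W c F h
  have hA : 0 < A := (Real.exp_pos _).trans_le hA0
  have hWR : (0 : ℝ) < W := by have := h.hW; exact_mod_cast this
  have hQR : (1 : ℝ) ≤ Q := by exact_mod_cast h.hQ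
  have hJR : (0 : ℝ) < J := by
    refine lt_of_lt_of_le ?_ h.hJ
    positivity
  have hJ0 : 0 < J := by exact_mod_cast hJR
  -- E F ≤ A
  have hEF : (∑ x ∈ Finset.Ioc y (y + (J : ℤ)), F x) / J ≤ A := by
    have := h.hreg ∅ (Finset.empty_subset _) (by simpa [PR] using h.hQ) (fun _ => 0)
    simpa using this
  have hEF0 : 0 ≤ (∑ x ∈ Finset.Ioc y (y + (J : ℤ)), F x) / J :=
    div_nonneg (Finset.sum_nonneg fun x _ => h.hF0 x) hJR.le
  rcases Nat.eq_zero_or_pos d with hd0 | hd
  · -- d = 0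
    subst hd0
    have hsub : RRf pr Ps Q 0 ⊆ {∅} := by
      intro R hR
      rw [Finset.mem_singleton]
      exact Finset.card_eq_zero.1 ((mem_RRf pr).1 hR).2.1
    calc ∑ R ∈ RRf pr Ps Q 0, En pr F y J R ≤ ∑ R ∈ {∅}, En pr F y J R :=
          Finset.sum_le_sum_of_subset_of_nonneg hsub fun R _ _ => En_nonneg pr F y J R
      _ = ((∑ x ∈ Finset.Ioc y (y + (J : ℤ)), F x) / J) ^ 2 := by
          rw [Finset.sum_singleton]
          unfold En Ph kk
          simp only [Finset.prod_empty, mul_one]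
          rw [HyperAux.av_const]
      _ ≤ A ^ 2 := pow_le_pow_left₀ hEF0 hEF 2
      _ = A ^ 2 * (200 * (m : ℝ)) ^ 0 := by rw [pow_zero, mul_one]
  · obtain ⟨RR, hRR⟩ : ∃ RR, RR = RRf pr Ps Q d := ⟨_, rfl⟩
    rw [← hRR]
    obtain ⟨V, hV⟩ : ∃ V, V = ∑ R ∈ RR, En pr F y J R := ⟨_, rfl⟩
    rw [← hV]
    have hV0 : 0 ≤ V := by rw [hV]; exact Finset.sum_nonneg fun R _ => En_nonneg pr F y J R
    obtain ⟨G, hG⟩ : ∃ G : (∀ i, ZMod (pr i)) → ℝ, G = fun z => ∑ R ∈ RR, Ph pr F y J R z :=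
      ⟨_, rfl⟩
    have hGx : ∀ z, G z = ∑ R ∈ RR, Ph pr F y J R z := fun z => by rw [hG]
    have hprop : ∀ R ∈ RR, R ⊆ Ps ∧ R.card = d ∧ PR pr R ≤ Q := by
      intro R hR; rw [hRR] at hR; exact (mem_RRf pr).1 hR
    -- sup bound
    have hPh : ∀ R ∈ RR, ∀ z, |Ph pr F y J R z| ≤ Q * A := by
      intro R hR z
      obtain ⟨h1, h2, h3⟩ := hprop R hR
      refine (Ph_bound pr F y J h.hF0 (A := A) R (fun T hT z => h.hreg T (hT.trans h1)
        ((PR_le_of_subset pr hT).trans h3) z) z).trans ?_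
      apply mul_le_mul_of_nonneg_right _ hA.le
      have h4 := (two_pow_le_PR pr hpr R).trans h3
      exact_mod_cast h4
    -- (B2)
    have hB2 : V ^ (2 * m) ≤ A ^ (2 * m - 1) *
        ((∑ x ∈ Finset.Ioc y (y + (J : ℤ)), F x * (G (proj pr x)) ^ (2 * m)) / J) := by
      have e1 : V = ∑ x ∈ Finset.Ioc y (y + (J : ℤ)), (F x / J) * G (proj pr x) := by
        rw [hV]
        simp only [En_eq, hG]
        rw [← Finset.sum_div, Finset.sum_comm, Finset.sum_div]
        refine Finset.sum_congr rfl fun x _ => ?_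
        rw [← Finset.mul_sum]; ring
      have h1 := jensen (Finset.Ioc y (y + (J : ℤ))) (fun x => F x / J) (fun x => G (proj pr x))
        (fun x _ => div_nonneg (h.hF0 x) hJR.le) (by omega : 1 ≤ m)
      rw [← e1] at h1
      refine h1.trans ?_
      have e2 : ∑ x ∈ Finset.Ioc y (y + (J : ℤ)), (F x / J) =
          (∑ x ∈ Finset.Ioc y (y + (J : ℤ)), F x) / J := by rw [Finset.sum_div]
      have e3 : ∑ x ∈ Finset.Ioc y (y + (J : ℤ)), (F x / J) * G (proj pr x) ^ (2 * m) =
          (∑ x ∈ Finset.Ioc y (y + (J : ℤ)), F x * (G (proj pr x)) ^ (2 * m)) / J := by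
        rw [Finset.sum_div]; exact Finset.sum_congr rfl fun x _ => by ring
      rw [e2, e3]
      apply mul_le_mul_of_nonneg_right (pow_le_pow_left₀ hEF0 hEF _)
      apply div_nonneg _ hJR.le
      refine Finset.sum_nonneg fun x _ => mul_nonneg (h.hF0 x) ?_
      rw [pow_mul]; positivity
    -- (B3)
    obtain ⟨err, herr⟩ : ∃ err : ℝ, err = (Q : ℝ) ^ (2 * m) * (W * (Q : ℝ) ^ (2 * m) *
      (Q : ℝ) ^ (2 * m) / J) := ⟨_, rfl⟩
    have hB3 : (∑ x ∈ Finset.Ioc y (y + (J : ℤ)), F x * (G (proj pr x)) ^ (2 * m)) / J ≤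
        av univ (fun z => G z ^ (2 * m)) (fun _ => (0 : ZMod _)) + err * A ^ (2 * m) := by
      have h1 := moment pr hpr hinj y c (2 * m) hJ0 h.hW RR
        (by rw [hRR]; exact card_RRf pr hpr hinj Ps Q d) (fun R hR => (hprop R hR).2.2)
        (fun R hR i hi => h.hcop i ((hprop R hR).1 hi)) (fun R => Ph pr F y J R)
        (fun R z z' hz => Ph_dep pr F y J R z z' hz) hPh (by positivity)
        (fun _ => (0 : ZMod _))
      have h2 : (∑ x ∈ Finset.Ioc y (y + (J : ℤ)), F x * (G (proj pr x)) ^ (2 * m)) / J ≤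
          (∑ x ∈ Finset.Ioc y (y + (J : ℤ)), (if x ≡ c [ZMOD (W : ℤ)] then (W : ℝ) else 0) *
            (∑ R ∈ RR, Ph pr F y J R (proj pr x)) ^ (2 * m)) / J := by
        apply div_le_div_of_nonneg_right _ hJR.le
        apply Finset.sum_le_sum
        intro x hx
        rw [hG]
        apply mul_le_mul_of_nonneg_right (h.hF1 x hx)
        rw [pow_mul]; positivity
      refine h2.trans (h1.trans (le_of_eq ?_))
      rw [hG, herr]
      congr 1
      rw [mul_pow]
      ring
    have herr1 : err ≤ Real.exp (-(m : ℝ)) / 8 := by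
      rw [herr]
      have h1 : (Q : ℝ) ^ (2 * m) * (W * (Q : ℝ) ^ (2 * m) * (Q : ℝ) ^ (2 * m) / J) =
          (W * (Q : ℝ) ^ (6 * m)) / J := by
        rw [mul_div_assoc']
        congr 1
        ring
      rw [h1, div_le_iff₀ hJR]
      have h2 : (Q : ℝ) ^ (6 * m) ≤ (Q : ℝ) ^ (10 * m + 10) :=
        pow_le_pow_right₀ hQR (by omega)
      have h3 : Real.exp (-(m : ℝ)) / 8 * (8 * W * (Q : ℝ) ^ (10 * m + 10) *
          Real.exp (10 * (m : ℝ) + 10)) ≤ Real.exp (-(m : ℝ)) / 8 * J :=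
        mul_le_mul_of_nonneg_left h.hJ (by positivity)
      refine le_trans ?_ h3
      have h4 : Real.exp (-(m : ℝ)) / 8 * (8 * W * (Q : ℝ) ^ (10 * m + 10) *
          Real.exp (10 * (m : ℝ) + 10)) = W * (Q : ℝ) ^ (10 * m + 10) *
          (Real.exp (-(m : ℝ)) * Real.exp (10 * (m : ℝ) + 10)) := by ring
      rw [h4, ← Real.exp_add]
      have h5 : (1 : ℝ) ≤ Real.exp (-(m : ℝ) + (10 * (m : ℝ) + 10)) := by
        apply Real.one_le_exp
        have : (0 : ℝ) ≤ m := by positivity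
        linarith
      calc (W : ℝ) * (Q : ℝ) ^ (6 * m) ≤ W * (Q : ℝ) ^ (10 * m + 10) :=
            mul_le_mul_of_nonneg_left h2 hWR.le
        _ ≤ _ := le_mul_of_one_le_right (by positivity) h5
    -- (B4)
    have hB4 : (1 / (14 * (m : ℝ))) ^ (m * d) *
        av univ (fun z => G z ^ (2 * m)) (fun _ => (0 : ZMod _)) ≤
        V ^ m + V * (A ^ (2 * (m - 1)) * ((200 * (m : ℝ)) ^ d) ^ (m - 1) *
        ((1 + (2 * (m : ℝ)) ^ m * 4 ^ (m - 1) / (200 * (m : ℝ)) ^ (m - 1)) ^ d - 1)) := by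
      obtain ⟨φ, hφ⟩ : ∃ φ : Finset ι → (∀ i, ZMod (pr i)) → ℝ,
        φ = fun R z => if R ∈ RR then Ph pr F y J R z else 0 := ⟨_, rfl⟩
      have hdep : ∀ R z z', (∀ i ∈ R, z i = z' i) → φ R z = φ R z' := by
        intro R z z' hz
        rw [hφ]
        simp only
        split_ifs
        · exact Ph_dep pr F y J R z z' hz
        · rfl
      have hzero : ∀ R, ∀ i ∈ R, ∀ z, ∑ t : ZMod (pr i), φ R (Function.update z i t) = 0 := by
        intro R i hi z
        rw [hφ]
        simp only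
        split_ifs
        · exact Ph_zero pr F y J R i hi z
        · simp
      have h1 := hyper_homog m d (by omega) φ hdep hzero (fun _ => (0 : ZMod _))
      have e1 : ∀ z, ∑ R ∈ (univ : Finset (Finset ι)).filter (fun R => R.card = d), φ R z =
          G z := by
        intro z
        rw [hGx, hφ]
        simp only
        rw [← Finset.sum_filter]
        apply Finset.sum_congr _ fun _ _ => rfl
        ext R
        simp only [Finset.mem_filter, Finset.mem_univ, true_and]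
        constructor
        · exact fun h => h.2
        · exact fun hR => ⟨(hprop R hR).2.1, hR⟩
      have e2 : ∀ (S : Finset ι) z, ∑ R ∈ (univ : Finset (Finset ι)).filter
          (fun R => R.card = d ∧ S ⊆ R), φ R z =
          ∑ R ∈ RR.filter (fun R => S ⊆ R), Ph pr F y J R z := by
        intro S z
        rw [hφ]
        simp only
        rw [← Finset.sum_filter]
        apply Finset.sum_congr _ fun _ _ => rfl
        ext R
        simp only [Finset.mem_filter, Finset.mem_univ, true_and]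
        constructor
        · rintro ⟨⟨_, h2⟩, h3⟩; exact ⟨h3, h2⟩
        · rintro ⟨h2, h3⟩; exact ⟨⟨(hprop R h2).2.1, h3⟩, h2⟩
      simp only [e1, e2] at h1
      refine h1.trans ?_
      clear h1 e1 e2 hdep hzero hφ
      -- the term of `S`
      obtain ⟨c0, hc0⟩ : ∃ c0 : ℝ, c0 = A ^ (2 * (m - 1)) * ((200 * (m : ℝ)) ^ d) ^ (m - 1) :=
        ⟨_, rfl⟩
      obtain ⟨q, hq⟩ : ∃ q : ℝ, q = (2 * (m : ℝ)) ^ m * 4 ^ (m - 1) / (200 * (m : ℝ)) ^ (m - 1) :=
        ⟨_, rfl⟩
      have hmR : (0 : ℝ) < m := by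
        have : 0 < m := by omega
        exact_mod_cast this
      have hterm : ∀ S : Finset ι, S.Nonempty → S.card ≤ d →
          (2 * (m : ℝ)) ^ (m * S.card) * av univ (fun x => (av Sᶜ (fun z =>
            (∑ R ∈ RR.filter (fun R => S ⊆ R), Ph pr F y J R z) ^ 2) x) ^ m)
            (fun _ => (0 : ZMod _)) ≤
          c0 * (q ^ S.card * ∑ R ∈ RR.filter (fun R => S ⊆ R), En pr F y J R) := by
        intro S hS hSd
        obtain ⟨hh, hhh⟩ : ∃ hh : (∀ i, ZMod (pr i)) → ℝ, hh = av Sᶜ (fun z =>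
            (∑ R ∈ RR.filter (fun R => S ⊆ R), Ph pr F y J R z) ^ 2) := ⟨_, rfl⟩
        obtain ⟨M, hM⟩ : ∃ M : ℝ, M = 4 ^ S.card * (A ^ 2 * (200 * (m : ℝ)) ^ (d - S.card)) :=
          ⟨_, rfl⟩
        have hh0 : ∀ x, 0 ≤ hh x := fun x => by
          rw [hhh]; exact HyperAux.av_nonneg _ (fun _ => sq_nonneg _) _
        have hhM : ∀ x, hh x ≤ M := fun x => by
          rw [hhh, hM, hRR]; exact sup_bound pr hpr hinj h ih S hS hSd x
        have hM0 : 0 ≤ M := (hh0 (fun _ => 0)).trans (hhM _)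
        have h2 : av univ hh (fun _ => (0 : ZMod _)) =
            ∑ R ∈ RR.filter (fun R => S ⊆ R), En pr F y J R := by
          rw [hhh, HyperAux.av_av, Finset.union_eq_left.2 (Finset.subset_univ _)]
          rw [av_parseval univ (fun R => Ph pr F y J R)
            (fun R z z' hz => Ph_dep pr _ y J R z z' hz)
            (fun R i hi z => Ph_zero pr _ y J R i hi z) _ (fun R _ => Finset.subset_univ R)]
          exact Finset.sum_congr rfl fun R _ =>
            av_eq_En pr F y J R univ (Finset.subset_univ R) _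
        have h3 : av univ (fun x => hh x ^ m) (fun _ => (0 : ZMod _)) ≤
            M ^ (m - 1) * ∑ R ∈ RR.filter (fun R => S ⊆ R), En pr F y J R := by
          rw [← h2, ← HyperAux.av_mul]
          apply HyperAux.av_mono
          intro x
          have e : hh x ^ m = hh x ^ (m - 1) * hh x := by
            rw [← pow_succ]; congr 1; omega
          rw [e]
          exact mul_le_mul_of_nonneg_right (pow_le_pow_left₀ (hh0 x) (hhM x) _) (hh0 x)
        rw [← hhh]
        have h4 := mul_le_mul_of_nonneg_left h3 (by positivity : (0:ℝ) ≤ (2 * (m : ℝ)) ^ (m * S.card))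
        refine h4.trans (le_of_eq ?_)
        rw [← mul_assoc, ← mul_assoc]
        congr 1
        rw [hM, hc0, hq]
        have e1 : (200 * (m : ℝ)) ^ d = (200 * (m : ℝ)) ^ (d - S.card) * (200 * (m : ℝ)) ^ S.card := by
          rw [← pow_add]; congr 1; omega
        rw [e1]
        exact pow_id m (m - 1) S.card A _ _ _ (by positivity)
      -- sum over `S`
      have hempty : (2 * (m : ℝ)) ^ (m * (∅ : Finset ι).card) * av univ (fun x =>
          (av (∅ : Finset ι)ᶜ (fun z =>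
            (∑ R ∈ RR.filter (fun R => ∅ ⊆ R), Ph pr F y J R z) ^ 2) x) ^ m)
            (fun _ => (0 : ZMod _)) = V ^ m := by
        have e1 : RR.filter (fun R => ∅ ⊆ R) = RR := by
          apply Finset.filter_true_of_mem; intro R _; exact Finset.empty_subset R
        rw [e1, Finset.compl_empty]
        have e2 : av univ (fun z => (∑ R ∈ RR, Ph pr F y J R z) ^ 2) =
            fun _ : (∀ i, ZMod (pr i)) => V := by
          ext x
          rw [av_parseval univ (fun R => Ph pr F y J R)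
            (fun R z z' hz => Ph_dep pr _ y J R z z' hz)
            (fun R i hi z => Ph_zero pr _ y J R i hi z) _ (fun R _ => Finset.subset_univ R), hV]
          exact Finset.sum_congr rfl fun R _ =>
            av_eq_En pr F y J R univ (Finset.subset_univ R) _
        rw [e2, HyperAux.av_const]
        simp
      obtain ⟨D, hD⟩ : ∃ D : Finset (Finset ι),
        D = (univ : Finset (Finset ι)).filter (fun S => S.card ≤ d) := ⟨_, rfl⟩
      have hmemD : (∅ : Finset ι) ∈ D := by rw [hD]; simp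
      rw [← hD, ← Finset.add_sum_erase D _ hmemD, hempty]
      have h5 : ∑ S ∈ D.erase ∅, (2 * (m : ℝ)) ^ (m * S.card) * av univ (fun x =>
          (av Sᶜ (fun z => (∑ R ∈ RR.filter (fun R => S ⊆ R), Ph pr F y J R z) ^ 2) x) ^ m)
            (fun _ => (0 : ZMod _)) ≤
          c0 * ∑ S ∈ D.erase ∅, (q ^ S.card * ∑ R ∈ RR.filter (fun R => S ⊆ R), En pr F y J R) := by
        rw [Finset.mul_sum]
        apply Finset.sum_le_sum
        intro S hS
        obtain ⟨h6, h7⟩ := Finset.mem_erase.1 hS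
        rw [hD, Finset.mem_filter] at h7
        exact hterm S (Finset.nonempty_iff_ne_empty.2 h6) h7.2
      have h6 : ∑ S ∈ D.erase ∅, (q ^ S.card * ∑ R ∈ RR.filter (fun R => S ⊆ R), En pr F y J R) =
          V * ((1 + q) ^ d - 1) := by
        have e1 : ∀ S ∈ D.erase ∅, (q ^ S.card * ∑ R ∈ RR.filter (fun R => S ⊆ R), En pr F y J R) =
            ∑ R ∈ RR, if S ⊆ R then q ^ S.card * En pr F y J R else 0 := by
          intro S _
          rw [Finset.mul_sum, Finset.sum_filter]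
        rw [Finset.sum_congr rfl e1, Finset.sum_comm, hV, Finset.sum_mul]
        refine Finset.sum_congr rfl fun R hR => ?_
        rw [← Finset.sum_filter]
        have e2 : (D.erase ∅).filter (fun S => S ⊆ R) = R.powerset.erase ∅ := by
          ext S
          simp only [Finset.mem_filter, Finset.mem_erase, Finset.mem_powerset, hD,
            Finset.mem_univ, true_and]
          constructor
          · rintro ⟨⟨h1, _⟩, h3⟩; exact ⟨h1, h3⟩
          · rintro ⟨h1, h3⟩
            refine ⟨⟨h1, ?_⟩, h3⟩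
            have := Finset.card_le_card h3
            rw [(hprop R hR).2.1] at this
            exact this
        rw [e2, ← Finset.sum_mul, mul_comm]
        congr 1
        have e3 := Finset.add_sum_erase R.powerset (fun S => q ^ S.card)
          (Finset.empty_mem_powerset R)
        have e4 := Finset.sum_pow_mul_eq_add_pow q 1 R
        simp only [one_pow, mul_one] at e4
        rw [e4, (hprop R hR).2.1] at e3
        simp only [Finset.card_empty, pow_zero] at e3
        rw [add_comm q 1] at e3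
        linarith
      rw [h6] at h5
      have e5 : c0 * (V * ((1 + q) ^ d - 1)) = V * (c0 * ((1 + q) ^ d - 1)) := by ring
      rw [e5] at h5
      rw [← hq, ← hc0]
      linarith
    refine endgame hm hd hA0 herr1 hV0 (G := av univ (fun z => G z ^ (2 * m))
      (fun _ => (0 : ZMod _))) ?_ hB4
    refine hB2.trans (mul_le_mul_of_nonneg_left hB3 (by positivity))

end main

end LevelAux

open LevelAux in
theorem level_lemma (m : ℕ) (hm : 2 ≤ m) (Ps : Finset ℕ) (hP : ∀ p ∈ Ps, p.Prime)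
    (Q W : ℕ) (hQ : 1 ≤ Q) (hW : 1 ≤ W) (hcop : ∀ p ∈ Ps, Nat.Coprime p W) (J : ℕ) (y c : ℤ)
    (F : ℤ → ℝ) (hF0 : ∀ x, 0 ≤ F x)
    (hF1 : ∀ x ∈ Finset.Ioc y (y + J), F x ≤ if x ≡ c [ZMOD (W : ℤ)] then (W : ℝ) else 0)
    (A : ℝ) (hA0 : Real.exp (-(m : ℝ)) ≤ A) (hA1 : A ≤ 2)
    (hreg : ∀ R ⊆ Ps, ∏ p ∈ R, p ≤ Q → ∀ r : ℤ,
      ((∏ p ∈ R, p : ℕ) : ℝ) * (∑ x ∈ (Finset.Ioc y (y + J)).filter
        (fun x => x ≡ r [ZMOD ((∏ p ∈ R, p : ℕ) : ℤ)]), F x) / J ≤ A)
    (hJ : (8 : ℝ) * W * (Q : ℝ) ^ (10 * m + 10) * Real.exp (10 * (m : ℝ) + 10) ≤ J)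
    (d : ℕ) (hd : 1 ≤ d) :
    ∑ R ∈ Ps.powerset.filter (fun R => R.card = d ∧ ∏ p ∈ R, p ≤ Q), energy F y J R
      ≤ A ^ 2 * (200 * (m : ℝ)) ^ d := by
  obtain ⟨pr, hprd⟩ : ∃ pr : {p // p ∈ Ps} → ℕ, pr = Subtype.val := ⟨_, rfl⟩
  have hpr : ∀ i, (pr i).Prime := fun i => by rw [hprd]; exact hP i.1 i.2
  have hinj : Function.Injective pr := by rw [hprd]; exact Subtype.val_injective
  have : ∀ i, NeZero (pr i) := fun i => ⟨(hpr i).ne_zero⟩
  have hmap : ∀ R : Finset {p // p ∈ Ps}, ∏ p ∈ R.map ⟨pr, hinj⟩, p = PR pr R := by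
    intro R
    rw [Finset.prod_map]; rfl
  have hsub : ∀ R : Finset {p // p ∈ Ps}, R.map ⟨pr, hinj⟩ ⊆ Ps := by
    intro R p hp
    obtain ⟨i, _, rfl⟩ := Finset.mem_map.1 hp
    show pr i ∈ Ps
    rw [hprd]; exact i.2
  have hyp : Hyp pr m A y J univ Q W c F := by
    refine ⟨hQ, hW, fun i _ => ?_, hF0, hF1, ?_, hJ⟩
    · rw [hprd]; exact hcop i.1 i.2
    · intro R _ hRQ z
      obtain ⟨r, hr⟩ := crt_set pr hpr hinj 1 0 z R (fun i _ => Nat.coprime_one_right _)
      have h1 := hreg (R.map ⟨pr, hinj⟩) (hsub R) (by rw [hmap]; exact hRQ) r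
      rw [hmap] at h1
      refine le_trans (le_of_eq ?_) h1
      congr 1
      rw [Finset.mul_sum, Finset.sum_filter]
      refine Finset.sum_congr rfl fun x _ => ?_
      have h2 := hr x
      rw [one_mul] at h2
      by_cases h3 : ∀ i ∈ R, (x : ZMod (pr i)) = z i
      · rw [if_pos (h2.1 ⟨by simp [Int.modEq_one], h3⟩)]
        have h4 : ∏ i ∈ R, ind pr x z i = ((PR pr R : ℕ) : ℝ) := by
          unfold PR ind
          push_cast
          exact Finset.prod_congr rfl fun i hi => by rw [if_pos (h3 i hi)]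
        rw [h4, mul_comm]
      · rw [if_neg (fun h4 => h3 (h2.2 h4).2)]
        push Not at h3
        obtain ⟨i, hi, hne⟩ := h3
        have h4 : ∏ i ∈ R, ind pr x z i = 0 := by
          apply Finset.prod_eq_zero hi
          unfold ind
          rw [if_neg hne]
        rw [h4, mul_zero]
  have h1 := level_ind pr hpr hinj hm hA0 y J d univ Q W c F hyp
  refine le_trans (le_of_eq ?_) h1
  symm
  refine Finset.sum_nbij' (fun R => R.map ⟨pr, hinj⟩)
    (fun R => R.subtype (fun p => p ∈ Ps)) ?_ ?_ ?_ ?_ ?_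
  · intro R hR
    obtain ⟨_, h2, h3⟩ := (mem_RRf pr).1 hR
    rw [Finset.mem_filter, Finset.mem_powerset, Finset.card_map, hmap]
    exact ⟨hsub R, h2, h3⟩
  · intro R hR
    rw [Finset.mem_filter, Finset.mem_powerset] at hR
    obtain ⟨h2, h3, h4⟩ := hR
    have e : (R.subtype (fun p => p ∈ Ps)).map ⟨pr, hinj⟩ = R := by
      ext p
      simp only [Finset.mem_map, Finset.mem_subtype, Function.Embedding.coeFn_mk, hprd]
      constructor
      · rintro ⟨i, hi, rfl⟩; exact hi
      · intro hp; exact ⟨⟨p, h2 hp⟩, hp, rfl⟩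
    rw [mem_RRf]
    refine ⟨Finset.subset_univ _, ?_, ?_⟩
    · rw [← h3, ← Finset.card_map ⟨pr, hinj⟩, e]
    · rw [← hmap, e]; exact h4
  · intro R _
    ext i
    simp only [Finset.mem_subtype, Finset.mem_map, Function.Embedding.coeFn_mk, hprd]
    constructor
    · rintro ⟨j, hj, hji⟩
      rwa [Subtype.val_injective hji] at hj
    · intro hi; exact ⟨i, hi, rfl⟩
  · intro R hR
    rw [Finset.mem_filter, Finset.mem_powerset] at hR
    ext p
    simp only [Finset.mem_map, Finset.mem_subtype, Function.Embedding.coeFn_mk, hprd]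
    constructor
    · rintro ⟨i, hi, rfl⟩; exact hi
    · intro hp; exact ⟨⟨p, hR.1 hp⟩, hp, rfl⟩
  · intro R _
    exact En_eq_energy pr hpr hinj F y J R

end Vale.Agent.P042
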