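import Vale.Agent.P042.LevelSetup

/-!
# P042, module B: transfer of moments from an interval to the product space
-/

namespace Vale.Agent.P042

open Finset

namespace LevelAux

section moment
variable {ι : Type} [Fintype ι] [DecidableEq ι] (pr : ι → ℕ)

omit [Fintype ι] [DecidableEq ι] in
lemma PR_pos [∀ i, NeZero (pr i)] (R : Finset ι) : 0 < PR pr R :=
  Finset.prod_pos fun i _ => NeZero.pos (pr i)

omit [Fintype ι] in
lemma PR_union_le [∀ i, NeZero (pr i)] (R R' : Finset ι) :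
    PR pr (R ∪ R') ≤ PR pr R * PR pr R' := by
  have h1 : PR pr (R ∪ R') * PR pr (R ∩ R') = PR pr R * PR pr R' := Finset.prod_union_inter
  rw [← h1]
  exact Nat.le_mul_of_pos_right _ (PR_pos pr _)

omit [Fintype ι] in
lemma PR_biUnion_le [∀ i, NeZero (pr i)] {κ : Type*} [DecidableEq κ] (s : Finset κ)
    (t : κ → Finset ι) {Q : ℕ} (h : ∀ k ∈ s, PR pr (t k) ≤ Q) :
    PR pr (s.biUnion t) ≤ Q ^ s.card := by
  induction s using Finset.induction_on with
  | empty => simp [PR]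
  | insert k s hk ih =>
    rw [Finset.biUnion_insert, Finset.card_insert_of_notMem hk, pow_succ, mul_comm]
    refine (PR_union_le pr _ _).trans ?_
    exact Nat.mul_le_mul (h k (Finset.mem_insert_self k s))
      (ih fun k' hk' => h k' (Finset.mem_insert_of_mem hk'))

omit [Fintype ι] [DecidableEq ι] in
lemma PR_le_of_subset [∀ i, NeZero (pr i)] {R R' : Finset ι} (h : R ⊆ R') :
    PR pr R ≤ PR pr R' :=
  Finset.prod_le_prod_of_subset_of_one_le' h fun i _ _ => NeZero.pos (pr i)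

omit [Fintype ι] [DecidableEq ι] in
lemma two_pow_le_PR (hpr : ∀ i, (pr i).Prime) (R : Finset ι) : 2 ^ R.card ≤ PR pr R :=
  Finset.pow_card_le_prod R pr 2 fun i _ => (hpr i).two_le

omit [Fintype ι] [DecidableEq ι] in
lemma dvd_PR_iff (hpr : ∀ i, (pr i).Prime) (hinj : Function.Injective pr) (R : Finset ι) (i : ι) :
    pr i ∣ PR pr R ↔ i ∈ R := by
  constructor
  · intro h
    obtain ⟨j, hj, hij⟩ := (Prime.dvd_finsetProd_iff (hpr i).prime _).1 h
    have : i = j := hinj ((Nat.prime_dvd_prime_iff_eq (hpr i) (hpr j)).1 hij)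
    rw [this]; exact hj
  · intro h; exact Finset.dvd_prod_of_mem pr h

omit [Fintype ι] [DecidableEq ι] in
lemma PR_injective (hpr : ∀ i, (pr i).Prime) (hinj : Function.Injective pr) :
    Function.Injective (PR pr) := by
  intro R R' h
  ext i
  rw [← dvd_PR_iff pr hpr hinj R i, h, dvd_PR_iff pr hpr hinj R' i]

omit [Fintype ι] in
/-- Chinese remainder for a set of primes -/
lemma crt_set (hpr : ∀ i, (pr i).Prime) (hinj : Function.Injective pr) (W : ℕ) (c : ℤ)
    (z : ∀ i, ZMod (pr i)) (T : Finset ι) (hcop : ∀ i ∈ T, Nat.Coprime (pr i) W) :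
    ∃ c' : ℤ, ∀ u : ℤ, (u ≡ c [ZMOD (W : ℤ)] ∧ ∀ i ∈ T, (u : ZMod (pr i)) = z i) ↔
      u ≡ c' [ZMOD ((W * PR pr T : ℕ) : ℤ)] := by
  induction T using Finset.induction_on with
  | empty => exact ⟨c, fun u => by simp [PR]⟩
  | insert i T hi ih =>
    obtain ⟨c1, hc1⟩ := ih fun j hj => hcop j (Finset.mem_insert_of_mem hj)
    obtain ⟨v, hv⟩ := ZMod.intCast_surjective (z i)
    have hco : Nat.Coprime (W * PR pr T) (pr i) := by
      apply Nat.Coprime.mul_left (hcop i (Finset.mem_insert_self i T)).symm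
      apply Nat.Coprime.prod_left
      intro j hj
      rw [Nat.coprime_primes (hpr j) (hpr i)]
      intro h
      exact hi (hinj h ▸ hj)
    obtain ⟨w, hw⟩ := int_crt hco c1 v
    refine ⟨w, fun u => ?_⟩
    have e : W * PR pr (insert i T) = W * PR pr T * pr i := by
      unfold PR
      rw [Finset.prod_insert hi]; ring
    rw [e, ← hw u, ← hc1 u]
    constructor
    · rintro ⟨h1, h2⟩
      refine ⟨⟨h1, fun j hj => h2 j (Finset.mem_insert_of_mem hj)⟩, ?_⟩
      rw [← ZMod.intCast_eq_intCast_iff, hv]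
      exact h2 i (Finset.mem_insert_self i T)
    · rintro ⟨⟨h1, h2⟩, h3⟩
      refine ⟨h1, fun j hj => ?_⟩
      rcases Finset.mem_insert.1 hj with rfl | hj
      · rw [← hv]; exact (ZMod.intCast_eq_intCast_iff _ _ _).2 h3
      · exact h2 j hj

lemma sum_zmod {P : ℕ} [NeZero P] (g : ZMod P → ℝ) :
    ∑ u : ZMod P, g u = ∑ x ∈ Finset.range P, g (x : ZMod P) := by
  symm
  refine Finset.sum_nbij' (fun x => (x : ZMod P)) (fun u => u.val) ?_ ?_ ?_ ?_ ?_
  · intro x _; exact Finset.mem_univ _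
  · intro u _; exact Finset.mem_range.2 (ZMod.val_lt u)
  · intro x hx; exact ZMod.val_cast_of_lt (Finset.mem_range.1 hx)
  · intro u _; exact ZMod.natCast_zmod_val u
  · intro x _; rfl

variable [∀ i, NeZero (pr i)]

/-- averages over the product space as averages over a period -/
lemma av_univ_eq (hpr : ∀ i, (pr i).Prime) (hinj : Function.Injective pr)
    (ψ : (∀ i, ZMod (pr i)) → ℝ) (x0 : ∀ i, ZMod (pr i)) :
    av univ ψ x0 = (∑ x ∈ Finset.range (∏ i, pr i), ψ (proj pr x)) / ((∏ i, pr i : ℕ) : ℝ) := by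
  unfold av
  simp only [Finset.piecewise_univ]
  have hco : Pairwise (Function.onFun Nat.Coprime pr) := by
    intro i j hij
    show Nat.Coprime (pr i) (pr j)
    rw [Nat.coprime_primes (hpr i) (hpr j)]
    exact fun h => hij (hinj h)
  have : NeZero (∏ i, pr i) := ⟨Finset.prod_ne_zero_iff.2 fun i _ => NeZero.ne (pr i)⟩
  have h1 : ∑ z : (∀ i, ZMod (pr i)), ψ z =
      ∑ u : ZMod (∏ i, pr i), ψ (ZMod.prodEquivPi pr hco u) :=
    (Equiv.sum_comp (ZMod.prodEquivPi pr hco).toEquiv ψ).symm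
  rw [h1, sum_zmod]
  congr 1
  · refine Finset.sum_congr rfl fun x _ => ?_
    congr 1
    ext i
    rw [map_natCast]
    simp [proj]
  · rw [Fintype.card_pi]; simp [ZMod.card]

/-- the average of a function of the coordinates in `T` -/
lemma av_univ_dep (hpr : ∀ i, (pr i).Prime) (hinj : Function.Injective pr) (T : Finset ι)
    (ψ : (∀ i, ZMod (pr i)) → ℝ) (hψ : ∀ z z', (∀ i ∈ T, z i = z' i) → ψ z = ψ z')
    (x0 : ∀ i, ZMod (pr i)) :
    av univ ψ x0 = (∑ x ∈ Finset.range (PR pr T), ψ (proj pr x)) / ((PR pr T : ℕ) : ℝ) := by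
  rw [av_univ_eq pr hpr hinj]
  have e : ∏ i, pr i = PR pr T * PR pr Tᶜ := (Finset.prod_mul_prod_compl T pr).symm
  rw [e]
  refine avg_period (PR_pos pr T) (PR_pos pr Tᶜ) (fun x => ψ (proj pr x)) ?_
  intro x
  apply hψ
  intro i hi
  unfold proj
  push_cast
  have : ((PR pr T : ℕ) : ZMod (pr i)) = 0 := by
    rw [ZMod.natCast_eq_zero_iff]
    exact Finset.dvd_prod_of_mem pr hi
  rw [this, add_zero]

/-- transfer of moments -/
lemma moment (hpr : ∀ i, (pr i).Prime) (hinj : Function.Injective pr) (y c : ℤ) {J W Q : ℕ}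
    (n : ℕ) (hJ : 0 < J) (hW : 0 < W) (RR : Finset (Finset ι)) (hcard : RR.card ≤ Q)
    (hPR : ∀ R ∈ RR, PR pr R ≤ Q) (hcop : ∀ R ∈ RR, ∀ i ∈ R, Nat.Coprime (pr i) W)
    (φ : Finset ι → (∀ i, ZMod (pr i)) → ℝ)
    (hdep : ∀ R z z', (∀ i ∈ R, z i = z' i) → φ R z = φ R z') {B : ℝ}
    (hB : ∀ R ∈ RR, ∀ z, |φ R z| ≤ B) (hB0 : 0 ≤ B) (x0 : ∀ i, ZMod (pr i)) :
    (∑ x ∈ Finset.Ioc y (y + J), (if x ≡ c [ZMOD (W : ℤ)] then (W : ℝ) else 0) *
      (∑ R ∈ RR, φ R (proj pr x)) ^ n) / J ≤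
    av univ (fun z => (∑ R ∈ RR, φ R z) ^ n) x0 +
      (Q : ℝ) ^ n * (W * (Q : ℝ) ^ n * B ^ n / J) := by
  classical
  have hJR : (0 : ℝ) < J := by exact_mod_cast hJ
  have h1 : (∑ x ∈ Finset.Ioc y (y + (J : ℤ)), (if x ≡ c [ZMOD (W : ℤ)] then (W : ℝ) else 0) *
      (∑ R ∈ RR, φ R (proj pr x)) ^ n) / J =
      ∑ t ∈ Fintype.piFinset (fun _ : Fin n => RR), (∑ x ∈ Finset.Ioc y (y + (J : ℤ)),
        (if x ≡ c [ZMOD (W : ℤ)] then (W : ℝ) else 0) * ∏ j, φ (t j) (proj pr x)) / J := by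
    rw [← Finset.sum_div, Finset.sum_comm]
    congr 1
    refine Finset.sum_congr rfl fun x _ => ?_
    rw [Finset.sum_pow', Finset.mul_sum]
  have h2 : av univ (fun z => (∑ R ∈ RR, φ R z) ^ n) x0 =
      ∑ t ∈ Fintype.piFinset (fun _ : Fin n => RR), av univ (fun z => ∏ j, φ (t j) z) x0 := by
    rw [← av_sum]
    congr 1
    ext z
    rw [Finset.sum_pow']
  have h3 : ∀ t ∈ Fintype.piFinset (fun _ : Fin n => RR), (∑ x ∈ Finset.Ioc y (y + (J : ℤ)),
        (if x ≡ c [ZMOD (W : ℤ)] then (W : ℝ) else 0) * ∏ j, φ (t j) (proj pr x)) / J ≤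
      av univ (fun z => ∏ j, φ (t j) z) x0 + W * (Q : ℝ) ^ n * B ^ n / J := by
    intro t ht
    have ht' : ∀ j, t j ∈ RR := fun j => Fintype.mem_piFinset.1 ht j
    obtain ⟨T, hT⟩ : ∃ T : Finset ι, T = (univ : Finset (Fin n)).biUnion t := ⟨_, rfl⟩
    have hsub : ∀ j, t j ⊆ T := fun j => by
      rw [hT]; exact Finset.subset_biUnion_of_mem t (Finset.mem_univ j)
    have hTQ : PR pr T ≤ Q ^ n := by
      have := PR_biUnion_le pr (univ : Finset (Fin n)) t (fun j _ => hPR _ (ht' j))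
      rw [← hT] at this
      simpa using this
    have hTW : Nat.Coprime W (PR pr T) := by
      apply Nat.Coprime.prod_right
      intro i hi
      rw [hT, Finset.mem_biUnion] at hi
      obtain ⟨j, _, hj⟩ := hi
      exact (hcop (t j) (ht' j) i hj).symm
    have hψ : ∀ z z' : (∀ i, ZMod (pr i)), (∀ i ∈ T, z i = z' i) →
        ∏ j, φ (t j) z = ∏ j, φ (t j) z' := by
      intro z z' h
      refine Finset.prod_congr rfl fun j _ => ?_
      exact hdep _ _ _ fun i hi => h i (hsub j hi)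
    have h4 := periodic y c hJ hW (PR_pos pr T) hTW (fun x => ∏ j, φ (t j) (proj pr x)) (by
      intro x v hxv
      apply hψ
      intro i hi
      unfold proj
      rw [ZMod.intCast_eq_intCast_iff]
      have h5 : ((pr i : ℕ) : ℤ) ∣ ((PR pr T : ℕ) : ℤ) :=
        Int.natCast_dvd_natCast.2 (Finset.dvd_prod_of_mem pr hi)
      exact hxv.of_dvd h5) (B := B ^ n) (by
      intro x
      rw [Finset.abs_prod]
      calc ∏ j, |φ (t j) (proj pr x)| ≤ ∏ _j : Fin n, B :=
            Finset.prod_le_prod (fun j _ => abs_nonneg _) fun j _ => hB _ (ht' j) _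
        _ = B ^ n := by simp)
    rw [av_univ_dep pr hpr hinj T _ hψ]
    refine h4.trans ?_
    have h5 : (W : ℝ) * (PR pr T : ℕ) * B ^ n / J ≤ W * (Q : ℝ) ^ n * B ^ n / J := by
      apply div_le_div_of_nonneg_right _ hJR.le
      apply mul_le_mul_of_nonneg_right _ (by positivity)
      apply mul_le_mul_of_nonneg_left _ (by positivity)
      exact_mod_cast hTQ
    have e : ∑ v ∈ Finset.range (PR pr T), ∏ j, φ (t j) (proj pr (v : ℤ)) =
      ∑ x ∈ Finset.range (PR pr T), ∏ j, φ (t j) (proj pr x) := rfl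
    linarith
  rw [h1, h2]
  refine (Finset.sum_le_sum h3).trans ?_
  rw [Finset.sum_add_distrib, Finset.sum_const, nsmul_eq_mul]
  have h4 : (((Fintype.piFinset (fun _ : Fin n => RR)).card : ℕ) : ℝ) ≤ (Q : ℝ) ^ n := by
    rw [Fintype.card_piFinset_const]
    push_cast
    apply pow_le_pow_left₀ (by positivity)
    exact_mod_cast hcard
  have h5 : 0 ≤ (W : ℝ) * (Q : ℝ) ^ n * B ^ n / J := by positivity
  have := mul_le_mul_of_nonneg_right h4 h5
  linarith

omit [∀ i, NeZero (pr i)] [Fintype ι] in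
/-- sup bound of the components -/
lemma Ph_bound (F : ℤ → ℝ) (y : ℤ) (J : ℕ) (hF0 : ∀ x, 0 ≤ F x) {A : ℝ} (R : Finset ι)
    (hreg : ∀ T ⊆ R, ∀ z : (∀ i, ZMod (pr i)),
      (∑ x ∈ Finset.Ioc y (y + J), F x * ∏ i ∈ T, ind pr x z i) / J ≤ A)
    (z : ∀ i, ZMod (pr i)) : |Ph pr F y J R z| ≤ 2 ^ R.card * A := by
  unfold Ph
  rw [abs_div, Nat.abs_cast]
  have h1 : |∑ x ∈ Finset.Ioc y (y + (J : ℤ)), F x * kk pr R x z| ≤
      ∑ x ∈ Finset.Ioc y (y + (J : ℤ)), ∑ T ∈ R.powerset, F x * ∏ i ∈ T, ind pr x z i := by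
    refine (Finset.abs_sum_le_sum_abs _ _).trans (Finset.sum_le_sum fun x _ => ?_)
    rw [abs_mul, abs_of_nonneg (hF0 x), ← Finset.mul_sum]
    apply mul_le_mul_of_nonneg_left _ (hF0 x)
    unfold kk
    rw [Finset.abs_prod]
    have e := Finset.prod_add (fun i => ind pr x z i) (fun _ => (1 : ℝ)) R
    simp only [Finset.prod_const_one, mul_one] at e
    rw [← e]
    apply Finset.prod_le_prod (fun i _ => abs_nonneg _)
    intro i _
    have := ind_nonneg pr x z i
    rw [abs_le]; constructor <;> linarith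
  rw [Finset.sum_comm] at h1
  have h2 : (∑ T ∈ R.powerset, ∑ x ∈ Finset.Ioc y (y + (J : ℤ)), F x * ∏ i ∈ T, ind pr x z i) / J ≤
      2 ^ R.card * A := by
    rw [Finset.sum_div]
    calc ∑ T ∈ R.powerset, (∑ x ∈ Finset.Ioc y (y + (J : ℤ)), F x * ∏ i ∈ T, ind pr x z i) / J
        ≤ ∑ _T ∈ R.powerset, A :=
          Finset.sum_le_sum fun T hT => hreg T (Finset.mem_powerset.1 hT) z
      _ = 2 ^ R.card * A := by
        rw [Finset.sum_const, Finset.card_powerset, nsmul_eq_mul]; push_cast; rfl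
  exact (div_le_div_of_nonneg_right h1 (Nat.cast_nonneg _)).trans h2

/-- the energy of `Defs.lean` -/
lemma En_eq_energy (hpr : ∀ i, (pr i).Prime) (hinj : Function.Injective pr) (F : ℤ → ℝ) (y : ℤ)
    (J : ℕ) (R : Finset ι) : En pr F y J R = energy F y J (R.map ⟨pr, hinj⟩) := by
  unfold En
  rw [av_univ_dep pr hpr hinj R (fun z => Ph pr F y J R z ^ 2) (by
    intro z z' h
    rw [Ph_dep pr F y J R z z' h])]
  unfold energy
  have e1 : ∏ p ∈ R.map ⟨pr, hinj⟩, p = PR pr R := by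
    rw [Finset.prod_map]; rfl
  rw [e1]
  congr 1
  refine Finset.sum_congr rfl fun x _ => ?_
  congr 1
  unfold Ph comp kk ind proj
  congr 1
  refine Finset.sum_congr rfl fun u _ => ?_
  congr 1
  rw [Finset.prod_map]
  refine Finset.prod_congr rfl fun i _ => ?_
  have e2 : ((u : ZMod (pr i)) = (((x : ℕ) : ℤ) : ZMod (pr i))) ↔ u ≡ (x : ℤ) [ZMOD (pr i : ℤ)] :=
    ZMod.intCast_eq_intCast_iff _ _ _
  by_cases h : u ≡ (x : ℤ) [ZMOD (pr i : ℤ)]
  · rw [if_pos (e2.2 h)]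
    show _ = (if u ≡ (x : ℤ) [ZMOD (pr i : ℤ)] then (pr i : ℝ) else 0) - 1
    rw [if_pos h]
  · rw [if_neg (fun h' => h (e2.1 h'))]
    show _ = (if u ≡ (x : ℤ) [ZMOD (pr i : ℤ)] then (pr i : ℝ) else 0) - 1
    rw [if_neg h]

end moment

end LevelAux

end Vale.Agent.P042
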