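import Vale.Agent.P042.Defs

/-!
# P042, module B: arithmetic and numerical lemmas
-/

namespace Vale.Agent.P042

open Finset

namespace LevelAux

/-- Chinese remainder for two moduli -/
lemma int_crt {a b : ℕ} (h : Nat.Coprime a b) (u v : ℤ) :
    ∃ w : ℤ, ∀ x : ℤ, (x ≡ u [ZMOD (a : ℤ)] ∧ x ≡ v [ZMOD (b : ℤ)]) ↔
      x ≡ w [ZMOD ((a * b : ℕ) : ℤ)] := by
  have hb : IsCoprime (a : ℤ) (b : ℤ) := Nat.isCoprime_iff_coprime.2 h
  obtain ⟨s, t, hst⟩ := hb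
  obtain ⟨w, hw⟩ : ∃ w, w = u * (t * b) + v * (s * a) := ⟨_, rfl⟩
  have hwu : w ≡ u [ZMOD (a : ℤ)] := by
    apply Int.ModEq.symm
    rw [Int.modEq_iff_dvd]
    refine ⟨s * (v - u), ?_⟩
    have : t * (b : ℤ) = 1 - s * a := by linarith
    rw [hw, this]; ring
  have hwv : w ≡ v [ZMOD (b : ℤ)] := by
    apply Int.ModEq.symm
    rw [Int.modEq_iff_dvd]
    refine ⟨t * (u - v), ?_⟩
    have : s * (a : ℤ) = 1 - t * b := by linarith
    rw [hw, this]; ring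
  refine ⟨w, fun x => ?_⟩
  have hcop : ((a : ℤ)).natAbs.Coprime ((b : ℤ)).natAbs := by simpa using h
  rw [Nat.cast_mul, ← Int.modEq_and_modEq_iff_modEq_mul hcop]
  constructor
  · rintro ⟨h1, h2⟩
    exact ⟨h1.trans hwu.symm, h2.trans hwv.symm⟩
  · rintro ⟨h1, h2⟩
    exact ⟨h1.trans hwu, h2.trans hwv⟩

/-- counting a residue class in an interval -/
lemma count_ioc (y : ℤ) (J : ℕ) {r : ℕ} (hr : 0 < r) (v : ℤ) :
    |((((Finset.Ioc y (y + J)).filter (fun x => x ≡ v [ZMOD (r : ℤ)])).card : ℕ) : ℝ) - J / r| ≤ 1 := by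
  have hr' : (0 : ℤ) < r := by exact_mod_cast hr
  have h := Int.Ioc_filter_modEq_card y (y + J) hr' v
  have hq : (((Finset.Ioc y (y + J)).filter (fun x => x ≡ v [ZMOD (r : ℤ)])).card : ℚ) =
      ((max (⌊(((y + J : ℤ) : ℚ) - v) / ((r : ℤ) : ℚ)⌋ - ⌊((y : ℚ) - v) / ((r : ℤ) : ℚ)⌋) 0 : ℤ) : ℚ) := by
    rw [← h]; simp
  have hq1 : |(((Finset.Ioc y (y + J)).filter (fun x => x ≡ v [ZMOD (r : ℤ)])).card : ℚ) - J / r|
      ≤ 1 := by
    rw [hq]
    have h1 := Int.floor_le ((((y + J : ℤ) : ℚ) - v) / ((r : ℤ) : ℚ))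
    have h2 := Int.lt_floor_add_one ((((y + J : ℤ) : ℚ) - v) / ((r : ℤ) : ℚ))
    have h3 := Int.floor_le (((y : ℚ) - v) / ((r : ℤ) : ℚ))
    have h4 := Int.lt_floor_add_one (((y : ℚ) - v) / ((r : ℤ) : ℚ))
    have hle : ⌊((y : ℚ) - v) / ((r : ℤ) : ℚ)⌋ ≤ ⌊(((y + J : ℤ) : ℚ) - v) / ((r : ℤ) : ℚ)⌋ := by
      apply Int.floor_le_floor
      apply div_le_div_of_nonneg_right _ (by positivity)
      push_cast
      have : (0 : ℚ) ≤ J := by positivity
      linarith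
    rw [max_eq_left (by omega)]
    have e : (((y + J : ℤ) : ℚ) - v) / ((r : ℤ) : ℚ) = ((y : ℚ) - v) / ((r : ℤ) : ℚ) + J / r := by
      push_cast
      rw [← add_div]; congr 1; ring
    rw [e] at h1 h2 ⊢
    push_cast at *
    rw [abs_le]
    constructor <;> linarith
  have := (Rat.cast_le (K := ℝ)).2 hq1
  push_cast at this
  exact this

/-- the average over a period does not depend on the period -/
lemma avg_period {N k : ℕ} (hN : 0 < N) (hk : 0 < k) (f : ℕ → ℝ) (hf : ∀ x, f (x + N) = f x) :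
    (∑ x ∈ Finset.range (N * k), f x) / ((N * k : ℕ) : ℝ) = (∑ x ∈ Finset.range N, f x) / N := by
  have hf' : ∀ j x, f (N * j + x) = f x := by
    intro j
    induction j with
    | zero => intro x; simp
    | succ j ih =>
      intro x
      have : N * (j + 1) + x = (N * j + x) + N := by ring
      rw [this, hf, ih]
  have h1 : ∀ j : ℕ, ∑ x ∈ Finset.range (N * j), f x = j * ∑ x ∈ Finset.range N, f x := by
    intro j
    induction j with
    | zero => simp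
    | succ j ih =>
      rw [mul_add, mul_one, Finset.sum_range_add, ih]
      simp only [hf']
      push_cast
      ring
  rw [h1, Nat.cast_mul]
  have : (0 : ℝ) < N := by exact_mod_cast hN
  have : (0 : ℝ) < k := by exact_mod_cast hk
  field_simp

/-- equidistribution of periodic functions in long intervals -/
lemma periodic (y c : ℤ) {J W N : ℕ} (hJ : 0 < J) (hW : 0 < W) (hN : 0 < N)
    (hcop : Nat.Coprime W N) (f : ℤ → ℝ) (hf : ∀ x v : ℤ, x ≡ v [ZMOD (N : ℤ)] → f x = f v) {B : ℝ}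
    (hB : ∀ x, |f x| ≤ B) :
    (∑ x ∈ Finset.Ioc y (y + J), (if x ≡ c [ZMOD (W : ℤ)] then (W : ℝ) else 0) * f x) / J ≤
      (∑ v ∈ Finset.range N, f v) / N + W * N * B / J := by
  have hJR : (0 : ℝ) < J := by exact_mod_cast hJ
  have hWR : (0 : ℝ) < W := by exact_mod_cast hW
  have hNR : (0 : ℝ) < N := by exact_mod_cast hN
  have h1 : ∀ v : ℕ, ∃ w : ℤ, ∀ x : ℤ, (x ≡ c [ZMOD (W : ℤ)] ∧ x ≡ (v : ℤ) [ZMOD (N : ℤ)]) ↔
      x ≡ w [ZMOD ((W * N : ℕ) : ℤ)] := fun v => int_crt hcop c v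
  choose w hw using h1
  have h2 : ∀ x ∈ Finset.Ioc y (y + (J : ℤ)), (if x ≡ c [ZMOD (W : ℤ)] then (W : ℝ) else 0) * f x =
      ∑ v ∈ Finset.range N, if x ≡ w v [ZMOD ((W * N : ℕ) : ℤ)] then (W : ℝ) * f v else 0 := by
    intro x _
    obtain ⟨v₀, hv₀, hv₀'⟩ : ∃ v₀ : ℕ, v₀ < N ∧ x ≡ (v₀ : ℤ) [ZMOD (N : ℤ)] := by
      refine ⟨(x % N).toNat, ?_, ?_⟩
      · have h3 := Int.emod_nonneg x (by omega : (N : ℤ) ≠ 0)
        have h4 := Int.emod_lt_of_pos x (by omega : (0 : ℤ) < N)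
        omega
      · have h3 := Int.emod_nonneg x (by omega : (N : ℤ) ≠ 0)
        rw [Int.toNat_of_nonneg h3]
        exact (Int.mod_modEq x N).symm
    rw [Finset.sum_eq_single v₀]
    · by_cases hx : x ≡ c [ZMOD (W : ℤ)]
      · rw [if_pos hx, if_pos ((hw v₀ x).1 ⟨hx, hv₀'⟩), hf x v₀ hv₀']
      · rw [if_neg hx, if_neg (fun h => hx ((hw v₀ x).2 h).1), zero_mul]
    · intro v hv hne
      rw [if_neg]
      intro h
      apply hne
      have h3 := ((hw v x).2 h).2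
      have h4 : (v : ℤ) ≡ (v₀ : ℤ) [ZMOD (N : ℤ)] := h3.symm.trans hv₀'
      have h5 : v ≡ v₀ [MOD N] := (Int.natCast_modEq_iff).1 h4
      rw [Nat.ModEq, Nat.mod_eq_of_lt (Finset.mem_range.1 hv), Nat.mod_eq_of_lt hv₀] at h5
      exact h5
    · intro h
      exact absurd (Finset.mem_range.2 hv₀) h
  rw [Finset.sum_congr rfl h2, Finset.sum_comm]
  have h3 : ∀ v ∈ Finset.range N, (∑ x ∈ Finset.Ioc y (y + (J : ℤ)),
      if x ≡ w v [ZMOD ((W * N : ℕ) : ℤ)] then (W : ℝ) * f v else 0) ≤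
      (J / N) * f v + W * B := by
    intro v _
    rw [← Finset.sum_filter, Finset.sum_const, nsmul_eq_mul]
    have h4 := count_ioc y J (Nat.mul_pos hW hN) (w v)
    generalize ((((Finset.Ioc y (y + (J : ℤ))).filter
      (fun x => x ≡ w v [ZMOD ((W * N : ℕ) : ℤ)])).card : ℕ) : ℝ) = cc at *
    have h5 : cc * (W * f v) = (J / N) * f v + (cc - J / ((W * N : ℕ) : ℝ)) * (W * f v) := by
      push_cast
      field_simp
      ring
    rw [h5]
    have h6 : (cc - J / ((W * N : ℕ) : ℝ)) * (W * f v) ≤ 1 * (W * B) := by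
      refine (le_abs_self _).trans ?_
      rw [abs_mul, abs_mul, abs_of_pos hWR]
      exact mul_le_mul h4 (mul_le_mul_of_nonneg_left (hB _) hWR.le)
        (mul_nonneg hWR.le (abs_nonneg _)) zero_le_one
    linarith
  have h4 := Finset.sum_le_sum h3
  rw [Finset.sum_add_distrib, ← Finset.mul_sum, Finset.sum_const, Finset.card_range,
    nsmul_eq_mul] at h4
  rw [div_le_iff₀ hJR]
  refine h4.trans (le_of_eq ?_)
  field_simp

/-- Jensen's inequality for even powers -/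
lemma jensen {κ : Type*} (s : Finset κ) (w g : κ → ℝ) (hw : ∀ i ∈ s, 0 ≤ w i) {m : ℕ} (hm : 1 ≤ m) :
    (∑ i ∈ s, w i * g i) ^ (2 * m) ≤
      (∑ i ∈ s, w i) ^ (2 * m - 1) * ∑ i ∈ s, w i * g i ^ (2 * m) := by
  have hW : 0 ≤ ∑ i ∈ s, w i := Finset.sum_nonneg hw
  rcases hW.eq_or_lt with h0 | hpos
  · have h1 := (Finset.sum_eq_zero_iff_of_nonneg hw).1 h0.symm
    have h2 : ∑ i ∈ s, w i * g i = 0 := Finset.sum_eq_zero fun i hi => by rw [h1 i hi, zero_mul]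
    have h3 : ∑ i ∈ s, w i * g i ^ (2 * m) = 0 :=
      Finset.sum_eq_zero fun i hi => by rw [h1 i hi, zero_mul]
    rw [h2, h3, mul_zero, zero_pow (by omega)]
  · set V := ∑ i ∈ s, w i with hV
    have h1 := Real.pow_arith_mean_le_arith_mean_pow_of_even s (fun i => w i / V) g
      (fun i hi => div_nonneg (hw i hi) hpos.le)
      (by rw [← Finset.sum_div, ← hV, div_self hpos.ne']) (even_two_mul m)
    have e1 : ∑ i ∈ s, w i / V * g i = (∑ i ∈ s, w i * g i) / V := by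
      rw [Finset.sum_div]; exact Finset.sum_congr rfl fun i _ => by ring
    have e2 : ∑ i ∈ s, w i / V * g i ^ (2 * m) = (∑ i ∈ s, w i * g i ^ (2 * m)) / V := by
      rw [Finset.sum_div]; exact Finset.sum_congr rfl fun i _ => by ring
    rw [e1, e2, div_pow, div_le_div_iff₀ (pow_pos hpos _) hpos] at h1
    have e3 : V ^ (2 * m) = V ^ (2 * m - 1) * V := by
      rw [← pow_succ]; congr 1; omega
    rw [e3] at h1
    have h2 : (∑ i ∈ s, w i * g i) ^ (2 * m) * V ≤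
        (V ^ (2 * m - 1) * ∑ i ∈ s, w i * g i ^ (2 * m)) * V := by linarith
    exact le_of_mul_le_mul_right h2 hpos

/-- the numerical end game -/
lemma endgame {m d : ℕ} (hm : 2 ≤ m) (hd : 1 ≤ d) {A V G err : ℝ} (hA0 : Real.exp (-(m : ℝ)) ≤ A)
    (herr : err ≤ Real.exp (-(m : ℝ)) / 8)
    (_hV : 0 ≤ V)
    (h1 : V ^ (2 * m) ≤ A ^ (2 * m - 1) * (G + err * A ^ (2 * m)))
    (h2 : (1 / (14 * (m : ℝ))) ^ (m * d) * G ≤ V ^ m + V * (A ^ (2 * (m - 1)) *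
      ((200 * (m : ℝ)) ^ d) ^ (m - 1) *
      ((1 + (2 * (m : ℝ)) ^ m * 4 ^ (m - 1) / (200 * (m : ℝ)) ^ (m - 1)) ^ d - 1))) :
    V ≤ A ^ 2 * (200 * (m : ℝ)) ^ d := by
  by_contra hcon
  push Not at hcon
  obtain ⟨n, rfl⟩ : ∃ n, m = n + 1 := ⟨m - 1, by omega⟩
  have hn : 1 ≤ n := by omega
  simp only [Nat.add_sub_cancel] at h2
  have e0 : 2 * (n + 1) - 1 = 2 * n + 1 := by omega
  rw [e0] at h1
  have hA : 0 < A := (Real.exp_pos _).trans_le hA0
  obtain ⟨w, hw⟩ : ∃ w : ℝ, w = (200 * ((n + 1 : ℕ) : ℝ)) ^ d := ⟨_, rfl⟩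
  rw [← hw] at h2 hcon
  obtain ⟨q, hq⟩ : ∃ q : ℝ, q = (2 * ((n + 1 : ℕ) : ℝ)) ^ (n + 1) * 4 ^ n /
    (200 * ((n + 1 : ℕ) : ℝ)) ^ n := ⟨_, rfl⟩
  rw [← hq] at h2
  have hnR : (1 : ℝ) ≤ (n : ℝ) := by exact_mod_cast hn
  have hq0 : 0 ≤ q := by rw [hq]; positivity
  -- q ≤ 4 / 25
  have hq1 : q ≤ 4 / 25 := by
    have e1 : q = 2 * ((n : ℝ) + 1) * (1 / 25) ^ n := by
      rw [hq]
      push_cast
      have e2 : (200 * ((n : ℝ) + 1)) ^ n = (2 * (n + 1)) ^ n * 4 ^ n * 25 ^ n := by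
        rw [← mul_pow, ← mul_pow]; congr 1; ring
      rw [e2, pow_succ, one_div, inv_pow]
      field_simp
    rw [e1]
    have h3 : ∀ j : ℕ, 2 * ((j : ℝ) + 1 + 1) * (1 / 25) ^ (j + 1) ≤ 4 / 25 := by
      intro j
      induction j with
      | zero => norm_num
      | succ j ih =>
        have hj : (0 : ℝ) ≤ j := by positivity
        have h4 : (0 : ℝ) < (1 / 25) ^ (j + 1) := by positivity
        rw [pow_succ]
        push_cast
        nlinarith [mul_nonneg hj h4.le]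
    obtain ⟨j, rfl⟩ : ∃ j, n = j + 1 := ⟨n - 1, by omega⟩
    have := h3 j
    push_cast
    exact this
  have hw1 : 1 ≤ w := by
    rw [hw]
    apply one_le_pow₀
    push_cast
    linarith
  obtain ⟨X, hX⟩ : ∃ X : ℝ, X = V / A ^ 2 := ⟨_, rfl⟩
  have hVX : V = A ^ 2 * X := by rw [hX]; field_simp
  have hwX : w < X := by
    rw [hX, lt_div_iff₀ (by positivity)]
    linarith
  have hX0 : 0 < X := by linarith
  have hX1 : 1 ≤ X := by linarith
  have hqd : 0 ≤ (1 + q) ^ d - 1 := by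
    have := one_le_pow₀ (M₀ := ℝ) (n := d) (by linarith : (1 : ℝ) ≤ 1 + q)
    linarith
  -- bound for G
  have hG : G ≤ (14 * ((n + 1 : ℕ) : ℝ)) ^ ((n + 1) * d) * (A ^ (2 * (n + 1)) *
      (X ^ (n + 1) * (1 + q) ^ d)) := by
    have h3 : V ^ (n + 1) + V * (A ^ (2 * n) * w ^ n * ((1 + q) ^ d - 1)) ≤
        A ^ (2 * (n + 1)) * (X ^ (n + 1) * (1 + q) ^ d) := by
      have h4 : w ^ n ≤ X ^ n := pow_le_pow_left₀ (by linarith) hwX.le n
      have h5 : w ^ n * ((1 + q) ^ d - 1) ≤ X ^ n * ((1 + q) ^ d - 1) :=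
        mul_le_mul_of_nonneg_right h4 hqd
      have h6 : A ^ 2 * X * A ^ (2 * n) * (w ^ n * ((1 + q) ^ d - 1)) ≤
          A ^ 2 * X * A ^ (2 * n) * (X ^ n * ((1 + q) ^ d - 1)) :=
        mul_le_mul_of_nonneg_left h5 (by positivity)
      rw [hVX]
      calc (A ^ 2 * X) ^ (n + 1) + A ^ 2 * X * (A ^ (2 * n) * w ^ n * ((1 + q) ^ d - 1))
          = (A ^ 2 * X) ^ (n + 1) + A ^ 2 * X * A ^ (2 * n) * (w ^ n * ((1 + q) ^ d - 1)) := by
            ring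
        _ ≤ (A ^ 2 * X) ^ (n + 1) + A ^ 2 * X * A ^ (2 * n) * (X ^ n * ((1 + q) ^ d - 1)) := by
            linarith
        _ = _ := by ring
    have h4 := h2.trans h3
    have hpos : (0 : ℝ) < (14 * ((n + 1 : ℕ) : ℝ)) ^ ((n + 1) * d) := by positivity
    have e1 : (1 / (14 * ((n + 1 : ℕ) : ℝ))) ^ ((n + 1) * d) =
      ((14 * ((n + 1 : ℕ) : ℝ)) ^ ((n + 1) * d))⁻¹ := by rw [one_div, inv_pow]
    rw [e1, inv_mul_le_iff₀ hpos] at h4
    exact h4
  -- combine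
  have h3 : A ^ (4 * n + 4) * X ^ (2 * (n + 1)) ≤ A ^ (4 * n + 3) *
      ((14 * ((n + 1 : ℕ) : ℝ)) ^ ((n + 1) * d) * (X ^ (n + 1) * (1 + q) ^ d) + err) := by
    calc A ^ (4 * n + 4) * X ^ (2 * (n + 1)) = V ^ (2 * (n + 1)) := by rw [hVX]; ring
      _ ≤ A ^ (2 * n + 1) * (G + err * A ^ (2 * (n + 1))) := h1
      _ ≤ A ^ (2 * n + 1) * ((14 * ((n + 1 : ℕ) : ℝ)) ^ ((n + 1) * d) * (A ^ (2 * (n + 1)) *
            (X ^ (n + 1) * (1 + q) ^ d)) + err * A ^ (2 * (n + 1))) :=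
          mul_le_mul_of_nonneg_left (by linarith) (by positivity)
      _ = _ := by ring
  have h4 : A * X ^ (2 * (n + 1)) ≤
      (14 * ((n + 1 : ℕ) : ℝ)) ^ ((n + 1) * d) * (X ^ (n + 1) * (1 + q) ^ d) + err := by
    have e1 : A ^ (4 * n + 4) * X ^ (2 * (n + 1)) = A ^ (4 * n + 3) * (A * X ^ (2 * (n + 1))) := by
      ring
    rw [e1] at h3
    exact le_of_mul_le_mul_left h3 (by positivity)
  -- divide by X ^ (n+1)
  have hXp : 1 ≤ X ^ (n + 1) := one_le_pow₀ hX1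
  have herr1 : err ≤ A / 8 := by linarith
  have h5 : A * X ^ (n + 1) ≤ (14 * ((n + 1 : ℕ) : ℝ)) ^ ((n + 1) * d) * (1 + q) ^ d + A / 8 := by
    have h6 : (A * X ^ (n + 1)) * X ^ (n + 1) ≤
        ((14 * ((n + 1 : ℕ) : ℝ)) ^ ((n + 1) * d) * (1 + q) ^ d + A / 8) * X ^ (n + 1) := by
      have h7 : A / 8 * 1 ≤ A / 8 * X ^ (n + 1) :=
        mul_le_mul_of_nonneg_left hXp (by positivity)
      calc (A * X ^ (n + 1)) * X ^ (n + 1) = A * X ^ (2 * (n + 1)) := by ring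
        _ ≤ (14 * ((n + 1 : ℕ) : ℝ)) ^ ((n + 1) * d) * (X ^ (n + 1) * (1 + q) ^ d) + err := h4
        _ ≤ (14 * ((n + 1 : ℕ) : ℝ)) ^ ((n + 1) * d) * (X ^ (n + 1) * (1 + q) ^ d) +
            A / 8 * X ^ (n + 1) := by linarith
        _ = _ := by ring
    exact le_of_mul_le_mul_right h6 (by positivity)
  have h6 : (200 * ((n + 1 : ℕ) : ℝ)) ^ ((n + 1) * d) ≤ X ^ (n + 1) := by
    have h7 : w ^ (n + 1) ≤ X ^ (n + 1) := pow_le_pow_left₀ (by linarith) hwX.le _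
    rw [hw, ← pow_mul] at h7
    rwa [mul_comm (n + 1) d]
  -- final numerical contradiction
  have h7 : A * (200 * ((n + 1 : ℕ) : ℝ)) ^ ((n + 1) * d) ≤
      (14 * ((n + 1 : ℕ) : ℝ)) ^ ((n + 1) * d) * (1 + q) ^ d + A / 8 :=
    (mul_le_mul_of_nonneg_left h6 hA.le).trans h5
  have hP : (1 : ℝ) ≤ (200 * ((n + 1 : ℕ) : ℝ)) ^ ((n + 1) * d) := by
    apply one_le_pow₀; push_cast; linarith
  have h8 : (14 * ((n + 1 : ℕ) : ℝ)) ^ ((n + 1) * d) * (1 + q) ^ d ≤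
      (200 * ((n + 1 : ℕ) : ℝ)) ^ ((n + 1) * d) * (A / 4) := by
    have e1 : (14 * ((n + 1 : ℕ) : ℝ)) ^ ((n + 1) * d) =
        (200 * ((n + 1 : ℕ) : ℝ)) ^ ((n + 1) * d) * ((7 / 100 : ℝ)) ^ ((n + 1) * d) := by
      rw [← mul_pow]; congr 1; ring
    rw [e1, mul_assoc]
    apply mul_le_mul_of_nonneg_left _ (by positivity)
    have h9 : ((7 / 100 : ℝ)) ^ ((n + 1) * d) * (1 + q) ^ d ≤ (2 / 25) ^ (n + 1) := by
      have h10 : ((7 / 100 : ℝ)) ^ (n + 1) * (1 + q) ≤ (2 / 25) ^ (n + 1) := by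
        have h11 : (1 + q) ≤ (8 / 7) ^ (n + 1) := by
          have h12 : (8 / 7 : ℝ) ^ 2 ≤ (8 / 7) ^ (n + 1) :=
            pow_le_pow_right₀ (by norm_num) (by omega)
          norm_num at h12 ⊢
          linarith
        calc ((7 / 100 : ℝ)) ^ (n + 1) * (1 + q) ≤ ((7 / 100 : ℝ)) ^ (n + 1) * (8 / 7) ^ (n + 1) :=
              mul_le_mul_of_nonneg_left h11 (by positivity)
          _ = (2 / 25) ^ (n + 1) := by rw [← mul_pow]; norm_num
      have h11 : (2 / 25 : ℝ) ^ (n + 1) ≤ 1 := pow_le_one₀ (by norm_num) (by norm_num)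
      rw [pow_mul, ← mul_pow]
      calc (((7 / 100 : ℝ)) ^ (n + 1) * (1 + q)) ^ d ≤ ((2 / 25) ^ (n + 1)) ^ d :=
            pow_le_pow_left₀ (by positivity) h10 d
        _ ≤ ((2 / 25) ^ (n + 1)) ^ 1 :=
            pow_le_pow_of_le_one (by positivity) h11 hd
        _ = _ := pow_one _
    refine h9.trans ?_
    have h10 : (4 * (2 / 25 : ℝ) ^ (n + 1)) ≤ Real.exp (-((n + 1 : ℕ) : ℝ)) := by
      have h11 : Real.exp (-((n + 1 : ℕ) : ℝ)) = (Real.exp (-1)) ^ (n + 1) := by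
        rw [← Real.exp_nat_mul]; congr 1; ring
      have h12 : (1 / 3 : ℝ) ≤ Real.exp (-1) := by
        have h13 := Real.exp_one_lt_d9
        rw [Real.exp_neg, ← one_div]
        apply one_div_le_one_div_of_le (Real.exp_pos 1)
        linarith
      have h13 : (1 / 3 : ℝ) ^ (n + 1) ≤ (Real.exp (-1)) ^ (n + 1) :=
        pow_le_pow_left₀ (by norm_num) h12 _
      have h14 : 4 * (2 / 25 : ℝ) ^ (n + 1) ≤ (1 / 3 : ℝ) ^ (n + 1) := by
        have h15 : (4 : ℝ) ≤ (25 / 6) ^ (n + 1) := by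
          have h16 : (25 / 6 : ℝ) ^ 1 ≤ (25 / 6) ^ (n + 1) :=
            pow_le_pow_right₀ (by norm_num) (by omega)
          norm_num at h16 ⊢
          linarith
        calc 4 * (2 / 25 : ℝ) ^ (n + 1) ≤ (25 / 6) ^ (n + 1) * (2 / 25 : ℝ) ^ (n + 1) :=
              mul_le_mul_of_nonneg_right h15 (by positivity)
          _ = (1 / 3 : ℝ) ^ (n + 1) := by rw [← mul_pow]; norm_num
      rw [h11]
      linarith
    linarith
  have h9 : A / 8 ≤ (200 * ((n + 1 : ℕ) : ℝ)) ^ ((n + 1) * d) * (A / 8) :=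
    le_mul_of_one_le_left (by positivity) hP
  have h10 : 0 < (200 * ((n + 1 : ℕ) : ℝ)) ^ ((n + 1) * d) * A := by positivity
  linarith

end LevelAux

end Vale.Agent.P042
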