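import Vale.Agent.P042.Hyper
import Vale.Agent.P042.LevelNum

/-!
# P042, module B: the product space of residues
-/

namespace Vale.Agent.P042

open Finset

namespace LevelAux

section orth
variable {ι : Type} [Fintype ι] [DecidableEq ι] {Ω : ι → Type} [∀ i, Fintype (Ω i)]
  [∀ i, Nonempty (Ω i)] [∀ i, DecidableEq (Ω i)]

open HyperAux

lemma av_sum {κ : Type*} (s : Finset κ) (S : Finset ι) (f : κ → (∀ i, Ω i) → ℝ) (x : ∀ i, Ω i) :
    av S (fun z => ∑ k ∈ s, f k z) x = ∑ k ∈ s, av S (f k) x := by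
  unfold av
  rw [Finset.sum_comm, Finset.sum_div]

lemma av_orth (S : Finset ι) (φ : Finset ι → (∀ i, Ω i) → ℝ)
    (hdep : ∀ R x y, (∀ i ∈ R, x i = y i) → φ R x = φ R y)
    (hzero : ∀ R, ∀ i ∈ R, ∀ x, ∑ t : Ω i, φ R (Function.update x i t) = 0)
    {R R' : Finset ι} {i : ι} (hi : i ∈ S) (hR : i ∈ R) (hR' : i ∉ R') (x : ∀ i, Ω i) :
    av S (fun z => φ R z * φ R' z) x = 0 := by
  have e : S = S ∪ {i} := by
    rw [Finset.union_eq_left.2 (Finset.singleton_subset_iff.2 hi)]
  rw [e, ← av_av]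
  have h1 : av {i} (fun z => φ R z * φ R' z) = fun _ => 0 := by
    ext z
    rw [av_congr (g := fun w => φ R' z * φ R w) {i} z, av_mul, av_singleton_zero i (φ R) z
      (hzero R i hR z), mul_zero]
    intro y
    rw [Finset.piecewise_singleton, hdep R' (Function.update z i (y i)) z]
    · ring
    · intro j hj
      rw [Function.update_of_ne]
      rintro rfl
      exact hR' hj
  rw [h1, av_const]

/-- Parseval -/
lemma av_parseval (S : Finset ι) (φ : Finset ι → (∀ i, Ω i) → ℝ)
    (hdep : ∀ R x y, (∀ i ∈ R, x i = y i) → φ R x = φ R y)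
    (hzero : ∀ R, ∀ i ∈ R, ∀ x, ∑ t : Ω i, φ R (Function.update x i t) = 0)
    (s : Finset (Finset ι)) (hs : ∀ R ∈ s, R ⊆ S) (x : ∀ i, Ω i) :
    av S (fun z => (∑ R ∈ s, φ R z) ^ 2) x = ∑ R ∈ s, av S (fun z => φ R z ^ 2) x := by
  have e : (fun z => (∑ R ∈ s, φ R z) ^ 2) = fun z => ∑ R ∈ s, ∑ R' ∈ s, φ R z * φ R' z := by
    ext z
    rw [pow_two, Finset.sum_mul_sum]
  rw [e, av_sum]
  refine Finset.sum_congr rfl fun R hR => ?_
  rw [av_sum, Finset.sum_eq_single R]
  · congr 1; ext z; ring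
  · intro R' hR' hne
    obtain ⟨i, hi⟩ : ∃ i, ¬ (i ∈ R ↔ i ∈ R') := by
      by_contra hcon
      push Not at hcon
      exact hne (Finset.ext fun i => (hcon i).symm)
    by_cases hiR : i ∈ R
    · have hiR' : i ∉ R' := fun h => hi ⟨fun _ => h, fun _ => hiR⟩
      exact av_orth S φ hdep hzero (hs R hR hiR) hiR hiR' x
    · have hiR' : i ∈ R' := by
        by_contra h; exact hi ⟨fun h' => absurd h' hiR, fun h' => absurd h' h⟩
      have := av_orth S φ hdep hzero (hs R' hR' hiR') hiR' hiR x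
      rw [← this]; congr 1; ext z; ring
  · intro h; exact absurd hR h

/-- averages over all the coordinates on which a function depends -/
lemma av_univ_of_dep (S : Finset ι) (f : (∀ i, Ω i) → ℝ)
    (hdep : ∀ x y, (∀ i ∈ S, x i = y i) → f x = f y) (x x' : ∀ i, Ω i) :
    av S f x = av univ f x' := by
  have h1 : av univ f x' = av univ (av S f) x' := by
    rw [av_av]; congr 1; exact (Finset.union_eq_left.2 (Finset.subset_univ _)).symm
  have h2 : ∀ z z', av S f z = av S f z' := by
    intro z z'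
    unfold av
    congr 1
    refine Finset.sum_congr rfl fun y _ => hdep _ _ fun i hi => ?_
    simp [hi]
  have h3 : av S f = fun _ => av S f x := by ext z; exact h2 z x
  rw [h1, h3, av_const]

end orth

section setup
variable {ι : Type} [Fintype ι] [DecidableEq ι] (pr : ι → ℕ)

/-- product of the primes of a set -/
def PR (R : Finset ι) : ℕ := ∏ i ∈ R, pr i

/-- `p 1[x = z_p]` -/
noncomputable def ind (x : ℤ) (z : ∀ i, ZMod (pr i)) (i : ι) : ℝ :=
  if (x : ZMod (pr i)) = z i then (pr i : ℝ) else 0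

/-- the kernel -/
noncomputable def kk (R : Finset ι) (x : ℤ) (z : ∀ i, ZMod (pr i)) : ℝ :=
  ∏ i ∈ R, (ind pr x z i - 1)

/-- the components as functions on the product space -/
noncomputable def Ph (F : ℤ → ℝ) (y : ℤ) (J : ℕ) (R : Finset ι) (z : ∀ i, ZMod (pr i)) : ℝ :=
  (∑ x ∈ Finset.Ioc y (y + J), F x * kk pr R x z) / J

/-- the projection of an integer -/
def proj (x : ℤ) : ∀ i, ZMod (pr i) := fun i => (x : ZMod (pr i))

omit [Fintype ι] [DecidableEq ι] in
lemma ind_nonneg (x : ℤ) (z : ∀ i, ZMod (pr i)) (i : ι) : 0 ≤ ind pr x z i := by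
  unfold ind; split_ifs
  · positivity
  · exact le_rfl

omit [Fintype ι] [DecidableEq ι] in
lemma Ph_dep (F : ℤ → ℝ) (y : ℤ) (J : ℕ) (R : Finset ι) (z z' : ∀ i, ZMod (pr i))
    (h : ∀ i ∈ R, z i = z' i) : Ph pr F y J R z = Ph pr F y J R z' := by
  unfold Ph kk
  congr 1
  refine Finset.sum_congr rfl fun x _ => ?_
  congr 1
  refine Finset.prod_congr rfl fun i hi => ?_
  unfold ind
  rw [h i hi]

variable [∀ i, NeZero (pr i)]

omit [Fintype ι] [DecidableEq ι] in
lemma sum_ind (i : ι) (a : ZMod (pr i)) :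
    ∑ t : ZMod (pr i), (if a = t then (pr i : ℝ) else 0) = pr i := by
  rw [Finset.sum_ite_eq]; simp

omit [Fintype ι] in
lemma Ph_zero (F : ℤ → ℝ) (y : ℤ) (J : ℕ) (R : Finset ι) (i : ι) (hi : i ∈ R)
    (z : ∀ i, ZMod (pr i)) : ∑ t : ZMod (pr i), Ph pr F y J R (Function.update z i t) = 0 := by
  unfold Ph
  rw [← Finset.sum_div, Finset.sum_comm]
  have h1 : ∀ x ∈ Finset.Ioc y (y + (J : ℤ)),
      ∑ t : ZMod (pr i), F x * kk pr R x (Function.update z i t) = 0 := by
    intro x _
    have h2 : ∀ t : ZMod (pr i), kk pr R x (Function.update z i t) =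
        ((if (x : ZMod (pr i)) = t then (pr i : ℝ) else 0) - 1) *
          ∏ j ∈ R.erase i, (ind pr x z j - 1) := by
      intro t
      unfold kk
      rw [← Finset.mul_prod_erase R _ hi]
      congr 1
      · unfold ind; rw [Function.update_self]
      · refine Finset.prod_congr rfl fun j hj => ?_
        unfold ind
        rw [Function.update_of_ne (Finset.ne_of_mem_erase hj)]
    simp only [h2]
    rw [← Finset.mul_sum, ← Finset.sum_mul, Finset.sum_sub_distrib, sum_ind]
    simp [ZMod.card]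
  rw [Finset.sum_congr rfl h1]
  simp

/-- the average of a product function -/
lemma avg_prod (f : ∀ i, ZMod (pr i) → ℝ) (x0 : ∀ i, ZMod (pr i)) :
    av univ (fun z => ∏ i, f i (z i)) x0 = ∏ i, ((∑ t, f i t) / (pr i : ℝ)) := by
  unfold av
  simp only [Finset.piecewise_univ]
  rw [Finset.prod_div_distrib, Finset.prod_univ_sum, Fintype.piFinset_univ, Fintype.card_pi]
  simp [ZMod.card]

/-- reproducing property of the kernels -/
lemma avg_kk (R : Finset ι) (x x' : ℤ) (x0 : ∀ i, ZMod (pr i)) :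
    av univ (fun z => kk pr R x z * kk pr R x' z) x0 = kk pr R x' (proj pr x) := by
  obtain ⟨f, hf⟩ : ∃ f : ∀ i, ZMod (pr i) → ℝ, f = fun i t => if i ∈ R then
        ((if (x : ZMod (pr i)) = t then (pr i : ℝ) else 0) - 1) *
        ((if (x' : ZMod (pr i)) = t then (pr i : ℝ) else 0) - 1) else 1 := ⟨_, rfl⟩
  have h1 : (fun z => kk pr R x z * kk pr R x' z) = fun z : (∀ i, ZMod (pr i)) =>
      ∏ i, f i (z i) := by
    ext z
    unfold kk ind
    rw [← Finset.prod_mul_distrib, hf]
    simp only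
    rw [Finset.prod_ite_mem, Finset.univ_inter]
  rw [h1, avg_prod pr f x0, hf]
  unfold kk ind proj
  rw [← Finset.prod_subset (Finset.subset_univ R)]
  · refine Finset.prod_congr rfl fun i hi => ?_
    simp only [hi, if_true]
    have hp : (0 : ℝ) < pr i := by
      have := NeZero.pos (pr i)
      exact_mod_cast this
    have h2 : ∀ t : ZMod (pr i), ((if (x : ZMod (pr i)) = t then (pr i : ℝ) else 0) - 1) *
        ((if (x' : ZMod (pr i)) = t then (pr i : ℝ) else 0) - 1) =
        (if (x : ZMod (pr i)) = t then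
          (pr i : ℝ) * (if (x' : ZMod (pr i)) = (x : ZMod (pr i)) then (pr i : ℝ) else 0) else 0)
        - (if (x : ZMod (pr i)) = t then (pr i : ℝ) else 0)
        - (if (x' : ZMod (pr i)) = t then (pr i : ℝ) else 0) + 1 := by
      intro t
      by_cases h3 : (x : ZMod (pr i)) = t
      · subst h3; simp only [if_true]; ring
      · simp only [h3, if_false]; ring
    simp only [h2]
    rw [Finset.sum_add_distrib, Finset.sum_sub_distrib, Finset.sum_sub_distrib, sum_ind, sum_ind,
      Finset.sum_ite_eq]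
    simp only [Finset.mem_univ, if_true, Finset.sum_const, Finset.card_univ, ZMod.card,
      nsmul_eq_mul, mul_one]
    field_simp
    ring
  · intro i _ hi
    simp only [hi, if_false]
    have hp : (pr i : ℝ) ≠ 0 := by exact_mod_cast NeZero.ne (pr i)
    simp only [Finset.sum_const, Finset.card_univ, ZMod.card, nsmul_eq_mul, mul_one]
    exact div_self hp

/-- the energy of a component -/
noncomputable def En (F : ℤ → ℝ) (y : ℤ) (J : ℕ) (R : Finset ι) : ℝ :=
  av univ (fun z => Ph pr F y J R z ^ 2) (fun _ => (0 : ZMod _))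

lemma En_nonneg (F : ℤ → ℝ) (y : ℤ) (J : ℕ) (R : Finset ι) : 0 ≤ En pr F y J R :=
  HyperAux.av_nonneg _ (fun _ => sq_nonneg _) _

lemma av_eq_En (F : ℤ → ℝ) (y : ℤ) (J : ℕ) (R S : Finset ι) (hRS : R ⊆ S)
    (x : ∀ i, ZMod (pr i)) : av S (fun z => Ph pr F y J R z ^ 2) x = En pr F y J R := by
  unfold En
  apply av_univ_of_dep
  intro z z' h
  rw [Ph_dep pr F y J R z z' fun i hi => h i (hRS hi)]

lemma En_eq (F : ℤ → ℝ) (y : ℤ) (J : ℕ) (R : Finset ι) :
    En pr F y J R = (∑ x ∈ Finset.Ioc y (y + J), F x * Ph pr F y J R (proj pr x)) / J := by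
  unfold En
  have h1 : (fun z => Ph pr F y J R z ^ 2) = fun z => ∑ x ∈ Finset.Ioc y (y + (J : ℤ)),
      (∑ x' ∈ Finset.Ioc y (y + (J : ℤ)), (F x * F x' / (J * J)) *
        (kk pr R x z * kk pr R x' z)) := by
    ext z
    unfold Ph
    rw [div_pow, pow_two, Finset.sum_mul_sum, Finset.sum_div]
    refine Finset.sum_congr rfl fun x _ => ?_
    rw [Finset.sum_div]
    refine Finset.sum_congr rfl fun x' _ => ?_
    ring
  rw [h1, av_sum, Finset.sum_div]
  refine Finset.sum_congr rfl fun x _ => ?_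
  rw [av_sum]
  unfold Ph
  rw [mul_div_assoc', Finset.mul_sum, Finset.sum_div, Finset.sum_div]
  refine Finset.sum_congr rfl fun x' _ => ?_
  rw [HyperAux.av_mul, avg_kk]
  ring

end setup

end LevelAux

end Vale.Agent.P042
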