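import Vale.Agent.P042.Parseval

/-! Module L: local theory of complete exponential sums. -/

namespace Vale.Agent.P042

open Finset Polynomial

namespace LocalAux

open MajorArcAux ParsevalAux

lemma gs_eq (P : ℤ[X]) (a : ℤ) (q : ℕ) : gs P a q = (∑ r ∈ range q, cc P a q r) / q := rfl

/-- sums over `ℤ/mn` of products of an `m`-periodic and an `n`-periodic function -/
lemma sum_prod_periodic {m n : ℕ} (hm : 1 ≤ m) (hn : 1 ≤ n) (hmn : Nat.Coprime m n) (f g : ℕ → ℂ)
    (hf : ∀ r, f (r % m) = f r) (hg : ∀ r, g (r % n) = g r) :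
    ∑ r ∈ range (m * n), f r * g r = (∑ r ∈ range m, f r) * ∑ r ∈ range n, g r := by
  rw [sum_mul_sum, ← sum_product']
  refine sum_bij' (fun r _ => (r % m, r % n))
    (fun rs _ => (Nat.chineseRemainder hmn rs.1 rs.2 : ℕ)) ?_ ?_ ?_ ?_ ?_
  · intro r _
    rw [mem_product, mem_range, mem_range]
    exact ⟨Nat.mod_lt _ hm, Nat.mod_lt _ hn⟩
  · rintro ⟨r, s⟩ _
    rw [mem_range]
    exact Nat.chineseRemainder_lt_mul hmn r s (by omega) (by omega)
  · intro r hr
    rw [mem_range] at hr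
    have h1 := (Nat.chineseRemainder hmn (r % m) (r % n)).2
    have h2 : (Nat.chineseRemainder hmn (r % m) (r % n) : ℕ) ≡ r [MOD m * n] := by
      rw [← Nat.modEq_and_modEq_iff_modEq_mul hmn]
      exact ⟨h1.1.trans (Nat.mod_modEq _ _), h1.2.trans (Nat.mod_modEq _ _)⟩
    exact Nat.ModEq.eq_of_lt_of_lt h2
      (Nat.chineseRemainder_lt_mul hmn _ _ (by omega) (by omega)) hr
  · rintro ⟨r, s⟩ h
    rw [mem_product, mem_range, mem_range] at h
    have h1 := (Nat.chineseRemainder hmn r s).2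
    rw [Prod.mk.injEq]
    exact ⟨by rw [h1.1, Nat.mod_eq_of_lt h.1], by rw [h1.2, Nat.mod_eq_of_lt h.2]⟩
  · intro r _
    simp only [hf, hg]

lemma cc_mod (P : ℤ[X]) (a : ℤ) {q : ℕ} (hq : 1 ≤ q) (r : ℕ) : cc P a q (r % q) = cc P a q r := by
  have h : ∀ t s : ℕ, cc P a q (s + q * t) = cc P a q s := by
    intro t
    induction t with
    | zero => intro s; simp
    | succ t ih =>
      intro s
      rw [Nat.mul_succ, ← Nat.add_assoc, cc_periodic P a hq, ih]
  have h2 := h (r / q) (r % q)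
  rw [Nat.mod_add_div] at h2
  exact h2.symm

/-- multiplicativity -/
lemma gs_mul (P : ℤ[X]) {m n : ℕ} (hm : 1 ≤ m) (hn : 1 ≤ n) (hmn : Nat.Coprime m n) (a1 a2 : ℤ) :
    gs P (a1 * n + a2 * m) (m * n) = gs P a1 m * gs P a2 n := by
  have hm0 : (m : ℝ) ≠ 0 := by positivity
  have hn0 : (n : ℝ) ≠ 0 := by positivity
  have h1 : ∀ r : ℕ, cc P (a1 * n + a2 * m) (m * n) r = cc P a1 m r * cc P a2 n r := by
    intro r
    unfold cc
    rw [← ee_add]
    congr 1
    push_cast
    field_simp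
  rw [gs_eq, gs_eq, gs_eq, sum_congr rfl (fun r _ => h1 r),
    sum_prod_periodic hm hn hmn _ _ (cc_mod P a1 hm) (cc_mod P a2 hn)]
  push_cast
  ring

lemma exists_split {m n : ℕ} (hmn : Nat.Coprime m n) (a : ℤ) (hc : Int.gcd a ((m * n : ℕ) : ℤ) = 1) :
    ∃ a1 a2 : ℤ, a = a1 * n + a2 * m ∧ Int.gcd a1 m = 1 ∧ Int.gcd a2 n = 1 := by
  have h1 : IsCoprime (m : ℤ) (n : ℤ) := Nat.isCoprime_iff_coprime.2 hmn
  obtain ⟨u, w, huw⟩ := h1
  have ha : a = (a * w) * n + (a * u) * m := by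
    calc a = a * (u * m + w * n) := by rw [huw, mul_one]
      _ = _ := by ring
  have hac : IsCoprime a ((m : ℤ) * (n : ℤ)) := by
    rw [Int.isCoprime_iff_gcd_eq_one]
    push_cast at hc
    exact hc
  have ham : IsCoprime a (m : ℤ) := hac.of_isCoprime_of_dvd_right (dvd_mul_right _ _)
  have han : IsCoprime a (n : ℤ) := hac.of_isCoprime_of_dvd_right (dvd_mul_left _ _)
  refine ⟨a * w, a * u, ha, ?_, ?_⟩
  · rw [← Int.isCoprime_iff_gcd_eq_one]
    exact ham.mul_left ⟨n, u, by rw [← huw]; ring⟩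
  · rw [← Int.isCoprime_iff_gcd_eq_one]
    exact han.mul_left ⟨m, w, by rw [← huw]; ring⟩

lemma sum_range_mul' {E : Type*} [AddCommMonoid E] (F : ℕ → E) (m k : ℕ) :
    ∑ x ∈ range (m * k), F x = ∑ z ∈ range k, ∑ y ∈ range m, F (y + m * z) := by
  induction k with
  | zero => simp
  | succ k ih =>
    rw [Nat.mul_succ, sum_range_add, ih, sum_range_succ]
    congr 1
    apply sum_congr rfl
    intro y _
    rw [add_comm]

end LocalAux

open LocalAux MajorArcAux ParsevalAux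

theorem gs_le_prod (P : ℤ[X]) (b : ℕ → ℕ → ℝ)
    (hb : ∀ p e : ℕ, p.Prime → 1 ≤ e → ∀ a : ℤ, ¬ (p : ℤ) ∣ a → ‖gs P a (p ^ e)‖ ≤ b p e)
    (a : ℤ) (q : ℕ) (hq : 1 ≤ q) (hc : Int.gcd a q = 1) :
    ‖gs P a q‖ ≤ ∏ p ∈ q.primeFactors, b p (q.factorization p) := by
  induction q using Nat.recOnPosPrimePosCoprime generalizing a with
  | prime_pow p n hp hn =>
    rw [Nat.primeFactors_prime_pow hn.ne' hp, prod_singleton, hp.factorization_pow]
    simp only [Finsupp.single_eq_same]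
    apply hb p n hp hn a
    intro hdvd
    have h1 : (p : ℤ) ∣ ((p ^ n : ℕ) : ℤ) := by
      push_cast
      exact dvd_pow_self _ hn.ne'
    have h2 := Int.dvd_gcd hdvd h1
    rw [hc] at h2
    have h3 : p = 1 := by simpa using h2
    exact hp.one_lt.ne' h3
  | zero => omega
  | one =>
    rw [Nat.primeFactors_one, prod_empty, gs_eq]
    simp only [range_one, sum_singleton, Nat.cast_one, div_one]
    exact le_of_eq (norm_ee _)
  | coprime m n hm hn hmn ihm ihn =>
    obtain ⟨a1, a2, ha, h1, h2⟩ := exists_split hmn a hc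
    rw [ha, gs_mul P (by omega) (by omega) hmn, norm_mul, Nat.Coprime.primeFactors_mul hmn,
      prod_union hmn.disjoint_primeFactors]
    have e1 := ihm a1 (by omega) h1
    have e2 := ihn a2 (by omega) h2
    have e3 : ∏ p ∈ m.primeFactors, b p ((m * n).factorization p) =
        ∏ p ∈ m.primeFactors, b p (m.factorization p) := by
      apply prod_congr rfl
      intro p hp
      rw [Nat.factorization_eq_of_coprime_left hmn (by simpa using hp)]
    have e4 : ∏ p ∈ n.primeFactors, b p ((m * n).factorization p) =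
        ∏ p ∈ n.primeFactors, b p (n.factorization p) := by
      apply prod_congr rfl
      intro p hp
      rw [Nat.factorization_eq_of_coprime_right hmn (by simpa using hp)]
    rw [e3, e4]
    exact mul_le_mul e1 e2 (norm_nonneg _) ((norm_nonneg _).trans e1)

theorem gs_prime_pow (P : ℤ[X]) (p e : ℕ) (hp : p.Prime) (he : 2 ≤ e) (a : ℤ)
    (ha : ¬ (p : ℤ) ∣ a) (h : ∃ j : ℕ, ¬ (p : ℤ) ∣ (j : ℤ) * P.coeff j) :
    ‖gs P a (p ^ e)‖ ≤ (P.natDegree : ℝ) / p := by
  obtain ⟨f, rfl⟩ : ∃ f, e = f + 1 := ⟨e - 1, by omega⟩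
  have hf : 1 ≤ f := by omega
  have hp0 : (0 : ℝ) < p := by exact_mod_cast hp.pos
  have hpne : (p : ℝ) ≠ 0 := hp0.ne'
  -- expansion
  have h1 : ∀ y z : ℕ, cc P a (p ^ (f + 1)) (y + p ^ f * z) =
      cc P a (p ^ (f + 1)) y * ee (((a * P.derivative.eval (y : ℤ) : ℤ) : ℝ) * z / p) := by
    intro y z
    obtain ⟨k, hk⟩ := Polynomial.binomExpansion P (y : ℤ) (((p ^ f * z : ℕ) : ℤ))
    unfold cc
    rw [← ee_add]
    have h2 : ((y + p ^ f * z : ℕ) : ℤ) = (y : ℤ) + ((p ^ f * z : ℕ) : ℤ) := by push_cast; ring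
    rw [h2, hk]
    obtain ⟨g, rfl⟩ : ∃ g, f = g + 1 := ⟨f - 1, by omega⟩
    have h3 : (a : ℝ) * (((P.eval (y : ℤ) + P.derivative.eval (y : ℤ) * ((p ^ (g + 1) * z : ℕ) : ℤ) +
        k * ((p ^ (g + 1) * z : ℕ) : ℤ) ^ 2 : ℤ)) : ℝ) / ((p ^ (g + 1 + 1) : ℕ) : ℝ) =
        ((a : ℝ) * ((P.eval (y : ℤ) : ℤ) : ℝ) / ((p ^ (g + 1 + 1) : ℕ) : ℝ) +
          ((a * P.derivative.eval (y : ℤ) : ℤ) : ℝ) * z / p) +
          ((a * k * p ^ g * z ^ 2 : ℤ) : ℝ) := by
      push_cast
      field_simp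
      ring
    rw [h3, ee_add_int]
  have h2 : ∑ x ∈ range (p ^ (f + 1)), cc P a (p ^ (f + 1)) x =
      ∑ y ∈ range (p ^ f), cc P a (p ^ (f + 1)) y *
        (if (p : ℤ) ∣ P.derivative.eval (y : ℤ) then (p : ℂ) else 0) := by
    rw [show p ^ (f + 1) = p ^ f * p from pow_succ _ _, sum_range_mul' _ (p ^ f) p, sum_comm]
    apply sum_congr rfl
    intro y _
    rw [← show p ^ (f + 1) = p ^ f * p from pow_succ _ _]
    simp only [h1]
    rw [← mul_sum, orth hp.one_le]
    congr 1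
    have hpp : Prime (p : ℤ) := Nat.prime_iff_prime_int.1 hp
    by_cases h3 : (p : ℤ) ∣ P.derivative.eval (y : ℤ)
    · rw [if_pos h3, if_pos (h3.mul_left _)]
    · rw [if_neg h3, if_neg]
      intro h4
      rcases hpp.dvd_or_dvd h4 with h5 | h5
      · exact ha h5
      · exact h3 h5
  -- counting
  have hfact : Fact p.Prime := ⟨hp⟩
  have hroots : ((range p).filter (fun y : ℕ => (p : ℤ) ∣ P.derivative.eval (y : ℤ))).card ≤
      P.natDegree := by
    classical
    set D : (ZMod p)[X] := P.derivative.map (Int.castRingHom (ZMod p)) with hD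
    have hD0 : D ≠ 0 := by
      obtain ⟨j, hj⟩ := h
      intro h0
      apply hj
      rcases Nat.eq_zero_or_pos j with hj0 | hj0
      · subst hj0; simp
      have h3 : D.coeff (j - 1) = 0 := by rw [h0, coeff_zero]
      rw [hD, coeff_map, coeff_derivative] at h3
      have h4 : j - 1 + 1 = j := by omega
      rw [h4] at h3
      have h5 : ((P.coeff j * (((j - 1 : ℕ) : ℤ) + 1) : ℤ) : ZMod p) = 0 := h3
      rw [ZMod.intCast_zmod_eq_zero_iff_dvd] at h5
      have h6 : P.coeff j * (((j - 1 : ℕ) : ℤ) + 1) = (j : ℤ) * P.coeff j := by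
        have : (((j - 1 : ℕ) : ℤ) + 1) = j := by omega
        rw [this]; ring
      rwa [h6] at h5
    have hcard : ((range p).filter (fun y : ℕ => (p : ℤ) ∣ P.derivative.eval (y : ℤ))).card ≤
        D.roots.toFinset.card := by
      apply card_le_card_of_injOn (fun y : ℕ => (y : ZMod p))
      · intro y hy
        rw [mem_coe, mem_filter] at hy
        rw [mem_coe, Multiset.mem_toFinset, mem_roots hD0, IsRoot.def, hD, eval_map]
        have h3 := (ZMod.intCast_zmod_eq_zero_iff_dvd (P.derivative.eval (y : ℤ)) p).2 hy.2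
        rw [← h3]
        have h4 : ((y : ℕ) : ZMod p) = (Int.castRingHom (ZMod p)) (y : ℤ) := by simp
        show eval₂ (Int.castRingHom (ZMod p)) ((y : ℕ) : ZMod p) P.derivative = _
        rw [h4, eval₂_at_apply]
        rfl
      · intro y hy y' hy' heq
        rw [mem_coe, mem_filter, mem_range] at hy hy'
        have h3 := (ZMod.natCast_eq_natCast_iff _ _ _).1 heq
        exact Nat.ModEq.eq_of_lt_of_lt h3 hy.1 hy'.1
    calc _ ≤ D.roots.toFinset.card := hcard
      _ ≤ Multiset.card D.roots := Multiset.toFinset_card_le _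
      _ ≤ D.natDegree := card_roots' D
      _ ≤ P.derivative.natDegree := natDegree_map_le
      _ ≤ P.natDegree := (natDegree_derivative_le _).trans (Nat.sub_le _ _)
  have hper : ∀ y z : ℕ, (if (p : ℤ) ∣ P.derivative.eval ((y + p * z : ℕ) : ℤ) then (1 : ℝ) else 0) =
      if (p : ℤ) ∣ P.derivative.eval (y : ℤ) then (1 : ℝ) else 0 := by
    intro y z
    have h3 : (p : ℤ) ∣ P.derivative.eval ((y + p * z : ℕ) : ℤ) - P.derivative.eval (y : ℤ) := by
      have h4 := sub_dvd_eval_sub ((y + p * z : ℕ) : ℤ) (y : ℤ) P.derivative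
      refine dvd_trans ?_ h4
      push_cast
      exact ⟨z, by ring⟩
    have h4 : (p : ℤ) ∣ P.derivative.eval ((y + p * z : ℕ) : ℤ) ↔
        (p : ℤ) ∣ P.derivative.eval (y : ℤ) := by
      constructor
      · intro h5
        have := dvd_sub h5 h3
        rwa [sub_sub_cancel] at this
      · intro h5
        have := dvd_add h3 h5
        rwa [sub_add_cancel] at this
    simp only [h4]
  have hcount : ∑ y ∈ range (p ^ f), (if (p : ℤ) ∣ P.derivative.eval (y : ℤ) then (1 : ℝ) else 0) ≤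
      (p : ℝ) ^ (f - 1) * P.natDegree := by
    have h3 : p ^ f = p * p ^ (f - 1) := by rw [← pow_succ']; congr 1; omega
    rw [h3, sum_range_mul']
    simp only [hper]
    rw [sum_const, card_range, nsmul_eq_mul, ← sum_filter, sum_const, nsmul_eq_mul, mul_one]
    push_cast
    apply mul_le_mul_of_nonneg_left _ (by positivity)
    exact_mod_cast hroots
  rw [gs_eq, norm_div, h2]
  have h3 : ‖((p ^ (f + 1) : ℕ) : ℂ)‖ = (p : ℝ) ^ (f + 1) := by
    rw [Complex.norm_natCast]; push_cast; ring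
  rw [h3, div_le_div_iff₀ (by positivity) hp0]
  have h4 : ‖∑ y ∈ range (p ^ f), cc P a (p ^ (f + 1)) y *
      (if (p : ℤ) ∣ P.derivative.eval (y : ℤ) then (p : ℂ) else 0)‖ ≤
      p * ∑ y ∈ range (p ^ f), (if (p : ℤ) ∣ P.derivative.eval (y : ℤ) then (1 : ℝ) else 0) := by
    refine (norm_sum_le _ _).trans ?_
    rw [mul_sum]
    apply sum_le_sum
    intro y _
    have e1 : ‖cc P a (p ^ (f + 1)) y‖ = 1 := norm_ee _
    rw [norm_mul, e1, one_mul]
    split_ifs <;> simp
  calc ‖∑ y ∈ range (p ^ f), cc P a (p ^ (f + 1)) y *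
      (if (p : ℤ) ∣ P.derivative.eval (y : ℤ) then (p : ℂ) else 0)‖ * p
      ≤ (p * ((p : ℝ) ^ (f - 1) * P.natDegree)) * p := by
        apply mul_le_mul_of_nonneg_right _ hp0.le
        exact h4.trans (mul_le_mul_of_nonneg_left hcount hp0.le)
    _ = P.natDegree * (p : ℝ) ^ (f + 1) := by
        have h5 : (p : ℝ) ^ (f + 1) = p * p ^ (f - 1) * p := by
          rw [← pow_succ', ← pow_succ]; congr 1; omega
        rw [h5]; ring

end Vale.Agent.P042
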