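import Vale.Agent.P042.Defs

namespace Vale.Agent.P042
namespace MainAux

open Finset Polynomial

/-- the sub-progression: `{j ∈ [1,n] : c + d (j-1) ∈ A}` -/
noncomputable def pull (A : Finset ℤ) (c d : ℤ) (n : ℕ) : Finset ℤ :=
  (Finset.Icc (1 : ℤ) n).filter (fun j => c + d * (j - 1) ∈ A)

lemma pull_subset (A : Finset ℤ) (c d : ℤ) (n : ℕ) : pull A c d n ⊆ Finset.Icc (1 : ℤ) n :=
  Finset.filter_subset _ _

/-- splitting a progression of difference `v` with `l` terms into `t` progressions of
difference `v t` -/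
lemma card_split (A : Finset ℤ) (v t l : ℕ) (ht : 1 ≤ t) (c : ℤ) :
    ((A.filter (fun x => ∃ i : ℕ, i < l ∧ x = c + v * i)).card)
      ≤ ∑ s ∈ Finset.range t, (pull A (c + v * s) (v * t : ℕ) ((l + t - 1 - s) / t)).card := by
  classical
  have hsub : A.filter (fun x => ∃ i : ℕ, i < l ∧ x = c + v * i) ⊆
      (Finset.range t).biUnion (fun s => (pull A (c + v * s) (v * t : ℕ)
        ((l + t - 1 - s) / t)).image (fun j => c + v * s + (v * t : ℕ) * (j - 1))) := by
    intro x hx
    rw [Finset.mem_filter] at hx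
    obtain ⟨hxA, i, hi, rfl⟩ := hx
    rw [Finset.mem_biUnion]
    refine ⟨i % t, Finset.mem_range.2 (Nat.mod_lt _ ht), ?_⟩
    rw [Finset.mem_image]
    have h1 : (i : ℤ) = ((i % t : ℕ) : ℤ) + t * ((i / t : ℕ) : ℤ) := by
      have := Nat.mod_add_div i t
      exact_mod_cast this.symm
    refine ⟨((i / t : ℕ) : ℤ) + 1, ?_, ?_⟩
    · unfold pull
      rw [Finset.mem_filter, Finset.mem_Icc]
      refine ⟨⟨?_, ?_⟩, ?_⟩
      · have : (0 : ℤ) ≤ ((i / t : ℕ) : ℤ) := Int.natCast_nonneg _
        linarith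
      · have h2 : i / t + 1 ≤ (l + t - 1 - i % t) / t := by
          rw [Nat.le_div_iff_mul_le ht]
          have h3 := Nat.mod_add_div i t
          have h4 : (i / t + 1) * t = t * (i / t) + t := by ring
          have h5 := Nat.mod_lt i ht
          omega
        exact_mod_cast h2
      · have h6 : c + (v : ℤ) * ((i % t : ℕ) : ℤ) + ((v * t : ℕ) : ℤ) * ((((i / t : ℕ) : ℤ) + 1) - 1)
            = c + v * i := by
          rw [h1]; push_cast; ring
        rw [h6]; exact hxA
    · rw [h1]; push_cast; ring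
  refine (Finset.card_le_card hsub).trans (Finset.card_biUnion_le.trans ?_)
  exact Finset.sum_le_sum (fun s _ => Finset.card_image_le)

lemma sum_len (t l : ℕ) (ht : 1 ≤ t) :
    ∑ s ∈ Finset.range t, (l + t - 1 - s) / t = l := by
  -- number of `i < l` with `i % t = s`
  have h1 : ∀ s ∈ Finset.range t, (l + t - 1 - s) / t
      = ((Finset.range l).filter (fun i => i % t = s)).card := by
    intro s hs
    rw [Finset.mem_range] at hs
    have h2 := Nat.count_modEq_card l (r := t) ht s
    have h3 : ((Finset.range l).filter (fun i => i % t = s)).card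
        = Nat.count (fun i => i ≡ s [MOD t]) l := by
      rw [Nat.count_eq_card_filter_range]
      congr 1
      apply Finset.filter_congr
      intro i _
      unfold Nat.ModEq
      rw [Nat.mod_eq_of_lt hs]
    rw [h3, h2, Nat.mod_eq_of_lt hs]
    have h4 := Nat.mod_add_div l t
    have h5 := Nat.mod_lt l ht
    have h7 : (l / t + 1) * t = t * (l / t) + t := by ring
    have h8 : (l / t + 0) * t = t * (l / t) := by ring
    split_ifs with h6
    · rw [Nat.div_eq_iff (by omega), h7]
      omega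
    · rw [Nat.div_eq_iff (by omega), h8]
      omega
  rw [Finset.sum_congr rfl h1]
  have h7 := Finset.card_eq_sum_card_fiberwise (s := Finset.range l) (t := Finset.range t)
    (f := fun i => i % t) (fun i _ => by
      simp only [Finset.coe_range, Set.mem_Iio]; exact Nat.mod_lt i ht)
  rw [Finset.card_range] at h7
  exact h7.symm

lemma exists_dense_sub (A : Finset ℤ) (v t l : ℕ) (ht : 1 ≤ t) (c : ℤ) (D : ℝ)
    (h : D * l < ((A.filter (fun x => ∃ i : ℕ, i < l ∧ x = c + v * i)).card : ℝ)) :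
    ∃ (c' : ℤ) (n : ℕ), l / t ≤ n ∧ D * n < ((pull A c' (v * t : ℕ) n).card : ℝ) := by
  by_contra hcon
  push Not at hcon
  have h1 := card_split A v t l ht c
  have h2 : (((A.filter (fun x => ∃ i : ℕ, i < l ∧ x = c + v * i)).card : ℕ) : ℝ) ≤
      ∑ s ∈ Finset.range t, D * (((l + t - 1 - s) / t : ℕ) : ℝ) := by
    calc (((A.filter (fun x => ∃ i : ℕ, i < l ∧ x = c + v * i)).card : ℕ) : ℝ)
        ≤ ((∑ s ∈ Finset.range t, (pull A (c + v * s) (v * t : ℕ)
            ((l + t - 1 - s) / t)).card : ℕ) : ℝ) := by exact_mod_cast h1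
      _ = ∑ s ∈ Finset.range t, ((pull A (c + v * s) (v * t : ℕ)
            ((l + t - 1 - s) / t)).card : ℝ) := by push_cast; rfl
      _ ≤ _ := by
        apply Finset.sum_le_sum
        intro s hs
        rw [Finset.mem_range] at hs
        refine hcon _ _ ?_
        exact Nat.div_le_div_right (by omega)
  rw [← Finset.mul_sum] at h2
  have h3 : (∑ s ∈ Finset.range t, (((l + t - 1 - s) / t : ℕ) : ℝ)) = l := by
    exact_mod_cast sum_len t l ht
  rw [h3] at h2
  linarith

lemma avoids_pull (P P' : ℤ[X]) (A : Finset ℤ) (v lam : ℕ) (hlam : 1 ≤ lam) (r : ℤ)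
    (hr : -(v : ℤ) < r) (hv : 1 ≤ v)
    (hPP : ∀ x : ℤ, P.eval (r + v * x) = lam * P'.eval x)
    (hA : Avoids P A) (c : ℤ) (n : ℕ) : Avoids P' (pull A c lam n) := by
  intro a ha b hb m hm hab
  unfold pull at ha hb
  rw [Finset.mem_filter] at ha hb
  have h1 : 0 ≤ r + v * m - 1 := by
    have : (v : ℤ) * m ≥ v := by
      have h2 : (1 : ℤ) ≤ m := by exact_mod_cast hm
      have h3 : (0 : ℤ) ≤ v := by positivity
      nlinarith
    linarith
  obtain ⟨m', hm'⟩ := Int.eq_ofNat_of_zero_le h1
  have h2 : r + v * m = ((m' + 1 : ℕ) : ℤ) := by push_cast; linarith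
  have h3 := hA _ ha.2 _ hb.2 (m' + 1) (by omega) (by
    rw [← h2, hPP, ← hab]; ring)
  have h4 : (lam : ℤ) * (a - b) = 0 := by linarith
  rcases mul_eq_zero.mp h4 with h5 | h5
  · have : (lam : ℤ) ≠ 0 := by positivity
    exact absurd h5 this
  · exact h5

end MainAux
end Vale.Agent.P042
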