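import Vale.Agent.P042.WeylInv

/-! Module C2 of P042: minor arc estimate and decay of complete sums. -/

namespace Vale.Agent.P042

open Finset Polynomial

namespace MinorAux

open WeylAux

theorem eval_cast (P : ℤ[X]) (n : ℕ) (θ : ℝ) :
    θ * ((P.eval (n : ℤ) : ℤ) : ℝ) =
      θ * P.coeff 0 + ∑ j ∈ Icc 1 P.natDegree, (θ * P.coeff j) * (n : ℝ) ^ j := by
  rw [Polynomial.eval_eq_sum_range, Finset.range_eq_Ico,
    Finset.sum_eq_sum_Ico_succ_bot (Nat.succ_pos _)]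
  push_cast
  rw [mul_add, pow_zero, mul_one, Finset.mul_sum]
  congr 1
  refine Finset.sum_congr ?_ fun j _ => by ring
  ext j
  simp only [mem_Ico, mem_Icc]
  omega

theorem norm_ES (P : ℤ[X]) (M : ℕ) (θ : ℝ) :
    ‖ES P M θ‖ = ‖∑ n ∈ Icc 1 M, ee (∑ j ∈ Icc 1 P.natDegree, (θ * P.coeff j) * (n : ℝ) ^ j)‖ := by
  unfold ES
  simp_rw [eval_cast, ee_add]
  rw [← Finset.mul_sum, norm_mul, norm_ee, one_mul]

theorem periodic (P : ℤ[X]) (a : ℤ) (q : ℕ) (hq : 1 ≤ q) (n : ℕ) :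
    ee ((a : ℝ) / q * ((P.eval ((n + q : ℕ) : ℤ) : ℤ) : ℝ)) =
      ee ((a : ℝ) / q * ((P.eval (n : ℤ) : ℤ) : ℝ)) := by
  obtain ⟨w, hw⟩ := Polynomial.sub_dvd_eval_sub ((n + q : ℕ) : ℤ) (n : ℤ) P
  have h1 : P.eval ((n + q : ℕ) : ℤ) = P.eval (n : ℤ) + q * w := by
    have : ((n + q : ℕ) : ℤ) - (n : ℤ) = q := by push_cast; ring
    rw [this] at hw
    linarith
  have hq0 : (q : ℝ) ≠ 0 := by
    have : (0 : ℝ) < q := by exact_mod_cast hq
    exact this.ne'
  rw [h1]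
  have h2 : (a : ℝ) / q * ((P.eval (n : ℤ) + q * w : ℤ) : ℝ) =
      (a : ℝ) / q * ((P.eval (n : ℤ) : ℤ) : ℝ) + ((a * w : ℤ) : ℝ) := by
    push_cast
    field_simp
  rw [h2, ee_add_int]

theorem sum_periodic (F : ℕ → ℂ) (q : ℕ) (hF : ∀ n, F (n + q) = F n) (T : ℕ) :
    ∑ n ∈ Icc 1 (q * T), F n = T * ∑ n ∈ range q, F n := by
  have h1 : ∀ n T, F (q * T + n) = F n := by
    intro n T
    induction T with
    | zero => simp
    | succ T ih => rw [Nat.mul_succ, Nat.add_right_comm, hF, ih]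
  have h2 : ∀ T, ∑ n ∈ range (q * T), F n = T * ∑ n ∈ range q, F n := by
    intro T
    induction T with
    | zero => simp
    | succ T ih =>
      rw [Nat.mul_succ, Finset.sum_range_add, ih]
      simp_rw [h1]
      push_cast
      ring
  have h3 : ∀ N, (∑ n ∈ Icc 1 N, F n) + F 0 = (∑ n ∈ range N, F n) + F N := by
    intro N
    induction N with
    | zero => simp
    | succ N ih =>
      rw [Finset.sum_Icc_succ_top (by omega), Finset.sum_range_succ]
      linear_combination ih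
  have h4 := h3 (q * T)
  have h5 := h1 0 T
  rw [Nat.add_zero] at h5
  rw [h5, h2] at h4
  exact add_right_cancel h4

theorem ES_periodic (P : ℤ[X]) (a : ℤ) (q : ℕ) (hq : 1 ≤ q) (T : ℕ) :
    ‖ES P (q * T) ((a : ℝ) / q)‖ = ‖gs P a q‖ * (q * T) := by
  unfold ES gs
  rw [sum_periodic _ q (fun n => periodic P a q hq n)]
  have hq0 : (0 : ℝ) < q := by exact_mod_cast hq
  have h1 : ∀ r : ℕ, (a : ℝ) / q * ((P.eval (r : ℤ) : ℤ) : ℝ) =
      (a : ℝ) * ((P.eval (r : ℤ) : ℤ) : ℝ) / q := fun r => by ring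
  simp_rw [h1]
  rw [norm_mul, norm_div, Complex.norm_natCast, Complex.norm_natCast]
  field_simp

theorem norm_gs_le_one (P : ℤ[X]) (a : ℤ) (q : ℕ) (hq : 1 ≤ q) : ‖gs P a q‖ ≤ 1 := by
  unfold gs
  have hq0 : (0 : ℝ) < q := by exact_mod_cast hq
  rw [norm_div, Complex.norm_natCast, div_le_one hq0]
  refine (norm_sum_le _ _).trans ?_
  simp [norm_ee]

end MinorAux

open MinorAux in
theorem minor_arc (k : ℕ) (hk : 1 ≤ k) : ∃ C : ℕ, 1 ≤ C ∧
    ∀ (P : ℤ[X]) (D : ℕ) (B δ : ℝ) (M : ℕ) (θ : ℝ), P.natDegree = k → 0 < P.leadingCoeff →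
    ContentLE P D → 1 ≤ D → 1 ≤ B → (∀ j, |((P.coeff j : ℤ) : ℝ)| ≤ B) → 0 < δ → δ ≤ 1 →
    ((2 / δ) * B * D) ^ C ≤ (M : ℝ) → δ * M ≤ ‖ES P M θ‖ →
    ∃ (a : ℤ) (q : ℕ), 1 ≤ q ∧ Int.gcd a q = 1 ∧ (q : ℝ) ≤ D * (2 / δ) ^ C ∧
      |θ - a / q| ≤ (2 / δ) ^ C / (((P.leadingCoeff : ℤ) : ℝ) * (M : ℝ) ^ k) := by
  obtain ⟨C0, hC0, hW⟩ := weyl_inverse k hk
  refine ⟨2 * C0 + 3, by omega, ?_⟩
  intro P D B δ M θ hdeg hlc hcont hD hB hcoef hδ0 hδ1 hM hS
  have hx2 : (2 : ℝ) ≤ 2 / δ := by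
    rw [le_div_iff₀ hδ0]; linarith
  have hx1 : (1 : ℝ) ≤ 2 / δ := by linarith
  have hD1 : (1 : ℝ) ≤ D := by exact_mod_cast hD
  set X : ℝ := (2 / δ) ^ C0 with hX
  have hX1 : 1 ≤ X := one_le_pow₀ hx1
  have hbase : (1 : ℝ) ≤ (2 / δ) * B * D := by
    have h1 : (1 : ℝ) ≤ (2 / δ) * B := one_le_mul_of_one_le_of_one_le hx1 hB
    exact one_le_mul_of_one_le_of_one_le h1 hD1
  have hMpos : (1 : ℝ) ≤ M := (one_le_pow₀ hbase).trans hM
  have hM1 : 1 ≤ M := by exact_mod_cast hMpos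
  -- Weyl
  rw [norm_ES, hdeg] at hS
  obtain ⟨q0, hq01, hq02, hq03⟩ := hW δ M (fun j => θ * P.coeff j) hδ0 hδ1 hM1 hS
  choose! zf hzf using hq03
  -- Dirichlet
  set R : ℕ := ⌈2 * X * B⌉₊ with hR
  have hXB : 1 ≤ X * B := one_le_mul_of_one_le_of_one_le hX1 hB
  have hR1 : 2 * X * B ≤ R := Nat.le_ceil _
  have hR2 : (R : ℝ) ≤ 3 * (X * B) := by
    have := (Nat.ceil_lt_add_one (a := 2 * X * B) (by positivity)).le
    linarith
  have hRpos : 0 < R := by
    have : (0 : ℝ) < R := by linarith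
    exact_mod_cast this
  obtain ⟨y, hy1, hy2⟩ := Real.exists_rat_abs_sub_le_and_den_le θ hRpos
  have hden : (0 : ℝ) < y.den := by exact_mod_cast y.den_pos
  have hyR : (y.den : ℝ) ≤ R := by exact_mod_cast hy2
  have hycast : (y : ℝ) = (y.num : ℝ) / (y.den : ℝ) := by
    exact_mod_cast (Rat.num_div_den y).symm
  have hMbig : 6 * X ^ 2 * B ≤ M := by
    refine le_trans ?_ hM
    calc 6 * X ^ 2 * B ≤ (2 / δ) ^ 3 * X ^ 2 * B := by
          have h8 : (6 : ℝ) ≤ (2 / δ) ^ 3 := by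
            calc (6 : ℝ) ≤ 2 ^ 3 := by norm_num
              _ ≤ (2 / δ) ^ 3 := pow_le_pow_left₀ (by norm_num) hx2 3
          have : (0 : ℝ) ≤ X ^ 2 * B := by positivity
          nlinarith
      _ = (2 / δ) ^ (2 * C0 + 3) * B := by
          rw [hX, ← pow_mul, ← pow_add]; congr 2; ring
      _ ≤ (2 / δ) ^ (2 * C0 + 3) * B ^ (2 * C0 + 3) := by
          refine mul_le_mul_of_nonneg_left ?_ (by positivity)
          exact le_self_pow₀ hB (by omega)
      _ ≤ (2 / δ) ^ (2 * C0 + 3) * B ^ (2 * C0 + 3) * (D : ℝ) ^ (2 * C0 + 3) :=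
          le_mul_of_one_le_right (by positivity) (one_le_pow₀ hD1)
      _ = ((2 / δ) * B * D) ^ (2 * C0 + 3) := by rw [mul_pow, mul_pow]
  have hM0 : (0 : ℝ) < M := by linarith
  -- exactness
  have hexact : ∀ j ∈ Icc 1 k, (q0 : ℤ) * P.coeff j * y.num = zf j * y.den := by
    intro j hj
    have h1 := hzf j hj
    have hMj : (M : ℝ) ≤ (M : ℝ) ^ j := le_self_pow₀ hMpos (by
      have := (mem_Icc.1 hj).1; omega)
    have h2 : |(q0 : ℝ) * (θ * P.coeff j) - zf j| ≤ X / M :=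
      h1.trans (div_le_div_of_nonneg_left (by positivity) hM0 hMj)
    have h3 : |((q0 * P.coeff j * y.num - zf j * y.den : ℤ) : ℝ)| < 1 := by
      have e1 : ((q0 * P.coeff j * y.num - zf j * y.den : ℤ) : ℝ) =
          y.den * ((q0 * (θ * P.coeff j) - zf j) - q0 * P.coeff j * (θ - y)) := by
        rw [hycast]
        push_cast
        field_simp
        ring
      rw [e1, abs_mul, Nat.abs_cast]
      have h4 : |(q0 : ℝ) * P.coeff j * (θ - y)| ≤ X * B * (1 / ((R + 1) * y.den)) := by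
        rw [abs_mul, abs_mul, Nat.abs_cast]
        refine mul_le_mul ?_ hy1 (abs_nonneg _) (by positivity)
        exact mul_le_mul hq02 (hcoef j) (abs_nonneg _) (by positivity)
      have h5 : |(q0 * (θ * P.coeff j) - zf j) - (q0 : ℝ) * P.coeff j * (θ - y)| ≤
          X / M + X * B * (1 / ((R + 1) * y.den)) := (abs_sub _ _).trans (add_le_add h2 h4)
      calc (y.den : ℝ) * |(q0 * (θ * P.coeff j) - zf j) - (q0 : ℝ) * P.coeff j * (θ - y)|
          ≤ y.den * (X / M + X * B * (1 / ((R + 1) * y.den))) :=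
            mul_le_mul_of_nonneg_left h5 hden.le
        _ = y.den * X / M + X * B / (R + 1) := by field_simp
        _ < 1 := by
            have h6 : y.den * X / M ≤ 1 / 2 := by
              rw [div_le_div_iff₀ hM0 (by norm_num)]
              have : (y.den : ℝ) * X ≤ 3 * (X * B) * X :=
                mul_le_mul_of_nonneg_right (hyR.trans hR2) (by positivity)
              nlinarith
            have h7 : X * B / (R + 1) < 1 / 2 := by
              rw [div_lt_div_iff₀ (by positivity) (by norm_num)]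
              linarith
            linarith
    have h4 : (q0 * P.coeff j * y.num - zf j * y.den : ℤ) = 0 := by
      have : |(q0 * P.coeff j * y.num - zf j * y.den : ℤ)| < 1 := by exact_mod_cast h3
      exact Int.abs_lt_one_iff.1 this
    linarith
  have hcop : IsCoprime (y.den : ℤ) y.num := by
    have := y.reduced
    rw [Int.isCoprime_iff_gcd_eq_one, Int.gcd_comm]
    exact this
  have hdvd : ∀ j, 1 ≤ j → (y.den : ℤ) ∣ q0 * P.coeff j := by
    intro j hj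
    by_cases hjk : j ≤ k
    · have h1 : (y.den : ℤ) ∣ q0 * P.coeff j * y.num :=
        ⟨zf j, by rw [hexact j (mem_Icc.2 ⟨hj, hjk⟩)]; ring⟩
      exact hcop.dvd_of_dvd_mul_right h1
    · have : P.coeff j = 0 := Polynomial.coeff_eq_zero_of_natDegree_lt (by omega)
      rw [this, mul_zero]
      exact dvd_zero _
  -- the content
  have hgpos : 0 < Nat.gcd y.den q0 := Nat.gcd_pos_of_pos_left _ y.den_pos
  obtain ⟨d, hd⟩ : ∃ d, d = Nat.gcd y.den q0 := ⟨_, rfl⟩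
  obtain ⟨g, hg⟩ : ∃ g, g = y.den / d := ⟨_, rfl⟩
  obtain ⟨q1, hq1⟩ : ∃ q1, q1 = q0 / d := ⟨_, rfl⟩
  have hyd : y.den = d * g := by
    rw [hg, Nat.mul_div_cancel' (hd ▸ Nat.gcd_dvd_left _ _)]
  have hq0d : q0 = d * q1 := by
    rw [hq1, Nat.mul_div_cancel' (hd ▸ Nat.gcd_dvd_right _ _)]
  have hcop2 : IsCoprime (g : ℤ) (q1 : ℤ) := by
    rw [Nat.isCoprime_iff_coprime, hg, hq1, hd]
    exact Nat.coprime_div_gcd_div_gcd hgpos
  have hd0 : 0 < d := hd ▸ hgpos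
  have hgD : g ≤ D := by
    refine hcont g fun j hj => ?_
    have h1 := hdvd j hj
    rw [hyd, hq0d] at h1
    push_cast at h1
    rw [mul_assoc] at h1
    have h2 : (g : ℤ) ∣ q1 * P.coeff j :=
      Int.dvd_of_mul_dvd_mul_left (by exact_mod_cast hd0.ne') h1
    exact hcop2.dvd_of_dvd_mul_left h2
  have hdq : d ≤ q0 := hd ▸ Nat.gcd_le_right _ hq01
  have hyle : (y.den : ℝ) ≤ D * X := by
    have h1 : y.den ≤ q0 * D := by
      rw [hyd]; exact Nat.mul_le_mul hdq hgD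
    calc (y.den : ℝ) ≤ ((q0 * D : ℕ) : ℝ) := by exact_mod_cast h1
      _ = D * q0 := by push_cast; ring
      _ ≤ D * X := mul_le_mul_of_nonneg_left hq02 (by positivity)
  have hXC : X ≤ (2 / δ) ^ (2 * C0 + 3) := pow_le_pow_right₀ hx1 (by omega)
  refine ⟨y.num, y.den, y.den_pos, y.reduced, ?_, ?_⟩
  · exact hyle.trans (mul_le_mul_of_nonneg_left hXC (by positivity))
  · rw [← hycast]
    have hkk : k ∈ Icc 1 k := mem_Icc.2 ⟨hk, le_rfl⟩
    have h1 := hzf k hkk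
    have h2 := hexact k hkk
    have hlcR : (0 : ℝ) < ((P.leadingCoeff : ℤ) : ℝ) := by exact_mod_cast hlc
    have hck : P.coeff k = P.leadingCoeff := by rw [← hdeg]; rfl
    rw [hck] at h1 h2
    have h3 : (zf k : ℝ) = q0 * P.leadingCoeff * y := by
      rw [hycast]
      have h4 : ((q0 : ℤ) * P.leadingCoeff * y.num : ℤ) = ((zf k * y.den : ℤ)) := h2
      have h5 : (q0 : ℝ) * P.leadingCoeff * y.num = zf k * y.den := by exact_mod_cast h4
      field_simp
      linarith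
    have h4 : (q0 : ℝ) * (θ * P.leadingCoeff) - zf k = q0 * (P.leadingCoeff * (θ - y)) := by
      rw [h3]; ring
    rw [h4, abs_mul, abs_mul, Nat.abs_cast, abs_of_pos hlcR] at h1
    have h5 : ((P.leadingCoeff : ℤ) : ℝ) * |θ - y| ≤ X / (M : ℝ) ^ k := by
      refine le_trans ?_ h1
      have h6 : (1 : ℝ) ≤ q0 := by exact_mod_cast hq01
      have h7 : 0 ≤ ((P.leadingCoeff : ℤ) : ℝ) * |θ - y| := by positivity
      nlinarith
    rw [le_div_iff₀ (by positivity)] at h5 ⊢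
    refine le_trans (le_of_eq ?_) (h5.trans hXC)
    ring

open MinorAux in
theorem gs_decay (k : ℕ) (hk : 1 ≤ k) : ∃ C : ℕ, 1 ≤ C ∧
    ∀ (P : ℤ[X]) (D : ℕ), P.natDegree = k → 0 < P.leadingCoeff → ContentLE P D → 1 ≤ D →
    ∀ (a : ℤ) (q : ℕ), 1 ≤ q → Int.gcd a q = 1 → (q : ℝ) * ‖gs P a q‖ ^ C ≤ 2 ^ C * D := by
  obtain ⟨C, hC1, hC⟩ := minor_arc k hk
  refine ⟨C, hC1, fun P D hdeg hlc hcont hD a q hq hgcd => ?_⟩
  have hD1 : (1 : ℝ) ≤ D := by exact_mod_cast hD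
  have hq0 : (0 : ℝ) < q := by exact_mod_cast hq
  rcases (norm_nonneg (gs P a q)).eq_or_lt with h0 | hδ0
  · rw [← h0, zero_pow (by omega), mul_zero]
    positivity
  have hδ1 := norm_gs_le_one P a q hq
  set δ := ‖gs P a q‖ with hδ
  set B : ℝ := 1 + ∑ j ∈ range (k + 1), |((P.coeff j : ℤ) : ℝ)| with hB
  have hB1 : 1 ≤ B := by
    have : 0 ≤ ∑ j ∈ range (k + 1), |((P.coeff j : ℤ) : ℝ)| :=
      Finset.sum_nonneg fun j _ => abs_nonneg _
    linarith
  have hcoef : ∀ j, |((P.coeff j : ℤ) : ℝ)| ≤ B := by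
    intro j
    by_cases hj : j ≤ k
    · have := Finset.single_le_sum (f := fun j => |((P.coeff j : ℤ) : ℝ)|)
        (fun j _ => abs_nonneg _) (mem_range.2 (Nat.lt_succ_of_le hj))
      linarith
    · have : P.coeff j = 0 := Polynomial.coeff_eq_zero_of_natDegree_lt (by omega)
      rw [this, Int.cast_zero, abs_zero]
      linarith
  have hx2 : (2 : ℝ) ≤ 2 / δ := by
    rw [le_div_iff₀ hδ0]; linarith
  have hx1 : (1 : ℝ) ≤ 2 / δ := by linarith
  obtain ⟨T, hT⟩ := exists_nat_gt (max (((2 / δ) * B * D) ^ C) (q * (D * (2 / δ) ^ C) * (2 / δ) ^ C))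
  have hT1 := (le_max_left _ _).trans_lt hT
  have hT2 := (le_max_right _ _).trans_lt hT
  have hbase : (1 : ℝ) ≤ ((2 / δ) * B * D) ^ C := by
    refine one_le_pow₀ ?_
    exact one_le_mul_of_one_le_of_one_le (one_le_mul_of_one_le_of_one_le hx1 hB1) hD1
  have hTpos : (1 : ℝ) ≤ T := by linarith
  have hqT : (T : ℝ) ≤ ((q * T : ℕ) : ℝ) := by
    have : (1 : ℝ) ≤ q := by exact_mod_cast hq
    push_cast
    nlinarith
  obtain ⟨a', q', hq'1, hgcd', hq'2, happ⟩ := hC P D B δ (q * T) ((a : ℝ) / q) hdeg hlc hcont hD hB1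
    hcoef hδ0 hδ1 (by linarith) (by
      rw [ES_periodic P a q hq T]
      push_cast
      exact le_rfl)
  have hq'0 : (0 : ℝ) < q' := by exact_mod_cast hq'1
  have hlcR : (1 : ℝ) ≤ ((P.leadingCoeff : ℤ) : ℝ) := by exact_mod_cast hlc
  have hMk : (T : ℝ) ≤ ((P.leadingCoeff : ℤ) : ℝ) * ((q * T : ℕ) : ℝ) ^ k := by
    have h1 : ((q * T : ℕ) : ℝ) ≤ ((q * T : ℕ) : ℝ) ^ k := le_self_pow₀ (by linarith) (by omega)
    have h2 : (0 : ℝ) ≤ ((q * T : ℕ) : ℝ) ^ k := by positivity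
    nlinarith
  have happ2 : |(a : ℝ) / q - a' / q'| ≤ (2 / δ) ^ C / T :=
    happ.trans (div_le_div_of_nonneg_left (by positivity) (by linarith) hMk)
  have hint : |((a * q' - a' * q : ℤ) : ℝ)| < 1 := by
    have e1 : ((a * q' - a' * q : ℤ) : ℝ) = q * q' * ((a : ℝ) / q - a' / q') := by
      push_cast
      field_simp
    rw [e1, abs_mul, abs_of_pos (by positivity : (0 : ℝ) < q * q')]
    calc (q : ℝ) * q' * |(a : ℝ) / q - a' / q'|
        ≤ q * (D * (2 / δ) ^ C) * ((2 / δ) ^ C / T) := by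
          refine mul_le_mul ?_ happ2 (abs_nonneg _) (by positivity)
          exact mul_le_mul_of_nonneg_left hq'2 hq0.le
      _ = q * (D * (2 / δ) ^ C) * (2 / δ) ^ C / T := by ring
      _ < 1 := by
          rw [div_lt_one (by linarith)]
          exact hT2
  have heq : a * q' = a' * q := by
    have : |(a * q' - a' * q : ℤ)| < 1 := by exact_mod_cast hint
    have := Int.abs_lt_one_iff.1 this
    linarith
  have hqq' : q ∣ q' := by
    have h1 : (q : ℤ) ∣ a * q' := ⟨a', by rw [heq]; ring⟩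
    have h2 : IsCoprime (q : ℤ) a := by
      rw [Int.isCoprime_iff_gcd_eq_one, Int.gcd_comm]; exact hgcd
    exact_mod_cast h2.dvd_of_dvd_mul_left h1
  have hle : (q : ℝ) ≤ q' := by exact_mod_cast Nat.le_of_dvd hq'1 hqq'
  have h1 : (q : ℝ) ≤ D * (2 / δ) ^ C := hle.trans hq'2
  rw [div_pow, mul_div_assoc', le_div_iff₀ (by positivity)] at h1
  linarith

end Vale.Agent.P042
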