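import Vale.Agent.P042.Defs
import Vale.Agent.P042.MinorArc
import Vale.Agent.P042.Local

namespace Vale.Agent.P042
namespace MainAux

open Finset Polynomial

lemma norm_ee (x : ℝ) : ‖ee x‖ = 1 := by
  unfold ee
  exact Complex.norm_exp_ofReal_mul_I _

lemma norm_gs_le_one (P : ℤ[X]) (a : ℤ) (q : ℕ) : ‖gs P a q‖ ≤ 1 := by
  unfold gs
  rw [norm_div]
  rcases Nat.eq_zero_or_pos q with h | h
  · subst h; simp
  · have hq : (0 : ℝ) < q := by exact_mod_cast h
    rw [Complex.norm_natCast, div_le_one hq]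
    refine (norm_sum_le _ _).trans ?_
    simp [norm_ee]

/-- the explicit local majorant -/
noncomputable def bbf (κ C0 C1 : ℝ) (p e : ℕ) : ℝ :=
  if p.Prime ∧ 1 ≤ e then
    min (min 1 (C0 * (p : ℝ) ^ (-((e : ℝ) / C1))))
      (if e = 1 then C0 * (p : ℝ) ^ (-κ) else C0 / p)
  else 0

lemma localMajorant_bbf (κ C0 C1 : ℝ) (hC0 : 1 ≤ C0) :
    LocalMajorant κ C0 C1 (bbf κ C0 C1) := by
  have hC0' : 0 ≤ C0 := by linarith
  constructor
  · intro p e
    unfold bbf
    split_ifs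
    · refine le_min (le_min zero_le_one ?_) ?_ <;> positivity
    · refine le_min (le_min zero_le_one ?_) ?_ <;> positivity
    · exact le_rfl
  · intro p e
    unfold bbf
    split_ifs
    · exact (min_le_left _ _).trans (min_le_left _ _)
    · exact (min_le_left _ _).trans (min_le_left _ _)
    · exact zero_le_one
  · intro p hp
    unfold bbf
    rw [if_pos ⟨hp, le_rfl⟩, if_pos rfl]
    exact min_le_right _ _
  · intro p e hp he
    unfold bbf
    rw [if_pos ⟨hp, by omega⟩, if_neg (by omega)]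
    exact min_le_right _ _
  · intro p e hp he
    unfold bbf
    rw [if_pos ⟨hp, he⟩]
    exact (min_le_left _ _).trans (min_le_right _ _)

lemma one_le_mul_rpow_neg (C0 κ : ℝ) (p : ℕ) (hp : 1 ≤ p) (hC : (p : ℝ) ≤ C0) (hκ : κ ≤ 1) :
    1 ≤ C0 * (p : ℝ) ^ (-κ) := by
  have hp' : (1 : ℝ) ≤ p := by exact_mod_cast hp
  have h1 : (p : ℝ) ^ κ ≤ p := by
    calc (p : ℝ) ^ κ ≤ (p : ℝ) ^ (1 : ℝ) := Real.rpow_le_rpow_of_exponent_le hp' hκ
      _ = p := Real.rpow_one _
  rw [Real.rpow_neg (by positivity)]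
  rw [← div_eq_mul_inv, le_div_iff₀ (by positivity)]
  linarith

lemma exists_local (k : ℕ) (hk : 1 ≤ k) (κ : ℝ) (hκ1 : κ ≤ 1) (D : ℕ) (hD : 1 ≤ D)
    (hloc : LocalDecay k κ) :
    ∃ C0 C1 : ℝ, 1 ≤ C0 ∧ 1 ≤ C1 ∧ ∀ P : ℤ[X], P.natDegree = k → 0 < P.leadingCoeff →
      ContentLE P D → ∀ (a : ℤ) (q : ℕ), 1 ≤ q → Int.gcd a q = 1 →
        ‖gs P a q‖ ≤ ∏ p ∈ q.primeFactors, bbf κ C0 C1 p (q.factorization p) := by
  obtain ⟨Cl, hCl, hl⟩ := hloc
  obtain ⟨Cd, hCd, hd⟩ := gs_decay k hk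
  have hCd' : (1 : ℝ) ≤ Cd := by exact_mod_cast hCd
  have hD' : (1 : ℝ) ≤ D := by exact_mod_cast hD
  refine ⟨Cl + k + 2 * D, Cd, ?_, hCd', ?_⟩
  · have : (0 : ℝ) ≤ k := by positivity
    linarith
  intro P hdeg hlc hcont a q hq hgcd
  set C0 : ℝ := Cl + k + 2 * D with hC0def
  have hk0 : (0 : ℝ) ≤ k := by positivity
  have hC0 : 1 ≤ C0 := by rw [hC0def]; linarith
  refine gs_le_prod P (bbf κ C0 Cd) ?_ a q hq hgcd
  intro p e hp he a ha
  have hp1 : (1 : ℝ) ≤ p := by exact_mod_cast hp.one_lt.le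
  unfold bbf
  rw [if_pos ⟨hp, he⟩]
  refine le_min (le_min (norm_gs_le_one _ _ _) ?_) ?_
  · -- decay
    have hcop : Int.gcd a ((p ^ e : ℕ) : ℤ) = 1 := by
      have h1 : IsCoprime a (p : ℤ) := by
        rw [isCoprime_comm]
        exact (Prime.coprime_iff_not_dvd (Nat.prime_iff_prime_int.mp hp)).2 ha
      have h2 : IsCoprime a ((p : ℤ) ^ e) := h1.pow_right
      rw [← Int.isCoprime_iff_gcd_eq_one]
      push_cast
      exact h2
    have h1 := hd P D hdeg hlc hcont hD a (p ^ e) (Nat.one_le_pow _ _ hp.pos) hcop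
    set g := ‖gs P a (p ^ e)‖ with hg
    have hg0 : 0 ≤ g := norm_nonneg _
    have hpe : (0 : ℝ) < ((p ^ e : ℕ) : ℝ) := by
      have := hp.pos
      positivity
    have h2 : g ^ Cd ≤ 2 ^ Cd * D / ((p ^ e : ℕ) : ℝ) := by
      rw [le_div_iff₀ hpe]; linarith
    have h3 : g ^ Cd ≤ (2 * D * (p : ℝ) ^ (-((e : ℝ) / Cd))) ^ Cd := by
      refine h2.trans ?_
      rw [mul_pow, mul_pow]
      have h4 : ((p : ℝ) ^ (-((e : ℝ) / Cd))) ^ Cd = ((p ^ e : ℕ) : ℝ)⁻¹ := by
        rw [← Real.rpow_natCast, ← Real.rpow_mul (by positivity)]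
        rw [show -((e : ℝ) / Cd) * (Cd : ℝ) = -(e : ℝ) by
          have : (Cd : ℝ) ≠ 0 := by positivity
          field_simp]
        rw [Real.rpow_neg (by positivity), Real.rpow_natCast]
        push_cast; rfl
      rw [h4, div_eq_mul_inv]
      have h5 : (D : ℝ) ≤ (D : ℝ) ^ Cd := le_self_pow₀ hD' (by omega)
      have h6 : (0 : ℝ) ≤ ((p ^ e : ℕ) : ℝ)⁻¹ := by positivity
      gcongr
    have h4 : g ≤ 2 * D * (p : ℝ) ^ (-((e : ℝ) / Cd)) :=
      le_of_pow_le_pow_left₀ (by omega) (by positivity) h3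
    refine h4.trans ?_
    have h5 : (0 : ℝ) ≤ (p : ℝ) ^ (-((e : ℝ) / Cd)) := by positivity
    have h6 : (2 * D : ℝ) ≤ C0 := by rw [hC0def]; linarith
    gcongr
  · by_cases hbig : k < p ∧ D < p
    · have hex : ∃ j, 1 ≤ j ∧ ¬ (p : ℤ) ∣ P.coeff j := by
        by_contra hcon
        push Not at hcon
        have := hcont p hcon
        omega
      split_ifs with h1
      · subst h1
        rw [pow_one]
        refine (hl P hdeg p hp hbig.1 hex a ha).trans ?_
        have h5 : (0 : ℝ) ≤ (p : ℝ) ^ (-κ) := by positivity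
        have h6 : Cl ≤ C0 := by rw [hC0def]; linarith
        gcongr
      · obtain ⟨j, hj1, hj⟩ := hex
        have hjk : j ≤ k := by
          by_contra hcon
          push Not at hcon
          apply hj
          rw [coeff_eq_zero_of_natDegree_lt (by omega)]
          exact dvd_zero _
        have hjp : ¬ (p : ℤ) ∣ (j : ℤ) := by
          intro hdvd
          have := Int.natCast_dvd_natCast.mp hdvd
          have := Nat.le_of_dvd (by omega) this
          omega
        have h2 := gs_prime_pow P p e hp (by omega) a ha ⟨j, by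
          intro hdvd
          rcases (Nat.prime_iff_prime_int.mp hp).dvd_or_dvd hdvd with h | h
          · exact hjp h
          · exact hj h⟩
        refine h2.trans ?_
        rw [hdeg]
        have h6 : (k : ℝ) ≤ C0 := by rw [hC0def]; linarith
        gcongr
    · have hpC : (p : ℝ) ≤ C0 := by
        have h1 : p ≤ k + D := by omega
        have h2 : (p : ℝ) ≤ k + D := by exact_mod_cast h1
        rw [hC0def]; linarith
      refine (norm_gs_le_one _ _ _).trans ?_
      split_ifs with h1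
      · exact one_le_mul_rpow_neg C0 κ p hp.one_lt.le hpC hκ1
      · rw [le_div_iff₀ (by positivity)]; linarith

end MainAux
end Vale.Agent.P042
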