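import Vale.Agent.P042.Defs

/-! Module D: exponential sums near rationals. -/

namespace Vale.Agent.P042

open Finset Polynomial

namespace MajorArcAux

lemma norm_ee (x : ℝ) : ‖ee x‖ = 1 := Complex.norm_exp_ofReal_mul_I _

lemma ee_add (x y : ℝ) : ee (x + y) = ee x * ee y := by
  unfold ee
  rw [← Complex.exp_add]
  congr 1
  push_cast
  ring

lemma ee_zero : ee 0 = 1 := by simp [ee]

lemma ee_int (n : ℤ) : ee n = 1 := by
  unfold ee
  have := Complex.exp_int_mul_two_pi_mul_I n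
  rw [← this]
  congr 1
  push_cast
  ring

lemma norm_ee_sub_le (x y : ℝ) : ‖ee x - ee y‖ ≤ 2 * Real.pi * |x - y| := by
  have h1 : ee x = ee y * ee (x - y) := by rw [← ee_add]; congr 1; ring
  have h2 : ee x - ee y = ee y * (ee (x - y) - 1) := by rw [h1]; ring
  rw [h2, norm_mul, norm_ee, one_mul]
  have h3 := Real.norm_exp_I_mul_ofReal_sub_one_le (x := 2 * Real.pi * (x - y))
  have h4 : Complex.exp (Complex.I * ((2 * Real.pi * (x - y) : ℝ) : ℂ)) = ee (x - y) := by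
    unfold ee
    rw [mul_comm]
  rw [h4, Real.norm_eq_abs, abs_mul, abs_of_pos Real.two_pi_pos] at h3
  exact h3

/-- periodic sums are shift invariant -/
lemma sum_shift {F : ℕ → ℂ} {q : ℕ} (hF : ∀ n, F (n + q) = F n) (s : ℕ) :
    ∑ i ∈ range q, F (s + i) = ∑ i ∈ range q, F i := by
  induction s with
  | zero => simp
  | succ s ih =>
    rw [← ih]
    have h1 : ∑ i ∈ range (q + 1), F (s + i) = ∑ i ∈ range q, F (s + i) + F (s + q) :=
      sum_range_succ _ _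
    have h2 : ∑ i ∈ range (q + 1), F (s + i) = ∑ i ∈ range q, F (s + (i + 1)) + F (s + 0) :=
      sum_range_succ' _ _
    rw [hF s] at h1
    have h3 : ∀ i, s + 1 + i = s + (i + 1) := fun i => by omega
    simp only [h3]
    rw [h1] at h2
    rw [Nat.add_zero] at h2
    exact (add_right_cancel h2).symm

/-- value of the rational phase, as a function of `n` -/
noncomputable def cc (P : ℤ[X]) (a : ℤ) (q : ℕ) (n : ℕ) : ℂ :=
  ee ((a : ℝ) * ((P.eval (n : ℤ) : ℤ) : ℝ) / q)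

lemma cc_periodic (P : ℤ[X]) (a : ℤ) {q : ℕ} (hq : 1 ≤ q) (n : ℕ) :
    cc P a q (n + q) = cc P a q n := by
  unfold cc
  have h1 : ((q : ℤ)) ∣ P.eval ((n + q : ℕ) : ℤ) - P.eval (n : ℤ) := by
    have := sub_dvd_eval_sub ((n + q : ℕ) : ℤ) (n : ℤ) P
    have e : ((n + q : ℕ) : ℤ) - (n : ℤ) = q := by push_cast; ring
    rwa [e] at this
  obtain ⟨t, ht⟩ := h1
  have hq0 : (q : ℝ) ≠ 0 := by positivity
  have h2 : ((P.eval ((n + q : ℕ) : ℤ) : ℤ) : ℝ) = ((P.eval (n : ℤ) : ℤ) : ℝ) + q * t := by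
    have : P.eval ((n + q : ℕ) : ℤ) = P.eval (n : ℤ) + q * t := by linarith
    rw [this]
    push_cast
    ring
  rw [h2]
  have h3 : (a : ℝ) * (((P.eval (n : ℤ) : ℤ) : ℝ) + q * t) / q =
      (a : ℝ) * ((P.eval (n : ℤ) : ℤ) : ℝ) / q + ((a * t : ℤ) : ℝ) := by
    push_cast
    field_simp
  rw [h3, ee_add, ee_int, mul_one]

lemma cc_sum (P : ℤ[X]) (a : ℤ) {q : ℕ} (hq : 1 ≤ q) (s : ℕ) :
    ‖∑ i ∈ range q, cc P a q (s + i)‖ = q * ‖gs P a q‖ := by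
  rw [sum_shift (cc_periodic P a hq) s]
  have hq0 : (0 : ℝ) < q := by exact_mod_cast hq
  unfold gs
  rw [norm_div]
  have : ‖((q : ℕ) : ℂ)‖ = (q : ℝ) := by simp
  rw [this]
  rw [mul_div_cancel₀ _ hq0.ne']
  rfl

/-- total variation over an interval -/
noncomputable def dP (P : ℤ[X]) (n : ℕ) : ℝ :=
  |((P.eval ((n : ℤ) + 1) : ℤ) : ℝ) - ((P.eval (n : ℤ) : ℤ) : ℝ)|

lemma var_bound (P : ℤ[X]) (s i : ℕ) :
    |((P.eval ((s + i : ℕ) : ℤ) : ℤ) : ℝ) - ((P.eval (s : ℤ) : ℤ) : ℝ)| ≤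
      ∑ l ∈ range i, dP P (s + l) := by
  induction i with
  | zero => simp
  | succ i ih =>
    rw [sum_range_succ]
    have h1 : dP P (s + i) = |((P.eval ((s + (i + 1) : ℕ) : ℤ) : ℤ) : ℝ) -
        ((P.eval ((s + i : ℕ) : ℤ) : ℤ) : ℝ)| := by
      unfold dP
      have : ((s + (i + 1) : ℕ) : ℤ) = ((s + i : ℕ) : ℤ) + 1 := by push_cast; ring
      rw [this]
    rw [h1]
    have h2 : ((P.eval ((s + (i + 1) : ℕ) : ℤ) : ℤ) : ℝ) - ((P.eval (s : ℤ) : ℤ) : ℝ) =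
        (((P.eval ((s + i : ℕ) : ℤ) : ℤ) : ℝ) - ((P.eval (s : ℤ) : ℤ) : ℝ)) +
        (((P.eval ((s + (i + 1) : ℕ) : ℤ) : ℤ) : ℝ) - ((P.eval ((s + i : ℕ) : ℤ) : ℤ) : ℝ)) := by
      ring
    rw [h2]
    exact (abs_add_le _ _).trans (add_le_add ih le_rfl)

/-- one block -/
lemma block (P : ℤ[X]) (a : ℤ) {q : ℕ} (hq : 1 ≤ q) (β : ℝ) (s : ℕ) :
    ‖∑ i ∈ range q, ee (((a : ℝ) / q + β) * ((P.eval ((s + i : ℕ) : ℤ) : ℤ) : ℝ))‖ ≤
      q * ‖gs P a q‖ + 2 * Real.pi * q * |β| * ∑ l ∈ range q, dP P (s + l) := by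
  have h1 : ∀ i, ee (((a : ℝ) / q + β) * ((P.eval ((s + i : ℕ) : ℤ) : ℤ) : ℝ)) =
      cc P a q (s + i) * ee (β * ((P.eval (s : ℤ) : ℤ) : ℝ)) +
      cc P a q (s + i) * (ee (β * ((P.eval ((s + i : ℕ) : ℤ) : ℤ) : ℝ)) -
        ee (β * ((P.eval (s : ℤ) : ℤ) : ℝ))) := by
    intro i
    have : ee (((a : ℝ) / q + β) * ((P.eval ((s + i : ℕ) : ℤ) : ℤ) : ℝ)) =
        cc P a q (s + i) * ee (β * ((P.eval ((s + i : ℕ) : ℤ) : ℤ) : ℝ)) := by
      unfold cc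
      rw [← ee_add]
      congr 1
      ring
    rw [this]; ring
  simp only [h1]
  rw [sum_add_distrib, ← sum_mul]
  refine (norm_add_le _ _).trans ?_
  rw [norm_mul, norm_ee, mul_one, cc_sum P a hq s]
  gcongr
  refine (norm_sum_le _ _).trans ?_
  have h2 : ∀ i ∈ range q, ‖cc P a q (s + i) * (ee (β * ((P.eval ((s + i : ℕ) : ℤ) : ℤ) : ℝ)) -
        ee (β * ((P.eval (s : ℤ) : ℤ) : ℝ)))‖ ≤
      2 * Real.pi * |β| * ∑ l ∈ range q, dP P (s + l) := by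
    intro i hi
    rw [mem_range] at hi
    rw [norm_mul]
    have e1 : ‖cc P a q (s + i)‖ = 1 := norm_ee _
    rw [e1, one_mul]
    refine (norm_ee_sub_le _ _).trans ?_
    rw [← mul_sub, abs_mul]
    have e2 := var_bound P s i
    have e3 : ∑ l ∈ range i, dP P (s + l) ≤ ∑ l ∈ range q, dP P (s + l) :=
      sum_le_sum_of_subset_of_nonneg (range_subset_range.2 hi.le) (fun _ _ _ => abs_nonneg _)
    have e4 := e2.trans e3
    have e5 : 0 ≤ 2 * Real.pi * |β| := by positivity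
    calc 2 * Real.pi * (|β| * |((P.eval ((s + i : ℕ) : ℤ) : ℤ) : ℝ) -
          ((P.eval (s : ℤ) : ℤ) : ℝ)|)
        = 2 * Real.pi * |β| * |((P.eval ((s + i : ℕ) : ℤ) : ℤ) : ℝ) -
          ((P.eval (s : ℤ) : ℤ) : ℝ)| := by ring
      _ ≤ _ := mul_le_mul_of_nonneg_left e4 e5
  refine (sum_le_sum h2).trans ?_
  rw [sum_const, card_range, nsmul_eq_mul]
  apply le_of_eq
  ring

lemma blocks (P : ℤ[X]) (a : ℤ) {q : ℕ} (hq : 1 ≤ q) (β : ℝ) (m : ℕ) :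
    ‖∑ i ∈ range (q * m), ee (((a : ℝ) / q + β) * ((P.eval ((1 + i : ℕ) : ℤ) : ℤ) : ℝ))‖ ≤
      ‖gs P a q‖ * ((q * m : ℕ) : ℝ) +
        2 * Real.pi * q * |β| * ∑ l ∈ range (q * m), dP P (1 + l) := by
  induction m with
  | zero => simp
  | succ m ih =>
    rw [Nat.mul_succ, sum_range_add, sum_range_add]
    have h1 := block P a hq β (1 + q * m)
    have h2 : ∀ i, 1 + q * m + i = 1 + (q * m + i) := fun i => by omega
    simp only [h2] at h1
    refine (norm_add_le _ _).trans ((add_le_add ih h1).trans ?_)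
    apply le_of_eq
    push_cast
    ring

lemma sum_Icc_range {E : Type} [AddCommMonoid E] (g : ℕ → E) (M : ℕ) :
    ∑ n ∈ Finset.Icc 1 M, g n = ∑ i ∈ range M, g (1 + i) := by
  induction M with
  | zero => simp
  | succ M ih => rw [Finset.sum_Icc_succ_top (by omega), ih, sum_range_succ, add_comm 1 M]

end MajorArcAux

open MajorArcAux

theorem major_arc (P : ℤ[X]) (a : ℤ) (q : ℕ) (hq : 1 ≤ q) (β : ℝ) (M : ℕ) :
    ‖ES P M ((a : ℝ) / q + β)‖ ≤ ‖gs P a q‖ * M + q +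
      2 * Real.pi * q * |β| *
        ∑ n ∈ Finset.Icc 1 M, |((P.eval ((n : ℤ) + 1) : ℤ) : ℝ) - ((P.eval (n : ℤ) : ℤ) : ℝ)| := by
  unfold ES
  rw [sum_Icc_range, sum_Icc_range]
  have hM := Nat.div_add_mod M q
  have hr := Nat.mod_lt M (by omega : 0 < q)
  set m := M / q
  set r := M % q
  have h1 := blocks P a hq β m
  have h2 : ∀ {E : Type} [AddCommMonoid E] (g : ℕ → E),
      ∑ i ∈ range M, g i = ∑ i ∈ range (q * m), g i + ∑ i ∈ range r, g (q * m + i) := by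
    intro E _ g
    rw [← sum_range_add, hM]
  rw [h2, h2]
  have h3 : ‖∑ i ∈ range r, ee (((a : ℝ) / q + β) *
      ((P.eval ((1 + (q * m + i) : ℕ) : ℤ) : ℤ) : ℝ))‖ ≤ q := by
    refine (norm_sum_le _ _).trans ?_
    simp only [norm_ee, sum_const, card_range, nsmul_eq_mul, mul_one]
    exact_mod_cast hr.le
  refine (norm_add_le _ _).trans ((add_le_add h1 h3).trans ?_)
  have h4 : ((q * m : ℕ) : ℝ) ≤ M := by
    have : q * m ≤ M := by omega
    exact_mod_cast this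
  have h5 : 0 ≤ ∑ i ∈ range r, |((P.eval (((1 + (q * m + i) : ℕ) : ℤ) + 1) : ℤ) : ℝ) -
      ((P.eval ((1 + (q * m + i) : ℕ) : ℤ) : ℤ) : ℝ)| := sum_nonneg fun _ _ => abs_nonneg _
  have h6 : 0 ≤ 2 * Real.pi * q * |β| := by positivity
  have h7 := mul_le_mul_of_nonneg_left h4 (norm_nonneg (gs P a q))
  have h8 := mul_nonneg h6 h5
  have h9 : ∑ l ∈ range (q * m), dP P (1 + l) = ∑ i ∈ range (q * m),
      |((P.eval (((1 + i : ℕ) : ℤ) + 1) : ℤ) : ℝ) - ((P.eval ((1 + i : ℕ) : ℤ) : ℤ) : ℝ)| := rfl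
  rw [h9, mul_add]
  linarith

end Vale.Agent.P042
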