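import Vale.Agent.P042.Defs

/-!
# Random modulus
-/

namespace Vale.Agent.P042

open Finset Polynomial

namespace RandomModulusAux

/-- weights with tail `f` -/
noncomputable def wt (f : ℕ → ℝ) (E k : ℕ) : ℝ := if k < E then f k - f (k + 1) else f k

theorem wt_nonneg {f : ℕ → ℝ} (hf : Antitone f) (h0 : ∀ k, 0 ≤ f k) (E k : ℕ) :
    0 ≤ wt f E k := by
  unfold wt
  split_ifs with h
  · exact sub_nonneg.mpr (hf (Nat.le_succ k))
  · exact h0 k

theorem sum_range_tail (f : ℕ → ℝ) (a E : ℕ) :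
    ∑ k ∈ Finset.range E, (if a ≤ k then f k - f (k + 1) else 0) =
      if a ≤ E then f a - f E else 0 := by
  induction E with
  | zero =>
    by_cases h : a ≤ 0
    · obtain rfl : a = 0 := by omega
      simp
    · simp [h]
  | succ E ih =>
    rw [Finset.sum_range_succ, ih]
    by_cases h1 : a ≤ E
    · have h2 : a ≤ E + 1 := by omega
      simp [h1, h2]
    · by_cases h2 : a ≤ E + 1
      · obtain rfl : a = E + 1 := by omega
        simp
      · simp [h1, h2]

theorem sum_wt (f : ℕ → ℝ) (a E : ℕ) (ha : a ≤ E) :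
    ∑ k : Fin (E + 1), (if a ≤ (k : ℕ) then wt f E k else 0) = f a := by
  rw [Fin.sum_univ_castSucc]
  have h1 : ∀ k : Fin E, (if a ≤ ((Fin.castSucc k : Fin (E + 1)) : ℕ) then
      wt f E (Fin.castSucc k : Fin (E + 1)) else 0) =
      if a ≤ (k : ℕ) then f k - f (k + 1) else 0 := by
    intro k
    have : (k : ℕ) < E := k.2
    simp [wt, this]
  simp only [h1]
  rw [Finset.sum_range (fun k => if a ≤ k then f k - f (k + 1) else 0) |>.symm, sum_range_tail]
  simp [ha, wt]

section generic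

variable {ι : Type} [Fintype ι] [DecidableEq ι]

/-- product weight -/
noncomputable def mu (f : ι → ℕ → ℝ) (E : ℕ) (e : ι → Fin (E + 1)) : ℝ :=
  ∏ i, wt (f i) E (e i)

omit [DecidableEq ι] in
theorem mu_nonneg {f : ι → ℕ → ℝ} (hf : ∀ i, Antitone (f i)) (h0 : ∀ i k, 0 ≤ f i k) (E : ℕ)
    (e : ι → Fin (E + 1)) : 0 ≤ mu f E e :=
  Finset.prod_nonneg fun i _ => wt_nonneg (hf i) (h0 i) _ _

theorem sum_mu (f : ι → ℕ → ℝ) (E : ℕ) (a : ι → ℕ) (ha : ∀ i, a i ≤ E) :
    ∑ e : ι → Fin (E + 1), (if ∀ i, a i ≤ (e i : ℕ) then mu f E e else 0) = ∏ i, f i (a i) := by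
  have h1 : ∀ e : ι → Fin (E + 1), (if ∀ i, a i ≤ (e i : ℕ) then mu f E e else 0) =
      ∏ i, (if a i ≤ (e i : ℕ) then wt (f i) E (e i) else 0) := by
    intro e
    by_cases h : ∀ i, a i ≤ (e i : ℕ)
    · rw [if_pos h]
      exact Finset.prod_congr rfl fun i _ => by rw [if_pos (h i)]
    · rw [if_neg h]
      push Not at h
      obtain ⟨i, hi⟩ := h
      exact (Finset.prod_eq_zero (Finset.mem_univ i) (by rw [if_neg (by omega)])).symm
  simp only [h1]
  have := Finset.prod_univ_sum (ι := ι) (κ := fun _ => Fin (E + 1)) (fun _ => Finset.univ)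
    (fun i k => if a i ≤ (k : ℕ) then wt (f i) E k else 0)
  rw [Fintype.piFinset_univ] at this
  rw [← this]
  exact Finset.prod_congr rfl fun i _ => sum_wt (f i) (a i) E (ha i)

/-- mean of the exponent `e j` on the event `e ≥ a` -/
theorem sum_mu_mul (f : ι → ℕ → ℝ) (E : ℕ) (a : ι → ℕ) (ha : ∀ i, a i ≤ E) (j : ι) (B : ℝ)
    (h0 : ∀ i k, 0 ≤ f i k)
    (hB : ∑ k ∈ Finset.Icc 1 E, f j (max (a j) k) ≤ B * f j (a j)) :
    ∑ e : ι → Fin (E + 1), (if ∀ i, a i ≤ (e i : ℕ) then mu f E e * (e j : ℕ) else 0) ≤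
      B * ∏ i, f i (a i) := by
  have h1 : ∀ e : ι → Fin (E + 1), (if ∀ i, a i ≤ (e i : ℕ) then mu f E e * (e j : ℕ) else 0) =
      ∑ k ∈ Finset.Icc 1 E, (if ∀ i, (Function.update a j (max (a j) k)) i ≤ (e i : ℕ)
        then mu f E e else 0) := by
    intro e
    by_cases h : ∀ i, a i ≤ (e i : ℕ)
    · rw [if_pos h]
      have h2 : ∀ k, (∀ i, (Function.update a j (max (a j) k)) i ≤ (e i : ℕ)) ↔ k ≤ (e j : ℕ) := by
        intro k
        constructor
        · intro hk
          have := hk j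
          rw [Function.update_self] at this
          exact (le_max_right _ _).trans this
        · intro hk i
          by_cases hi : i = j
          · subst hi
            rw [Function.update_self]
            exact max_le (h i) hk
          · rw [Function.update_of_ne hi]
            exact h i
      simp only [h2]
      rw [← Finset.sum_filter]
      have h3 : (Finset.Icc 1 E).filter (fun k => k ≤ (e j : ℕ)) = Finset.Icc 1 (e j : ℕ) := by
        ext k
        have := (e j).2
        simp only [Finset.mem_filter, Finset.mem_Icc]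
        omega
      rw [h3, Finset.sum_const, Nat.card_Icc, nsmul_eq_mul]
      simp [mul_comm]
    · rw [if_neg h]
      refine (Finset.sum_eq_zero fun k _ => ?_).symm
      rw [if_neg]
      intro hk
      apply h
      intro i
      have := hk i
      by_cases hi : i = j
      · subst hi
        rw [Function.update_self] at this
        exact (le_max_left _ _).trans this
      · rwa [Function.update_of_ne hi] at this
  simp only [h1]
  rw [Finset.sum_comm]
  have h4 : ∀ k ∈ Finset.Icc 1 E, ∑ e : ι → Fin (E + 1),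
      (if ∀ i, (Function.update a j (max (a j) k)) i ≤ (e i : ℕ) then mu f E e else 0) =
      f j (max (a j) k) * ∏ i ∈ Finset.univ.erase j, f i (a i) := by
    intro k hk
    rw [Finset.mem_Icc] at hk
    rw [sum_mu f E _ (fun i => by
      by_cases hi : i = j
      · subst hi
        rw [Function.update_self]
        exact max_le (ha i) hk.2
      · rw [Function.update_of_ne hi]
        exact ha i)]
    rw [← Finset.mul_prod_erase _ _ (Finset.mem_univ j), Function.update_self]
    congr 1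
    refine Finset.prod_congr rfl fun i hi => ?_
    rw [Function.update_of_ne (Finset.ne_of_mem_erase hi)]
  rw [Finset.sum_congr rfl h4, ← Finset.sum_mul, ← Finset.mul_prod_erase _ _ (Finset.mem_univ j),
    ← mul_assoc]
  exact mul_le_mul_of_nonneg_right hB (Finset.prod_nonneg fun i _ => h0 _ _)

/-- the modulus of an exponent vector -/
def vv (val : ι → ℕ) {E : ℕ} (e : ι → Fin (E + 1)) : ℕ := ∏ i, (val i) ^ (e i : ℕ)

omit [DecidableEq ι] in
theorem log_vv {val : ι → ℕ} (hval : ∀ i, 1 ≤ val i) {E : ℕ} (e : ι → Fin (E + 1)) :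
    Real.log (vv val e) = ∑ i, (e i : ℕ) * Real.log (val i) := by
  unfold vv
  push_cast
  rw [Real.log_prod]
  · exact Finset.sum_congr rfl fun i _ => by rw [Real.log_pow]
  · intro i _
    have := hval i
    positivity

theorem generic_bound (f : ι → ℕ → ℝ) (hf : ∀ i, Antitone (f i)) (h0 : ∀ i k, 0 ≤ f i k)
    (hf0 : ∀ i, f i 0 = 1)
    (E : ℕ) (a : ι → ℕ) (ha : ∀ i, a i ≤ E) (hE : 1 ≤ E) (val : ι → ℕ) (hval : ∀ i, 1 ≤ val i)
    (B : ι → ℝ)
    (hB : ∀ j, ∑ k ∈ Finset.Icc 1 E, f j (max (a j) k) ≤ B j * f j (a j)) (V : ℕ)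
    (hV : 0 < Real.log V)
    (hS : ∑ j, B j * Real.log (val j) ≤ Real.log V / 4)
    (R : Finset ι) (hR : ∀ j ∈ R, a j = 0) (hR1 : ∑ j ∈ R, f j 1 ≤ 1 / 4) :
    (∏ i, f i (a i)) ≤ 2 * ∑ e : ι → Fin (E + 1),
      (if (∀ i, a i ≤ (e i : ℕ)) ∧ vv val e ≤ V ∧ ∀ j ∈ R, (e j : ℕ) = 0
        then mu f E e else 0) := by
  classical
  set P := ∏ i, f i (a i) with hP
  have hP0 : 0 ≤ P := Finset.prod_nonneg fun i _ => h0 _ _
  have hmu : ∀ e : ι → Fin (E + 1), 0 ≤ mu f E e := mu_nonneg hf h0 E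
  have hvv1 : ∀ e : ι → Fin (E + 1), 1 ≤ vv val e := fun e =>
    Finset.one_le_prod' fun i _ => Nat.one_le_pow _ _ (hval i)
  have key : ∀ e : ι → Fin (E + 1), (if ∀ i, a i ≤ (e i : ℕ) then mu f E e else 0) ≤
      (if (∀ i, a i ≤ (e i : ℕ)) ∧ vv val e ≤ V ∧ ∀ j ∈ R, (e j : ℕ) = 0
        then mu f E e else 0) +
      (if ∀ i, a i ≤ (e i : ℕ) then mu f E e * (Real.log (vv val e) / Real.log V) else 0) +
      ∑ j ∈ R, (if ∀ i, (Function.update a j 1) i ≤ (e i : ℕ) then mu f E e else 0) := by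
    intro e
    have hlog0 : 0 ≤ Real.log (vv val e) := Real.log_nonneg (by exact_mod_cast hvv1 e)
    have hsum0 : 0 ≤ ∑ j ∈ R, (if ∀ i, (Function.update a j 1) i ≤ (e i : ℕ)
        then mu f E e else 0) :=
      Finset.sum_nonneg fun j _ => by split_ifs <;> simp [hmu]
    by_cases h : ∀ i, a i ≤ (e i : ℕ)
    · by_cases h2 : vv val e ≤ V
      · by_cases h3 : ∀ j ∈ R, (e j : ℕ) = 0
        · rw [if_pos h, if_pos ⟨h, h2, h3⟩, if_pos h]
          have : 0 ≤ mu f E e * (Real.log (vv val e) / Real.log V) :=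
            mul_nonneg (hmu e) (div_nonneg hlog0 hV.le)
          linarith
        · rw [if_pos h, if_neg (fun h' => h3 h'.2.2), if_pos h]
          push Not at h3
          obtain ⟨j, hj, hj3⟩ := h3
          have h4 : mu f E e ≤ ∑ j ∈ R, (if ∀ i, (Function.update a j 1) i ≤ (e i : ℕ)
              then mu f E e else 0) := by
            have := Finset.single_le_sum (f := fun j => (if ∀ i, (Function.update a j 1) i ≤
              (e i : ℕ) then mu f E e else 0)) (fun j _ => by
                show 0 ≤ (if ∀ i, (Function.update a j 1) i ≤ (e i : ℕ) then mu f E e else 0)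
                split_ifs
                · exact hmu e
                · exact le_rfl) hj
            refine le_trans ?_ this
            rw [if_pos]
            intro i
            by_cases hi : i = j
            · subst hi
              rw [Function.update_self]
              omega
            · rw [Function.update_of_ne hi]
              exact h i
          have : 0 ≤ mu f E e * (Real.log (vv val e) / Real.log V) :=
            mul_nonneg (hmu e) (div_nonneg hlog0 hV.le)
          linarith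
      · rw [if_pos h, if_neg (fun h' => h2 h'.2.1), if_pos h]
        have hVpos : 0 < V := by
          rcases Nat.eq_zero_or_pos V with h0 | h0
          · subst h0; simp at hV
          · exact h0
        have h5 : Real.log V ≤ Real.log (vv val e) :=
          Real.log_le_log (by exact_mod_cast hVpos) (by exact_mod_cast (not_le.mp h2).le)
        have h6 : 1 ≤ Real.log (vv val e) / Real.log V := by
          rw [one_le_div hV]; exact h5
        have h7 : mu f E e ≤ mu f E e * (Real.log (vv val e) / Real.log V) :=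
          le_mul_of_one_le_right (hmu e) h6
        linarith
    · rw [if_neg h, if_neg (fun h' => h h'.1), if_neg h]
      linarith
  have hsum := Finset.sum_le_sum (fun e (_ : e ∈ (Finset.univ : Finset (ι → Fin (E + 1)))) => key e)
  rw [sum_mu f E a ha, Finset.sum_add_distrib, Finset.sum_add_distrib] at hsum
  have h2 : ∑ e : ι → Fin (E + 1), (if ∀ i, a i ≤ (e i : ℕ) then
      mu f E e * (Real.log (vv val e) / Real.log V) else 0) ≤ P / 4 := by
    have e1 : ∀ e : ι → Fin (E + 1), (if ∀ i, a i ≤ (e i : ℕ) then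
        mu f E e * (Real.log (vv val e) / Real.log V) else 0) =
        ∑ j, (Real.log (val j) / Real.log V) *
          (if ∀ i, a i ≤ (e i : ℕ) then mu f E e * (e j : ℕ) else 0) := by
      intro e
      by_cases h : ∀ i, a i ≤ (e i : ℕ)
      · simp only [if_pos h]
        rw [log_vv hval, Finset.sum_div, Finset.mul_sum]
        exact Finset.sum_congr rfl fun i _ => by ring
      · simp only [if_neg h, mul_zero, Finset.sum_const_zero]
    simp only [e1]
    rw [Finset.sum_comm]
    calc ∑ j, ∑ e : ι → Fin (E + 1), (Real.log (val j) / Real.log V) *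
          (if ∀ i, a i ≤ (e i : ℕ) then mu f E e * (e j : ℕ) else 0)
        ≤ ∑ j, (Real.log (val j) / Real.log V) * (B j * P) := by
          refine Finset.sum_le_sum fun j _ => ?_
          rw [← Finset.mul_sum]
          refine mul_le_mul_of_nonneg_left (sum_mu_mul f E a ha j (B j) h0 (hB j)) ?_
          exact div_nonneg (Real.log_nonneg (by exact_mod_cast hval j)) hV.le
      _ = (∑ j, B j * Real.log (val j)) / Real.log V * P := by
          rw [Finset.sum_div, Finset.sum_mul]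
          exact Finset.sum_congr rfl fun j _ => by ring
      _ ≤ (Real.log V / 4) / Real.log V * P := by
          gcongr
      _ = P / 4 := by
          field_simp
  have h3 : ∑ e : ι → Fin (E + 1), ∑ j ∈ R, (if ∀ i, (Function.update a j 1) i ≤ (e i : ℕ)
      then mu f E e else 0) ≤ P / 4 := by
    rw [Finset.sum_comm]
    calc ∑ j ∈ R, ∑ e : ι → Fin (E + 1), (if ∀ i, (Function.update a j 1) i ≤ (e i : ℕ)
          then mu f E e else 0)
        = ∑ j ∈ R, f j 1 * P := by
          refine Finset.sum_congr rfl fun j hj => ?_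
          rw [sum_mu f E _ (fun i => by
            by_cases hi : i = j
            · subst hi
              rw [Function.update_self]
              exact hE
            · rw [Function.update_of_ne hi]
              exact ha i)]
          rw [hP, ← Finset.mul_prod_erase _ _ (Finset.mem_univ j),
            ← Finset.mul_prod_erase (Finset.univ) (fun i => f i (a i)) (Finset.mem_univ j),
            Function.update_self, hR j hj, hf0, one_mul]
          congr 1
          refine Finset.prod_congr rfl fun i hi => ?_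
          rw [Function.update_of_ne (Finset.ne_of_mem_erase hi)]
      _ = (∑ j ∈ R, f j 1) * P := by rw [Finset.sum_mul]
      _ ≤ 1 / 4 * P := mul_le_mul_of_nonneg_right hR1 hP0
      _ = P / 4 := by ring
  linarith

end generic

/-! ### prime sums -/

theorem sum_dyadic (s : ℝ) (hs : 0 ≤ s) (K : ℕ) :
    ∑ p ∈ (Finset.range (2 ^ (K + 1))).filter Nat.Prime, (p : ℝ) ^ (-s) * Real.log p ≤
      ∑ p ∈ (Finset.range (2 ^ K)).filter Nat.Prime, (p : ℝ) ^ (-s) * Real.log p +
        3 * ((2 : ℝ) ^ (1 - s)) ^ K := by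
  have hsplit : (Finset.range (2 ^ (K + 1))).filter Nat.Prime =
      (Finset.range (2 ^ K)).filter Nat.Prime ∪
        (Finset.Ico (2 ^ K) (2 ^ (K + 1))).filter Nat.Prime := by
    rw [← Finset.filter_union]
    congr 1
    have : 2 ^ K ≤ 2 ^ (K + 1) := Nat.pow_le_pow_right (by norm_num) (by omega)
    ext x
    simp only [Finset.mem_range, Finset.mem_union, Finset.mem_Ico]
    omega
  have hdisj : Disjoint ((Finset.range (2 ^ K)).filter Nat.Prime)
      ((Finset.Ico (2 ^ K) (2 ^ (K + 1))).filter Nat.Prime) := by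
    rw [Finset.disjoint_left]
    intro x hx hy
    simp only [Finset.mem_filter, Finset.mem_range, Finset.mem_Ico] at hx hy
    omega
  rw [hsplit, Finset.sum_union hdisj]
  gcongr
  have h2K : (0 : ℝ) < 2 ^ K := by positivity
  calc ∑ p ∈ (Finset.Ico (2 ^ K) (2 ^ (K + 1))).filter Nat.Prime, (p : ℝ) ^ (-s) * Real.log p
      ≤ ∑ p ∈ (Finset.Ico (2 ^ K) (2 ^ (K + 1))).filter Nat.Prime,
          ((2 : ℝ) ^ K) ^ (-s) * Real.log p := by
        refine Finset.sum_le_sum fun p hp => ?_
        simp only [Finset.mem_filter, Finset.mem_Ico] at hp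
        have hp1 : (1 : ℝ) ≤ p := by exact_mod_cast hp.2.one_lt.le
        refine mul_le_mul_of_nonneg_right ?_ (Real.log_nonneg hp1)
        exact Real.rpow_le_rpow_of_nonpos h2K (by exact_mod_cast hp.1.1) (by linarith)
    _ = ((2 : ℝ) ^ K) ^ (-s) *
          ∑ p ∈ (Finset.Ico (2 ^ K) (2 ^ (K + 1))).filter Nat.Prime, Real.log p := by
        rw [Finset.mul_sum]
    _ ≤ ((2 : ℝ) ^ K) ^ (-s) * (Real.log 4 * (2 : ℝ) ^ (K + 1)) := by
        refine mul_le_mul_of_nonneg_left ?_ (by positivity)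
        have := Chebyshev.theta_le_log4_mul_x (x := (2 : ℝ) ^ (K + 1)) (by positivity)
        refine le_trans ?_ this
        rw [Chebyshev.theta]
        refine Finset.sum_le_sum_of_subset_of_nonneg ?_ ?_
        · intro p hp
          simp only [Finset.mem_filter, Finset.mem_Ico] at hp
          simp only [Finset.mem_filter, Finset.mem_Ioc]
          refine ⟨⟨hp.2.pos, ?_⟩, hp.2⟩
          apply Nat.le_floor
          have : p ≤ 2 ^ (K + 1) := hp.1.2.le
          exact_mod_cast this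
        · intro p hp _
          simp only [Finset.mem_filter, Finset.mem_Ioc] at hp
          exact Real.log_nonneg (by exact_mod_cast hp.1.1)
    _ = (2 * Real.log 4) * ((2 : ℝ) ^ (1 - s)) ^ K := by
        have e1 : ((2 : ℝ) ^ (1 - s)) ^ K = (2 : ℝ) ^ K * ((2 : ℝ) ^ K) ^ (-s) := by
          rw [sub_eq_add_neg, Real.rpow_add (by norm_num), Real.rpow_one, mul_pow]
          congr 1
          rw [← Real.rpow_natCast, ← Real.rpow_mul (by norm_num), ← Real.rpow_natCast,
            ← Real.rpow_mul (by norm_num)]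
          congr 1
          ring
        rw [e1]
        ring
    _ ≤ 3 * ((2 : ℝ) ^ (1 - s)) ^ K := by
        refine mul_le_mul_of_nonneg_right ?_ (by positivity)
        have : Real.log 4 = 2 * Real.log 2 := by
          rw [show (4 : ℝ) = 2 ^ 2 by norm_num, Real.log_pow]; norm_num
        rw [this]
        have := Real.log_two_lt_d9
        linarith

theorem sum_primes_small (s : ℝ) (hs : 0 ≤ s) (hs2 : s ≤ 1 / 2) (K : ℕ) :
    ∑ p ∈ (Finset.range (2 ^ K)).filter Nat.Prime, (p : ℝ) ^ (-s) * Real.log p ≤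
      8 * ((2 : ℝ) ^ (1 - s)) ^ K := by
  induction K with
  | zero =>
    have : (Finset.range (2 ^ 0)).filter Nat.Prime = ∅ := by decide
    rw [this]; simp
  | succ K ih =>
    refine (sum_dyadic s hs K).trans ?_
    have hx : (11 : ℝ) / 8 ≤ (2 : ℝ) ^ (1 - s) := by
      calc (11 : ℝ) / 8 ≤ (2 : ℝ) ^ ((1 : ℝ) / 2) := by
            rw [← Real.sqrt_eq_rpow]
            apply Real.le_sqrt_of_sq_le
            norm_num
        _ ≤ (2 : ℝ) ^ (1 - s) := Real.rpow_le_rpow_of_exponent_le (by norm_num) (by linarith)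
    have hpos : 0 ≤ ((2 : ℝ) ^ (1 - s)) ^ K := by positivity
    rw [pow_succ]
    nlinarith

theorem sum_primes_one (K : ℕ) :
    ∑ p ∈ (Finset.range (2 ^ K)).filter Nat.Prime, (p : ℝ) ^ (-(1 : ℝ)) * Real.log p ≤ 3 * K := by
  induction K with
  | zero =>
    have : (Finset.range (2 ^ 0)).filter Nat.Prime = ∅ := by decide
    rw [this]; simp
  | succ K ih =>
    refine (sum_dyadic 1 (by norm_num) K).trans ?_
    push_cast
    simp
    linarith

/-! ### the tails -/

/-- the tail function -/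
noncomputable def fk (A ρ : ℝ) (e : ℕ) : ℝ := if e = 0 then 1 else min 1 (A * ρ ^ e)

theorem fk_zero (A ρ : ℝ) : fk A ρ 0 = 1 := by simp [fk]

theorem fk_nonneg {A ρ : ℝ} (hA : 0 ≤ A) (hρ : 0 ≤ ρ) (e : ℕ) : 0 ≤ fk A ρ e := by
  unfold fk
  split_ifs
  · norm_num
  · exact le_min (by norm_num) (by positivity)

theorem fk_le_one (A ρ : ℝ) (e : ℕ) : fk A ρ e ≤ 1 := by
  unfold fk
  split_ifs
  · exact le_rfl
  · exact min_le_left _ _

theorem fk_antitone {A ρ : ℝ} (hA : 0 ≤ A) (hρ : 0 ≤ ρ) (hρ1 : ρ ≤ 1) : Antitone (fk A ρ) := by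
  intro a b hab
  by_cases ha : a = 0
  · rw [ha, fk_zero]; exact fk_le_one _ _ _
  · have hb : b ≠ 0 := by omega
    simp only [fk, ha, hb, if_false]
    exact min_le_min le_rfl (mul_le_mul_of_nonneg_left (pow_le_pow_of_le_one hρ hρ1 hab) hA)

theorem fk_ratio {A D ρ : ℝ} (hA : 0 ≤ A) (hAD : A ≤ D) (hD : 1 ≤ D) (hρ : 0 < ρ)
    (hρ1 : ρ ≤ 1) {a b : ℕ} (ha : 1 ≤ a) (hab : a ≤ b) : fk A ρ b ≤ D * ρ ^ (b - a) * fk A ρ a := by
  have ha0 : a ≠ 0 := by omega
  have hb0 : b ≠ 0 := by omega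
  have e1 : ρ ^ b = ρ ^ (b - a) * ρ ^ a := by rw [← pow_add]; congr 1; omega
  simp only [fk, ha0, hb0, if_false]
  rcases le_total 1 (A * ρ ^ a) with h | h
  · rw [min_eq_left h, mul_one]
    refine (min_le_right _ _).trans ?_
    rw [e1]
    have h1 : ρ ^ a ≤ 1 := pow_le_one₀ hρ.le hρ1
    have h2 : 0 < ρ ^ (b - a) := by positivity
    calc A * (ρ ^ (b - a) * ρ ^ a) ≤ D * (ρ ^ (b - a) * 1) := by gcongr
      _ = D * ρ ^ (b - a) := by ring
  · rw [min_eq_right h]
    refine (min_le_right _ _).trans ?_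
    rw [e1]
    have : 0 ≤ A * ρ ^ a * ρ ^ (b - a) := by positivity
    nlinarith

theorem geom_le {ρ : ℝ} (hρ : 0 < ρ) (hρ1 : ρ < 1) (n : ℕ) :
    ∑ j ∈ Finset.range n, ρ ^ j ≤ 1 / (1 - ρ) := by
  rw [le_div_iff₀ (by linarith)]
  have := mul_neg_geom_sum ρ n
  have h2 : 0 < ρ ^ n := by positivity
  linarith

theorem sum_fk {A D ρ t : ℝ} (hA : A = D * t) (ht : 0 ≤ t) (ht1 : t ≤ 1) (hD : 1 ≤ D)
    (hρ : 0 < ρ) (hρ1 : ρ < 1) (a E : ℕ) :
    ∑ k ∈ Finset.Icc 1 E, fk A ρ (max a k) ≤
      ((1 + D / (1 - ρ)) * a + D / (1 - ρ) * t) * fk A ρ a := by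
  have hA0 : 0 ≤ A := by rw [hA]; positivity
  have hAD : A ≤ D := by rw [hA]; nlinarith
  have h1ρ : 0 < 1 - ρ := by linarith
  rcases Nat.eq_zero_or_pos a with rfl | ha
  · rw [fk_zero]
    simp only [Nat.zero_max, Nat.cast_zero, mul_zero, zero_add, mul_one]
    calc ∑ k ∈ Finset.Icc 1 E, fk A ρ k ≤ ∑ k ∈ Finset.Icc 1 E, A * ρ ^ k := by
          refine Finset.sum_le_sum fun k hk => ?_
          rw [Finset.mem_Icc] at hk
          have : k ≠ 0 := by omega
          simp only [fk, this, if_false]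
          exact min_le_right _ _
      _ ≤ ∑ k ∈ Finset.range (E + 1), A * ρ ^ k := by
          refine Finset.sum_le_sum_of_subset_of_nonneg ?_ fun k _ _ => by positivity
          intro k hk
          rw [Finset.mem_Icc] at hk
          rw [Finset.mem_range]; omega
      _ = A * ∑ k ∈ Finset.range (E + 1), ρ ^ k := by rw [Finset.mul_sum]
      _ ≤ A * (1 / (1 - ρ)) := mul_le_mul_of_nonneg_left (geom_le hρ hρ1 _) hA0
      _ = D / (1 - ρ) * t := by rw [hA]; ring
  · have hfa : 0 ≤ fk A ρ a := fk_nonneg hA0 hρ.le a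
    calc ∑ k ∈ Finset.Icc 1 E, fk A ρ (max a k)
        ≤ ∑ k ∈ Finset.Icc 1 E, ((if k ≤ a then 1 else 0) +
            (if a < k then D * ρ ^ (k - a) else 0)) * fk A ρ a := by
          refine Finset.sum_le_sum fun k hk => ?_
          by_cases hka : k ≤ a
          · have : ¬ a < k := by omega
            rw [max_eq_left hka, if_pos hka, if_neg this]
            linarith
          · have h2 : a < k := by omega
            rw [max_eq_right h2.le, if_neg hka, if_pos h2, zero_add]
            exact fk_ratio hA0 hAD hD hρ hρ1.le ha h2.le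
      _ = (∑ k ∈ Finset.Icc 1 E, (if k ≤ a then (1 : ℝ) else 0) +
            ∑ k ∈ Finset.Icc 1 E, (if a < k then D * ρ ^ (k - a) else 0)) * fk A ρ a := by
          rw [← Finset.sum_mul, Finset.sum_add_distrib]
      _ ≤ (a + D / (1 - ρ)) * fk A ρ a := by
          refine mul_le_mul_of_nonneg_right (add_le_add ?_ ?_) hfa
          · rw [Finset.sum_boole]
            have : (Finset.Icc 1 E).filter (fun k => k ≤ a) ⊆ Finset.Icc 1 a := by
              intro k hk
              simp only [Finset.mem_filter, Finset.mem_Icc] at hk ⊢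
              omega
            have h3 := Finset.card_le_card this
            rw [Nat.card_Icc] at h3
            have h4 : ((Finset.Icc 1 E).filter (fun k => k ≤ a)).card ≤ a := by omega
            exact_mod_cast h4
          · rw [← Finset.sum_filter]
            have himg : ∑ k ∈ (Finset.Icc 1 E).filter (fun k => a < k), D * ρ ^ (k - a) =
                ∑ j ∈ ((Finset.Icc 1 E).filter (fun k => a < k)).image (fun k => k - a),
                  D * ρ ^ j := by
              rw [Finset.sum_image]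
              intro x hx y hy hxy
              simp only [Finset.coe_filter, Finset.mem_Icc, Set.mem_ofPred_eq] at hx hy
              simp only at hxy
              omega
            rw [himg]
            calc ∑ j ∈ ((Finset.Icc 1 E).filter (fun k => a < k)).image (fun k => k - a),
                  D * ρ ^ j ≤ ∑ j ∈ Finset.range (E + 1), D * ρ ^ j := by
                  refine Finset.sum_le_sum_of_subset_of_nonneg ?_ fun k _ _ => by positivity
                  intro j hj
                  simp only [Finset.mem_image, Finset.mem_filter, Finset.mem_Icc] at hj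
                  obtain ⟨k, hk, rfl⟩ := hj
                  rw [Finset.mem_range]; omega
              _ = D * ∑ j ∈ Finset.range (E + 1), ρ ^ j := by rw [Finset.mul_sum]
              _ ≤ D * (1 / (1 - ρ)) := mul_le_mul_of_nonneg_left (geom_le hρ hρ1 _) (by linarith)
              _ = D / (1 - ρ) := by ring
      _ ≤ _ := by
          refine mul_le_mul_of_nonneg_right ?_ hfa
          have ha1 : (1 : ℝ) ≤ a := by exact_mod_cast ha
          have hG : 0 ≤ D / (1 - ρ) := by positivity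
          nlinarith [mul_nonneg hG ht]

/-- majorant of `bb` -/
theorem bb_le {C0 C1 s b : ℝ} (hC0 : 1 ≤ C0) (hs1 : s ≤ 1)
    {p e : ℕ} (hp : 2 ≤ p) (he : 1 ≤ e) (hb1 : b ≤ 1) (hbs : b ≤ C0 * (p : ℝ) ^ (-s))
    (hbe : b ≤ C0 * (p : ℝ) ^ (-((e : ℝ) / C1))) :
    b ≤ fk (2 * C0 * (p : ℝ) ^ (-s)) ((2 : ℝ) ^ (-(1 / C1))) e := by
  have he0 : e ≠ 0 := by omega
  simp only [fk, he0, if_false]
  refine le_min hb1 ?_
  have hp0 : (0 : ℝ) < p := by positivity
  have hp2 : (2 : ℝ) ≤ p := by exact_mod_cast hp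
  have hρ : ((2 : ℝ) ^ (-(1 / C1))) ^ e = (2 : ℝ) ^ (-((e : ℝ) / C1)) := by
    rw [← Real.rpow_natCast, ← Real.rpow_mul (by norm_num)]
    congr 1
    ring
  rw [hρ]
  rcases le_total s ((e : ℝ) / C1) with h | h
  · refine hbe.trans ?_
    have e1 : (p : ℝ) ^ (-((e : ℝ) / C1)) = (p : ℝ) ^ (-s) * (p : ℝ) ^ (-((e : ℝ) / C1 - s)) := by
      rw [← Real.rpow_add hp0]; congr 1; ring
    have e2 : (p : ℝ) ^ (-((e : ℝ) / C1 - s)) ≤ (2 : ℝ) ^ (-((e : ℝ) / C1 - s)) :=
      Real.rpow_le_rpow_of_nonpos (by norm_num) hp2 (by linarith)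
    have e3 : (2 : ℝ) ^ (-((e : ℝ) / C1 - s)) = (2 : ℝ) ^ s * (2 : ℝ) ^ (-((e : ℝ) / C1)) := by
      rw [← Real.rpow_add (by norm_num)]; congr 1; ring
    have e4 : (2 : ℝ) ^ s ≤ 2 := by
      calc (2 : ℝ) ^ s ≤ (2 : ℝ) ^ (1 : ℝ) := Real.rpow_le_rpow_of_exponent_le (by norm_num) hs1
        _ = 2 := by norm_num
    rw [e1]
    calc C0 * ((p : ℝ) ^ (-s) * (p : ℝ) ^ (-((e : ℝ) / C1 - s)))
        ≤ C0 * ((p : ℝ) ^ (-s) * ((2 : ℝ) ^ s * (2 : ℝ) ^ (-((e : ℝ) / C1)))) := by
          rw [← e3]; gcongr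
      _ ≤ C0 * ((p : ℝ) ^ (-s) * (2 * (2 : ℝ) ^ (-((e : ℝ) / C1)))) := by gcongr
      _ = 2 * C0 * (p : ℝ) ^ (-s) * (2 : ℝ) ^ (-((e : ℝ) / C1)) := by ring
  · refine hbs.trans ?_
    have e5 : (1 : ℝ) / 2 ≤ (2 : ℝ) ^ (-((e : ℝ) / C1)) := by
      calc (1 : ℝ) / 2 = (2 : ℝ) ^ (-(1 : ℝ)) := by
            rw [Real.rpow_neg_one]; norm_num
        _ ≤ (2 : ℝ) ^ (-((e : ℝ) / C1)) :=
          Real.rpow_le_rpow_of_exponent_le (by norm_num) (by linarith)
    have e6 : 0 < C0 * (p : ℝ) ^ (-s) := by positivity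
    nlinarith

/-- primes up to `Q` -/
abbrev PI (Q : ℕ) : Type := {p // p ∈ (Finset.range (Q + 1)).filter Nat.Prime}

/-- `t_p` -/
noncomputable def tt (y0 κ : ℝ) (p : ℕ) : ℝ :=
  if (p : ℝ) ≤ y0 then (p : ℝ) ^ (-κ) else (p : ℝ) ^ (-(1 : ℝ))

theorem tt_nonneg (y0 κ : ℝ) (p : ℕ) : 0 ≤ tt y0 κ p := by
  unfold tt
  split_ifs <;> positivity

theorem tt_le_one {y0 κ : ℝ} (hκ : 0 < κ) {p : ℕ} (hp : 1 ≤ p) : tt y0 κ p ≤ 1 := by
  have hp' : (1 : ℝ) ≤ p := by exact_mod_cast hp
  unfold tt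
  split_ifs
  · exact Real.rpow_le_one_of_one_le_of_nonpos hp' (by linarith)
  · exact Real.rpow_le_one_of_one_le_of_nonpos hp' (by norm_num)

theorem sum_tt_log {y0 κ : ℝ} (hκ : 0 < κ) (hκ2 : κ ≤ 1 / 2) (hy0 : 1 ≤ y0) {Q : ℕ} (hQ : 1 ≤ Q) :
    ∑ p ∈ (Finset.range (Q + 1)).filter Nat.Prime, tt y0 κ p * Real.log p ≤
      16 * y0 ^ (1 - κ) + 3 * (Real.log Q / Real.log 2 + 1) := by
  set K1 := Nat.log 2 ⌊y0⌋₊ + 1 with hK1
  set K2 := Nat.log 2 Q + 1 with hK2
  have hfl : 1 ≤ ⌊y0⌋₊ := Nat.le_floor (by exact_mod_cast hy0)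
  have h1 : ∑ p ∈ (Finset.range (Q + 1)).filter Nat.Prime, tt y0 κ p * Real.log p ≤
      ∑ p ∈ (Finset.range (2 ^ K1)).filter Nat.Prime, (p : ℝ) ^ (-κ) * Real.log p +
      ∑ p ∈ (Finset.range (2 ^ K2)).filter Nat.Prime, (p : ℝ) ^ (-(1 : ℝ)) * Real.log p := by
    have e1 : ∑ p ∈ (Finset.range (Q + 1)).filter Nat.Prime, tt y0 κ p * Real.log p =
        ∑ p ∈ ((Finset.range (Q + 1)).filter Nat.Prime).filter (fun p : ℕ => (p : ℝ) ≤ y0),
          (p : ℝ) ^ (-κ) * Real.log p +
        ∑ p ∈ ((Finset.range (Q + 1)).filter Nat.Prime).filter (fun p : ℕ => ¬ (p : ℝ) ≤ y0),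
          (p : ℝ) ^ (-(1 : ℝ)) * Real.log p := by
      rw [← Finset.sum_filter_add_sum_filter_not _ (fun p : ℕ => (p : ℝ) ≤ y0)]
      congr 1
      · refine Finset.sum_congr rfl fun p hp => ?_
        rw [Finset.mem_filter] at hp
        rw [tt, if_pos hp.2]
      · refine Finset.sum_congr rfl fun p hp => ?_
        rw [Finset.mem_filter] at hp
        rw [tt, if_neg hp.2]
    rw [e1]
    refine add_le_add ?_ ?_
    · refine Finset.sum_le_sum_of_subset_of_nonneg ?_ ?_
      · intro p hp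
        simp only [Finset.mem_filter, Finset.mem_range] at hp ⊢
        refine ⟨?_, hp.1.2⟩
        have : p ≤ ⌊y0⌋₊ := Nat.le_floor hp.2
        exact lt_of_le_of_lt this (Nat.lt_pow_succ_log_self (by norm_num) _)
      · intro p hp _
        simp only [Finset.mem_filter, Finset.mem_range] at hp
        have : (1 : ℝ) ≤ p := by exact_mod_cast hp.2.one_lt.le
        exact mul_nonneg (by positivity) (Real.log_nonneg this)
    · refine Finset.sum_le_sum_of_subset_of_nonneg ?_ ?_
      · intro p hp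
        simp only [Finset.mem_filter, Finset.mem_range] at hp ⊢
        refine ⟨?_, hp.1.2⟩
        have : p ≤ Q := by omega
        exact lt_of_le_of_lt this (Nat.lt_pow_succ_log_self (by norm_num) _)
      · intro p hp _
        simp only [Finset.mem_filter, Finset.mem_range] at hp
        have : (1 : ℝ) ≤ p := by exact_mod_cast hp.2.one_lt.le
        exact mul_nonneg (by positivity) (Real.log_nonneg this)
  refine h1.trans (add_le_add ?_ ?_)
  · refine (sum_primes_small κ hκ.le hκ2 K1).trans ?_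
    have e2 : ((2 : ℝ) ^ (1 - κ)) ^ K1 = ((2 : ℝ) ^ K1) ^ (1 - κ) := by
      rw [← Real.rpow_natCast, ← Real.rpow_mul (by norm_num), ← Real.rpow_natCast,
        ← Real.rpow_mul (by norm_num)]
      congr 1
      ring
    have e3 : (2 : ℝ) ^ K1 ≤ 2 * y0 := by
      rw [hK1, pow_succ]
      have h2 : 2 ^ Nat.log 2 ⌊y0⌋₊ ≤ ⌊y0⌋₊ := Nat.pow_log_le_self 2 (by omega)
      have h3 : ((2 ^ Nat.log 2 ⌊y0⌋₊ : ℕ) : ℝ) ≤ y0 :=
        le_trans (by exact_mod_cast h2) (Nat.floor_le (by linarith))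
      push_cast at h3
      linarith
    have e4 : ((2 : ℝ) ^ K1) ^ (1 - κ) ≤ (2 * y0) ^ (1 - κ) :=
      Real.rpow_le_rpow (by positivity) e3 (by linarith)
    have e5 : (2 * y0) ^ (1 - κ) ≤ 2 * y0 ^ (1 - κ) := by
      rw [Real.mul_rpow (by norm_num) (by linarith)]
      refine mul_le_mul_of_nonneg_right ?_ (by positivity)
      calc (2 : ℝ) ^ (1 - κ) ≤ (2 : ℝ) ^ (1 : ℝ) :=
            Real.rpow_le_rpow_of_exponent_le (by norm_num) (by linarith)
        _ = 2 := by norm_num
    rw [e2]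
    linarith
  · refine (sum_primes_one K2).trans ?_
    have h2 : 2 ^ Nat.log 2 Q ≤ Q := Nat.pow_log_le_self 2 (by omega)
    have h3 : (Nat.log 2 Q : ℝ) ≤ Real.log Q / Real.log 2 := by
      rw [le_div_iff₀ (Real.log_pos (by norm_num))]
      rw [← Real.log_pow]
      exact Real.log_le_log (by positivity) (by exact_mod_cast h2)
    rw [hK2]
    push_cast
    linarith

theorem prod_PI {M : Type*} [CommMonoid M] (Q : ℕ) (g : ℕ → M) :
    ∏ i : PI Q, g i = ∏ p ∈ (Finset.range (Q + 1)).filter Nat.Prime, g p :=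
  Finset.prod_coe_sort _ _

theorem sum_PI (Q : ℕ) (g : ℕ → ℝ) :
    ∑ i : PI Q, g i = ∑ p ∈ (Finset.range (Q + 1)).filter Nat.Prime, g p :=
  Finset.sum_coe_sort _ _

theorem primeFactors_subset {q Q : ℕ} (hq : 1 ≤ q) (hqQ : q ≤ Q) :
    q.primeFactors ⊆ (Finset.range (Q + 1)).filter Nat.Prime := by
  intro p hp
  rw [Finset.mem_filter, Finset.mem_range]
  have h1 := Nat.prime_of_mem_primeFactors hp
  have h2 := Nat.le_of_dvd (by omega) (Nat.dvd_of_mem_primeFactors hp)
  exact ⟨by omega, h1⟩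

theorem prod_factorization {q Q : ℕ} (hq : 1 ≤ q) (hqQ : q ≤ Q) :
    ∏ i : PI Q, (i : ℕ) ^ (q.factorization i) = q := by
  rw [prod_PI Q (fun p => p ^ (q.factorization p))]
  rw [← Finset.prod_subset (primeFactors_subset hq hqQ)]
  · exact Nat.prod_factorization_pow_eq_self (by omega)
  · intro p _ hp
    have : q.factorization p = 0 := by
      rw [← Finsupp.notMem_support_iff, Nat.support_factorization]; exact hp
    rw [this, pow_zero]

theorem sum_factorization_log {q Q : ℕ} (hq : 1 ≤ q) (hqQ : q ≤ Q) :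
    ∑ i : PI Q, (q.factorization i : ℝ) * Real.log (i : ℕ) = Real.log q := by
  conv_rhs => rw [← prod_factorization hq hqQ]
  push_cast
  rw [Real.log_prod]
  · exact Finset.sum_congr rfl fun i _ => by rw [Real.log_pow]
  · intro i _
    have := (Finset.mem_filter.mp i.2).2.pos
    positivity

theorem prod_bb_le {κ C0 C1 : ℝ} (hκ : 0 < κ) (hκ2 : κ ≤ 1 / 2) (hC0 : 1 ≤ C0)
    {bb : ℕ → ℕ → ℝ} (hbb : LocalMajorant κ C0 C1 bb) {y0 : ℝ} {q Q : ℕ} (hq : 1 ≤ q)
    (hqQ : q ≤ Q) (h2 : ∀ p ∈ q.primeFactors, y0 < (p : ℝ) → 2 ≤ q.factorization p) :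
    ∏ p ∈ q.primeFactors, bb p (q.factorization p) ≤
      ∏ i : PI Q, fk (2 * C0 * tt y0 κ i) ((2 : ℝ) ^ (-(1 / C1))) (q.factorization i) := by
  rw [prod_PI Q (fun p => fk (2 * C0 * tt y0 κ p) ((2 : ℝ) ^ (-(1 / C1))) (q.factorization p))]
  rw [← Finset.prod_subset (primeFactors_subset hq hqQ)]
  · refine Finset.prod_le_prod (fun p _ => hbb.nonneg _ _) fun p hp => ?_
    have hpp := Nat.prime_of_mem_primeFactors hp
    have hp2 := hpp.two_le
    have hp0 : (0 : ℝ) < p := by exact_mod_cast hpp.pos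
    have hp1 : (1 : ℝ) ≤ p := by exact_mod_cast hpp.one_lt.le
    have he : 1 ≤ q.factorization p :=
      hpp.factorization_pos_of_dvd (by omega) (Nat.dvd_of_mem_primeFactors hp)
    unfold tt
    split_ifs with hy
    · refine bb_le hC0 (by linarith) hp2 he (hbb.le_one _ _) ?_ (hbb.decay _ _ hpp he)
      rcases Nat.lt_or_ge 1 (q.factorization p) with h | h
      · refine (hbb.two p _ hpp h).trans ?_
        rw [div_eq_mul_inv]
        refine mul_le_mul_of_nonneg_left ?_ (by linarith)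
        rw [← Real.rpow_neg_one]
        exact Real.rpow_le_rpow_of_exponent_le hp1 (by linarith)
      · have : q.factorization p = 1 := by omega
        rw [this]
        exact hbb.one p hpp
    · have h3 := h2 p hp (not_le.mp hy)
      refine bb_le hC0 le_rfl hp2 he (hbb.le_one _ _) ?_ (hbb.decay _ _ hpp he)
      rw [Real.rpow_neg_one, ← div_eq_mul_inv]
      exact hbb.two p _ hpp h3
  · intro p _ hp
    have : q.factorization p = 0 := by
      rw [← Finsupp.notMem_support_iff, Nat.support_factorization]; exact hp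
    rw [this, fk_zero]

theorem num1 {C0 C2 C5 ell : ℝ} (hC0 : 1 ≤ C0) (hC2 : 1 ≤ C2) (hC5 : 20 * C0 * C2 ≤ C5)
    (hell : 1 / 2 ≤ ell) : 16 * C0 * C2 * ell ≤ (C5 * ell) ^ 2 := by
  have h0 : 1 ≤ C0 * C2 := one_le_mul_of_one_le_of_one_le hC0 hC2
  have h1 : 16 * C0 * C2 ≤ C5 := by linarith
  have h2 : 16 * C0 * C2 * ell ≤ C5 * ell := mul_le_mul_of_nonneg_right h1 (by linarith)
  have h20 : 20 ≤ C5 := by linarith
  have h3 : 1 ≤ C5 * ell := by
    calc (1 : ℝ) ≤ 20 * (1 / 2) := by norm_num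
      _ ≤ C5 * ell := mul_le_mul h20 hell (by norm_num) (by linarith)
  exact h2.trans (le_self_pow₀ h3 (by norm_num))

theorem card_le_log {R : Finset ℕ} {q Q : ℕ} (hq : 1 ≤ q) (hR : ∀ p ∈ R, p.Prime)
    (h : q * ∏ p ∈ R, p ≤ Q) : (R.card : ℝ) * Real.log 2 ≤ Real.log Q := by
  have h1 : 2 ^ R.card ≤ ∏ p ∈ R, p := by
    rw [← Finset.prod_const]
    exact Finset.prod_le_prod' fun p hp => (hR p hp).two_le
  have h2 : 2 ^ R.card ≤ Q := by
    calc 2 ^ R.card ≤ ∏ p ∈ R, p := h1
      _ ≤ q * ∏ p ∈ R, p := Nat.le_mul_of_pos_left _ hq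
      _ ≤ Q := h
  rw [← Real.log_pow]
  exact Real.log_le_log (by positivity) (by exact_mod_cast h2)

end RandomModulusAux

open RandomModulusAux in
/-- random modulus `v = ∏ p^{e_p}` with independent exponents, restricted to `v ≤ V` -/
theorem random_modulus (κ C0 C1 C2 C5 : ℝ) (hκ : 0 < κ) (hκ2 : κ ≤ 1 / 2) (hC0 : 1 ≤ C0)
    (hC1 : 1 ≤ C1) (hC2 : 1 ≤ C2) (hC5 : 20 * C0 * C2 ≤ C5) :
    ∃ C3 : ℝ, 1 ≤ C3 ∧ ∀ (ell : ℝ) (V Q : ℕ) (bb : ℕ → ℕ → ℝ), 1 / 2 ≤ ell →
      (Q : ℝ) ≤ Real.exp (C2 * ell) → Real.exp (C3 * ell ^ ((1 - κ) / κ)) ≤ V →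
      LocalMajorant κ C0 C1 bb →
      ∃ w : ℕ → ℝ, (∀ v, 0 ≤ w v) ∧ ∑ v ∈ Finset.Icc 1 V, w v ≤ 1 ∧
        ∀ (q : ℕ) (R : Finset ℕ), 1 ≤ q → (∀ p ∈ R, p.Prime ∧ (C5 * ell) ^ (1 / κ) < (p : ℝ) ∧
          ¬ p ∣ q) → q * ∏ p ∈ R, p ≤ Q →
          (∀ p ∈ q.primeFactors, (C5 * ell) ^ (1 / κ) < (p : ℝ) → 2 ≤ q.factorization p) →
          ∏ p ∈ q.primeFactors, bb p (q.factorization p)
            ≤ 2 * ∑ v ∈ (Finset.Icc 1 V).filter (fun v => q ∣ v ∧ ∀ p ∈ R, ¬ p ∣ v), w v := by
  classical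
  set ρ : ℝ := (2 : ℝ) ^ (-(1 / C1)) with hρdef
  have hρ : 0 < ρ := by positivity
  have hρ1 : ρ < 1 := Real.rpow_lt_one_of_one_lt_of_neg (by norm_num)
    (neg_lt_zero.mpr (by positivity))
  set s : ℝ := (1 - κ) / κ with hs
  have hs1 : 1 ≤ s := by
    rw [hs, le_div_iff₀ hκ]; linarith
  have h1ρ : 0 < 1 - ρ := by linarith
  set G : ℝ := 2 * C0 / (1 - ρ) with hG
  have hG0 : 0 < G := by positivity
  have hC5' : 20 ≤ C5 := by
    have h0 : 1 ≤ C0 * C2 := one_le_mul_of_one_le_of_one_le hC0 hC2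
    linarith
  set C4 : ℝ := (1 + G) * C2 * 2 ^ s + G * (16 * C5 ^ s + 3 * (2 * C2 + 2) * 2 ^ s) with hC4
  have hC40 : 0 ≤ C4 := by positivity
  refine ⟨4 * C4 + 1, by linarith, ?_⟩
  intro ell V Q bb hell hQ hV hbb
  have hell0 : 0 < ell := by linarith
  set y0 : ℝ := (C5 * ell) ^ (1 / κ) with hy0
  have hCe : 10 ≤ C5 * ell := by
    calc (10 : ℝ) = 20 * (1 / 2) := by norm_num
      _ ≤ C5 * ell := mul_le_mul hC5' hell (by norm_num) (by linarith)
  have hy01 : 1 ≤ y0 := Real.one_le_rpow (by linarith) (by positivity)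
  have hy02 : (C5 * ell) ^ 2 ≤ y0 := by
    rw [← Real.rpow_natCast, hy0]
    refine Real.rpow_le_rpow_of_exponent_le (by linarith) ?_
    rw [le_div_iff₀ hκ]
    push_cast
    linarith
  have hy0s : y0 ^ (1 - κ) = C5 ^ s * ell ^ s := by
    rw [hy0, ← Real.rpow_mul (by positivity), ← Real.mul_rpow (by positivity) hell0.le]
    congr 1
    rw [hs]; ring
  have hells : ell ≤ 2 ^ s * ell ^ s := by
    rw [← Real.mul_rpow (by norm_num) hell0.le]
    calc ell ≤ (2 * ell) ^ (1 : ℝ) := by rw [Real.rpow_one]; linarith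
      _ ≤ (2 * ell) ^ s := Real.rpow_le_rpow_of_exponent_le (by linarith) hs1
  have hlogV : (4 * C4 + 1) * ell ^ s ≤ Real.log V := by
    rw [Real.le_log_iff_exp_le (lt_of_lt_of_le (Real.exp_pos _) hV)]
    exact hV
  have hlogV0 : 0 < Real.log V := lt_of_lt_of_le (by positivity) hlogV
  let f : PI Q → ℕ → ℝ := fun i => fk (2 * C0 * tt y0 κ i) ρ
  have hpi : ∀ i : PI Q, Nat.Prime (i : ℕ) := fun i => (Finset.mem_filter.mp i.2).2
  have hf0 : ∀ i k, 0 ≤ f i k := fun i k =>
    fk_nonneg (mul_nonneg (by linarith) (tt_nonneg _ _ _)) hρ.le k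
  have hfa : ∀ i, Antitone (f i) := fun i =>
    fk_antitone (mul_nonneg (by linarith) (tt_nonneg _ _ _)) hρ.le hρ1.le
  have hmu : ∀ e : PI Q → Fin (Q + 1), 0 ≤ mu f Q e := mu_nonneg hfa hf0 Q
  let val : PI Q → ℕ := fun i => (i : ℕ)
  refine ⟨fun v => ∑ e : PI Q → Fin (Q + 1), (if vv val e = v then mu f Q e else 0), ?_, ?_, ?_⟩
  · intro v
    exact Finset.sum_nonneg fun e _ => by split_ifs <;> simp [hmu]
  · rw [Finset.sum_comm]
    have h1 : ∀ e : PI Q → Fin (Q + 1),
        ∑ v ∈ Finset.Icc 1 V, (if vv val e = v then mu f Q e else 0) ≤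
        (if ∀ i, (0 : ℕ) ≤ (e i : ℕ) then mu f Q e else 0) := by
      intro e
      rw [Finset.sum_ite_eq, if_pos (fun i => Nat.zero_le _)]
      split_ifs
      · exact le_rfl
      · exact hmu e
    refine (Finset.sum_le_sum fun e _ => h1 e).trans ?_
    rw [sum_mu f Q (fun _ => 0) (fun _ => Nat.zero_le _)]
    simp [f, fk_zero]
  · intro q R hq hR hqR hq2
    have hRpos : 1 ≤ ∏ p ∈ R, p := Finset.one_le_prod' fun p hp => (hR p hp).1.one_lt.le
    have hqQ : q ≤ Q := (Nat.le_mul_of_pos_right q hRpos).trans hqR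
    have hQ1 : 1 ≤ Q := hq.trans hqQ
    have hlogQ : Real.log Q ≤ C2 * ell := by
      have : (0 : ℝ) < Q := by exact_mod_cast hQ1
      rw [Real.log_le_iff_le_exp this]
      exact hQ
    refine (prod_bb_le hκ hκ2 hC0 hbb hq hqQ hq2).trans ?_
    let a : PI Q → ℕ := fun i => q.factorization i
    have ha : ∀ i, a i ≤ Q := fun i =>
      ((Nat.factorization_lt _ (by omega)).le).trans hqQ
    let B : PI Q → ℝ := fun i => (1 + G) * a i + G * tt y0 κ i
    have hB : ∀ j, ∑ k ∈ Finset.Icc 1 Q, f j (max (a j) k) ≤ B j * f j (a j) := fun j =>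
      sum_fk (D := 2 * C0) rfl (tt_nonneg _ _ _) (tt_le_one hκ (hpi j).one_lt.le) (by linarith)
        hρ hρ1 (a j) Q
    have hS : ∑ j, B j * Real.log (val j) ≤ Real.log V / 4 := by
      have e1 : ∑ j, B j * Real.log (val j) = (1 + G) * Real.log q +
          G * ∑ p ∈ (Finset.range (Q + 1)).filter Nat.Prime, tt y0 κ p * Real.log p := by
        rw [← sum_factorization_log hq hqQ, ← sum_PI Q (fun p => tt y0 κ p * Real.log p),
          Finset.mul_sum, Finset.mul_sum, ← Finset.sum_add_distrib]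
        exact Finset.sum_congr rfl fun j _ => by simp only [B, a, val]; ring
      have e2 := sum_tt_log hκ hκ2 hy01 hQ1
      have e3 : Real.log q ≤ C2 * ell := by
        refine le_trans ?_ hlogQ
        exact Real.log_le_log (by exact_mod_cast hq) (by exact_mod_cast hqQ)
      have e4 : Real.log Q / Real.log 2 + 1 ≤ (2 * C2 + 2) * ell := by
        have h2 : Real.log Q / Real.log 2 ≤ 2 * C2 * ell := by
          rw [div_le_iff₀ (Real.log_pos (by norm_num))]
          have h3 := Real.log_two_gt_d9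
          have h4 : 0 < C2 * ell := by positivity
          have h5 : (2 * C2 * ell) * (1 / 2) ≤ 2 * C2 * ell * Real.log 2 :=
            mul_le_mul_of_nonneg_left (by linarith) (by linarith)
          linarith
        linarith
      rw [hy0s] at e2
      have e5 : ∑ j, B j * Real.log (val j) ≤ C4 * ell ^ s := by
        rw [e1]
        calc (1 + G) * Real.log q +
            G * ∑ p ∈ (Finset.range (Q + 1)).filter Nat.Prime, tt y0 κ p * Real.log p
            ≤ (1 + G) * (C2 * ell) +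
              G * (16 * (C5 ^ s * ell ^ s) + 3 * ((2 * C2 + 2) * ell)) := by
              gcongr
              exact e2.trans (by linarith)
          _ ≤ (1 + G) * (C2 * (2 ^ s * ell ^ s)) +
              G * (16 * (C5 ^ s * ell ^ s) + 3 * ((2 * C2 + 2) * (2 ^ s * ell ^ s))) := by
              gcongr
          _ = C4 * ell ^ s := by rw [hC4]; ring
      have e6 : 0 < ell ^ s := by positivity
      linarith
    let R' : Finset (PI Q) := Finset.univ.filter (fun i => (i : ℕ) ∈ R)
    have hR0 : ∀ j ∈ R', a j = 0 := by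
      intro j hj
      rw [Finset.mem_filter] at hj
      exact Nat.factorization_eq_zero_of_not_dvd (hR _ hj.2).2.2
    have hR1 : ∑ j ∈ R', f j 1 ≤ 1 / 4 := by
      have h1 : ∀ j ∈ R', f j 1 ≤ 2 * C0 / y0 := by
        intro j hj
        rw [Finset.mem_filter] at hj
        have hjy := (hR _ hj.2).2.1
        have hy0pos : 0 < y0 := by linarith
        simp only [f, fk, one_ne_zero, if_false, pow_one]
        refine (min_le_right _ _).trans ?_
        rw [tt, if_neg (not_le.mpr hjy), Real.rpow_neg_one]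
        have h3 : ((j : ℕ) : ℝ)⁻¹ ≤ y0⁻¹ := inv_anti₀ hy0pos hjy.le
        calc 2 * C0 * ((j : ℕ) : ℝ)⁻¹ * ρ ≤ 2 * C0 * y0⁻¹ * 1 := by gcongr
          _ = 2 * C0 / y0 := by ring
      have h2 : (R'.card : ℝ) ≤ 2 * C2 * ell := by
        have h3 : R'.card ≤ R.card := by
          refine Finset.card_le_card_of_injOn (fun i => (i : ℕ)) ?_ ?_
          · intro i hi
            exact (Finset.mem_filter.mp hi).2
          · intro i _ j _ hij
            exact Subtype.ext hij
        have h4 := card_le_log hq (fun p hp => (hR p hp).1) hqR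
        have h5 : (R'.card : ℝ) ≤ R.card := by exact_mod_cast h3
        have h6 := Real.log_two_gt_d9
        have h7 : (0 : ℝ) ≤ R.card := by positivity
        have h8 : (R.card : ℝ) * (1 / 2) ≤ C2 * ell := by
          refine le_trans ?_ (h4.trans hlogQ)
          exact mul_le_mul_of_nonneg_left (by linarith) h7
        linarith
      have hy0pos : 0 < y0 := by linarith
      calc ∑ j ∈ R', f j 1 ≤ ∑ j ∈ R', 2 * C0 / y0 := Finset.sum_le_sum h1
        _ = R'.card * (2 * C0 / y0) := by rw [Finset.sum_const, nsmul_eq_mul]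
        _ ≤ 2 * C2 * ell * (2 * C0 / y0) := by gcongr
        _ = (4 * C0 * C2 * ell) / y0 := by ring
        _ ≤ 1 / 4 := by
          rw [div_le_iff₀ hy0pos]
          have := num1 hC0 hC2 hC5 hell
          linarith
    refine (generic_bound f hfa hf0 (fun i => fk_zero _ _) Q a ha hQ1 val
      (fun i => (hpi i).one_lt.le) B hB V hlogV0 hS R' hR0 hR1).trans ?_
    refine mul_le_mul_of_nonneg_left ?_ (by norm_num)
    rw [Finset.sum_comm]
    refine Finset.sum_le_sum fun e _ => ?_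
    rw [Finset.sum_ite_eq]
    by_cases hc : (∀ i, a i ≤ (e i : ℕ)) ∧ vv val e ≤ V ∧ ∀ j ∈ R', (e j : ℕ) = 0
    · rw [if_pos hc, if_pos]
      rw [Finset.mem_filter, Finset.mem_Icc]
      refine ⟨⟨Finset.one_le_prod' fun i _ => Nat.one_le_pow _ _ (hpi i).pos, hc.2.1⟩, ?_, ?_⟩
      · have : q = ∏ i : PI Q, (i : ℕ) ^ (q.factorization i) := (prod_factorization hq hqQ).symm
        rw [this]
        exact Finset.prod_dvd_prod_of_dvd _ _ fun i _ => pow_dvd_pow _ (hc.1 i)
      · intro p hp hdvd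
        have hpp := (hR p hp).1
        obtain ⟨i, -, hi⟩ := (hpp.prime.dvd_finsetProd_iff _).mp hdvd
        have h3 : p ∣ (i : ℕ) := hpp.dvd_of_dvd_pow hi
        have h4 : p = (i : ℕ) := (Nat.prime_dvd_prime_iff_eq hpp (hpi i)).mp h3
        have h5 : (e i : ℕ) = 0 := hc.2.2 i (by
          rw [Finset.mem_filter]; exact ⟨Finset.mem_univ _, h4 ▸ hp⟩)
        rw [h5, pow_zero] at hi
        exact hpp.one_lt.ne' (Nat.dvd_one.mp hi)
    · rw [if_neg hc]
      split_ifs
      · exact hmu e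
      · exact le_rfl

end Vale.Agent.P042
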