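import Vale.Agent.P042.Defs

namespace Vale.Agent.P042

open Finset Polynomial

/-- G3-0: the density bound on residue classes inside a window -/
theorem count_le (N : ℕ) (A : Finset ℤ) (V L J : ℕ) (D0 η : ℝ)
    (hD0 : 0 ≤ D0) (hη : 0 < η) (hreg : Regular A V L D0) (hVJ : (V : ℝ) ≤ η * J)
    (hVL : V * L ≤ J) (v : ℕ) (hv : 1 ≤ v) (hvV : v ≤ V) (y c : ℤ) :
    (((A.filter (fun x => y < x ∧ x ≤ y + J)).filter
      (fun x => x ≡ c [ZMOD (v : ℤ)])).card : ℝ) ≤ (1 + η) * D0 * J / v := by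
  -- the first element of the class after `y`
  set c0 : ℤ := y + 1 + (c - (y + 1)) % v with hc0
  have hvpos : (0 : ℤ) < v := by exact_mod_cast hv
  have hmod0 : 0 ≤ (c - (y + 1)) % v := Int.emod_nonneg _ hvpos.ne'
  have hmod1 : (c - (y + 1)) % v < v := Int.emod_lt_of_pos _ hvpos
  have hsub : (A.filter (fun x => y < x ∧ x ≤ y + J)).filter (fun x => x ≡ c [ZMOD (v : ℤ)])
      ⊆ A.filter (fun x => ∃ i : ℕ, i < J / v + 1 ∧ x = c0 + v * i) := by
    intro x hx
    rw [Finset.mem_filter, Finset.mem_filter] at hx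
    obtain ⟨⟨hxA, hxy, hxJ⟩, hxc⟩ := hx
    rw [Finset.mem_filter]
    refine ⟨hxA, ?_⟩
    have h1 : (v : ℤ) ∣ x - c0 := by
      have h2 : (v : ℤ) ∣ c - x := hxc.dvd
      have h3 : (v : ℤ) ∣ (c - (y + 1)) - (c - (y + 1)) % v := Int.dvd_self_sub_emod
      have h4 : x - c0 = ((c - (y + 1)) - (c - (y + 1)) % v) - (c - x) := by rw [hc0]; ring
      rw [h4]
      exact dvd_sub h3 h2
    obtain ⟨i, hi⟩ := h1
    have hi0 : 0 ≤ i := by
      by_contra hcon
      push Not at hcon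
      have h5 : i ≤ -1 := by omega
      have h6 : (v : ℤ) * i ≤ v * (-1) := mul_le_mul_of_nonneg_left h5 hvpos.le
      linarith
    obtain ⟨j, rfl⟩ := Int.eq_ofNat_of_zero_le hi0
    refine ⟨j, ?_, by linarith⟩
    have h7 : (v : ℤ) * j < J := by linarith
    have h8 : v * j < J := by exact_mod_cast h7
    have h9 : j ≤ J / v := by
      rw [Nat.le_div_iff_mul_le hv]
      rw [mul_comm]; exact h8.le
    omega
  have hL : L ≤ J / v + 1 := by
    have h1 : L ≤ J / v := by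
      rw [Nat.le_div_iff_mul_le hv]
      calc L * v ≤ L * V := Nat.mul_le_mul_left _ hvV
        _ = V * L := Nat.mul_comm _ _
        _ ≤ J := hVL
    omega
  have h1 := hreg v hv hvV c0 (J / v + 1) hL
  have h2 : (((A.filter (fun x => y < x ∧ x ≤ y + J)).filter
      (fun x => x ≡ c [ZMOD (v : ℤ)])).card : ℝ) ≤
      ((A.filter (fun x => ∃ i : ℕ, i < J / v + 1 ∧ x = c0 + v * i)).card : ℝ) := by
    exact_mod_cast Finset.card_le_card hsub
  refine h2.trans (h1.trans ?_)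
  have hvR : (0 : ℝ) < v := by exact_mod_cast hv
  have h3 : ((J / v + 1 : ℕ) : ℝ) ≤ (1 + η) * J / v := by
    push_cast
    have h4 : ((J / v : ℕ) : ℝ) ≤ (J : ℝ) / v := Nat.cast_div_le
    have h5 : (1 : ℝ) ≤ η * J / v := by
      rw [le_div_iff₀ hvR, one_mul]
      refine le_trans ?_ hVJ
      exact_mod_cast hvV
    have h6 : (1 + η) * J / v = J / v + η * J / v := by ring
    rw [h6]; linarith
  calc D0 * ((J / v + 1 : ℕ) : ℝ) ≤ D0 * ((1 + η) * J / v) := by gcongr
    _ = _ := by ring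

end Vale.Agent.P042
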