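import Vale.Agent.P042.MajorArc

/-! Module G1: Parseval identities over rational frequencies. -/

namespace Vale.Agent.P042

open Finset Polynomial

namespace ParsevalAux

open MajorArcAux

lemma conj_ee (x : ℝ) : (starRingEnd ℂ) (ee x) = ee (-x) := by
  unfold ee
  rw [← Complex.exp_conj]
  congr 1
  rw [map_mul, Complex.conj_ofReal, Complex.conj_I]
  push_cast
  ring

lemma ee_natmul (x : ℝ) (n : ℕ) : ee (n * x) = ee x ^ n := by
  unfold ee
  rw [← Complex.exp_nat_mul]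
  congr 1
  push_cast
  ring

lemma ee_add_int (x : ℝ) (n : ℤ) : ee (x + n) = ee x := by rw [ee_add, ee_int, mul_one]

lemma ee_eq_one_iff (x : ℝ) : ee x = 1 ↔ ∃ n : ℤ, x = n := by
  unfold ee
  rw [Complex.exp_eq_one_iff]
  constructor
  · rintro ⟨n, hn⟩
    refine ⟨n, ?_⟩
    have h1 : ((2 * Real.pi * x : ℝ) : ℂ) = (n : ℂ) * (2 * Real.pi) := by
      have h2 : (((2 * Real.pi * x : ℝ) : ℂ)) * Complex.I = ((n : ℂ) * (2 * Real.pi)) * Complex.I := by
        rw [hn]; ring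
      exact mul_right_cancel₀ Complex.I_ne_zero h2
    have h3 : (2 * Real.pi * x : ℝ) = n * (2 * Real.pi) := by exact_mod_cast h1
    have h4 : (2 * Real.pi : ℝ) ≠ 0 := Real.two_pi_pos.ne'
    have h5 : (2 * Real.pi) * x = (2 * Real.pi) * n := by rw [h3]; ring
    exact mul_left_cancel₀ h4 h5
  · rintro ⟨n, rfl⟩
    refine ⟨n, ?_⟩
    push_cast
    ring

/-- orthogonality -/
lemma orth {m : ℕ} (hm : 1 ≤ m) (n : ℤ) :
    ∑ r ∈ range m, ee ((n : ℝ) * r / m) = if (m : ℤ) ∣ n then (m : ℂ) else 0 := by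
  have hm0 : (m : ℝ) ≠ 0 := by positivity
  have h1 : ∀ r : ℕ, ee ((n : ℝ) * r / m) = ee ((n : ℝ) / m) ^ r := by
    intro r
    rw [← ee_natmul]
    congr 1
    ring
  simp only [h1]
  split_ifs with h
  · obtain ⟨t, rfl⟩ := h
    have : ee ((((m : ℤ) * t : ℤ) : ℝ) / m) = 1 := by
      rw [ee_eq_one_iff]
      refine ⟨t, ?_⟩
      push_cast
      field_simp
    rw [this]
    simp
  · have hne : ee ((n : ℝ) / m) ≠ 1 := by
      rw [Ne, ee_eq_one_iff]
      rintro ⟨t, ht⟩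
      apply h
      refine ⟨t, ?_⟩
      rw [div_eq_iff hm0] at ht
      have : ((n : ℤ) : ℝ) = (((m : ℤ) * t : ℤ) : ℝ) := by
        rw [ht]; push_cast; ring
      exact_mod_cast this
    rw [geom_sum_eq hne]
    have : ee ((n : ℝ) / m) ^ m = 1 := by
      rw [← ee_natmul, ee_eq_one_iff]
      exact ⟨n, by field_simp⟩
    rw [this, sub_self, zero_div]

lemma norm_sq_complex (z : ℂ) : ((‖z‖ ^ 2 : ℝ) : ℂ) = z * (starRingEnd ℂ) z := by
  rw [Complex.mul_conj']
  push_cast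
  rfl

lemma parseval {α : Type*} (B : Finset α) (k : α → ℤ) (w : α → ℂ) {m : ℕ} (hm : 1 ≤ m) :
    ((∑ r ∈ range m, ‖∑ a ∈ B, w a * ee ((k a : ℝ) * r / m)‖ ^ 2 : ℝ) : ℂ) =
      m * ∑ a ∈ B, ∑ a' ∈ B, if (m : ℤ) ∣ k a - k a' then w a * (starRingEnd ℂ) (w a') else 0 := by
  have h1 : ∀ r : ℕ, ((‖∑ a ∈ B, w a * ee ((k a : ℝ) * r / m)‖ ^ 2 : ℝ) : ℂ) =
      ∑ a ∈ B, ∑ a' ∈ B, (w a * (starRingEnd ℂ) (w a')) * ee (((k a - k a' : ℤ) : ℝ) * r / m) := by
    intro r
    rw [norm_sq_complex, map_sum, sum_mul_sum]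
    apply sum_congr rfl
    intro a _
    apply sum_congr rfl
    intro a' _
    rw [map_mul, conj_ee]
    have : ee (((k a - k a' : ℤ) : ℝ) * r / m) = ee ((k a : ℝ) * r / m) * ee (-((k a' : ℝ) * r / m)) := by
      rw [← ee_add]
      congr 1
      push_cast
      ring
    rw [this]
    ring
  rw [Complex.ofReal_sum, sum_congr rfl (fun r _ => h1 r), sum_comm, mul_sum]
  apply sum_congr rfl
  intro a _
  rw [sum_comm, mul_sum]
  apply sum_congr rfl
  intro a' _
  rw [← mul_sum, orth hm]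
  split_ifs <;> ring

/-- Parseval grouped by residue classes -/
lemma parseval_classes (S : Finset ℤ) (w : ℤ → ℂ) {m : ℕ} (hm : 1 ≤ m) :
    ∑ r ∈ range m, ‖∑ x ∈ S, w x * ee (-(((r : ℝ) / m) * x))‖ ^ 2 =
      m * ∑ c ∈ range m, ‖∑ x ∈ S.filter (fun x => x ≡ (c : ℤ) [ZMOD (m : ℤ)]), w x‖ ^ 2 := by
  have h0 : ∀ r : ℕ, ∀ x : ℤ, ee (-(((r : ℝ) / m) * x)) = ee (((-x : ℤ) : ℝ) * r / m) := by
    intro r x
    congr 1
    push_cast
    ring
  simp only [h0]
  have h1 := parseval S (fun x => -x) w hm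
  rw [← Complex.ofReal_inj]
  rw [h1]
  push_cast
  congr 1
  have h2 : ∀ c : ℕ, ((‖∑ x ∈ S.filter (fun x => x ≡ (c : ℤ) [ZMOD (m : ℤ)]), w x‖ : ℂ)) ^ 2 =
      ∑ x ∈ S, ∑ x' ∈ S, if x ≡ (c : ℤ) [ZMOD (m : ℤ)] ∧ x' ≡ (c : ℤ) [ZMOD (m : ℤ)] then
        w x * (starRingEnd ℂ) (w x') else 0 := by
    intro c
    have := norm_sq_complex (∑ x ∈ S.filter (fun x => x ≡ (c : ℤ) [ZMOD (m : ℤ)]), w x)
    push_cast at this
    rw [this, map_sum, sum_mul_sum, sum_filter]
    apply sum_congr rfl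
    intro x _
    split_ifs with h
    · rw [sum_filter]
      apply sum_congr rfl
      intro x' _
      simp [h]
    · simp [h]
  simp only [h2]
  conv_rhs => rw [sum_comm]
  apply sum_congr rfl
  intro x _
  conv_rhs => rw [sum_comm]
  apply sum_congr rfl
  intro x' _
  have hm0 : (0 : ℤ) < m := by exact_mod_cast hm
  -- unique residue
  by_cases h : (m : ℤ) ∣ -x - -x'
  · rw [if_pos h]
    have hc : ((x % (m : ℤ)).toNat : ℤ) = x % (m : ℤ) := Int.toNat_of_nonneg (Int.emod_nonneg _ hm0.ne')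
    have hxx' : x ≡ x' [ZMOD (m : ℤ)] := by
      rw [Int.modEq_iff_dvd]
      have : x' - x = -x - -x' := by ring
      rw [this]; exact h
    rw [sum_eq_single (x % (m : ℤ)).toNat]
    · rw [hc, if_pos]
      exact ⟨(Int.mod_modEq x m).symm, hxx'.symm.trans (Int.mod_modEq x m).symm⟩
    · intro c hc' hne
      rw [if_neg]
      rintro ⟨h1, -⟩
      apply hne
      rw [mem_range] at hc'
      have h2 : x % (m : ℤ) = (c : ℤ) := by
        rw [h1]
        exact Int.emod_eq_of_lt (by positivity) (by exact_mod_cast hc')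
      rw [h2]; simp
    · intro h1
      exfalso
      apply h1
      rw [mem_range]
      have h2 := Int.emod_lt_of_pos x hm0
      have : ((x % (m : ℤ)).toNat : ℤ) < m := by rw [hc]; exact h2
      exact_mod_cast this
  · rw [if_neg h]
    symm
    apply sum_eq_zero
    intro c _
    rw [if_neg]
    rintro ⟨h1, h2⟩
    apply h
    have h3 := (h1.trans h2.symm).dvd
    have : -x - -x' = x' - x := by ring
    rw [this]; exact h3

/-- Parseval for distinct frequencies -/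
lemma parseval_inj (B : Finset ℕ) (w : ℕ → ℂ) {m : ℕ} (hm : 1 ≤ m) (hB : B ⊆ range m) :
    ∑ r ∈ range m, ‖∑ a ∈ B, w a * ee ((a : ℝ) * r / m)‖ ^ 2 = m * ∑ a ∈ B, ‖w a‖ ^ 2 := by
  have h1 := parseval B (fun a => (a : ℤ)) w hm
  rw [← Complex.ofReal_inj]
  simp only [Int.cast_natCast] at h1
  rw [h1]
  push_cast
  congr 1
  apply sum_congr rfl
  intro a ha
  have ha' := mem_range.1 (hB ha)
  rw [sum_eq_single a]
  · rw [sub_self, if_pos (dvd_zero _)]
    have := norm_sq_complex (w a)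
    push_cast at this
    exact this.symm
  · intro b hb hne
    have hb' := mem_range.1 (hB hb)
    rw [if_neg]
    intro h
    apply hne
    have h2 := Int.eq_zero_of_abs_lt_dvd h (by
      rw [abs_lt]
      constructor <;> omega)
    omega
  · intro h
    exact absurd ha h

/-- reduced residues -/
def cop (q : ℕ) : Finset ℕ := (range q).filter (fun a => Nat.Coprime a q)

lemma card_cop (q : ℕ) : (cop q).card = Nat.totient q := by
  unfold cop Nat.totient
  congr 1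
  apply filter_congr
  intro a _
  exact Nat.coprime_comm

section freq
variable {E : Type*} [AddCommMonoid E]

/-- every fraction `a / v` in lowest terms -/
lemma sum_all {v : ℕ} (hv : 1 ≤ v) (Φ : ℝ → E) :
    ∑ d ∈ v.divisors, ∑ a ∈ cop d, Φ ((a : ℝ) / d) = ∑ a ∈ range v, Φ ((a : ℝ) / v) := by
  rw [sum_sigma']
  refine sum_bij' (fun s _ => s.2 * (v / s.1)) (fun a _ => ⟨v / Nat.gcd a v, a / Nat.gcd a v⟩)
    ?_ ?_ ?_ ?_ ?_
  · rintro ⟨d, a⟩ h
    simp only [mem_sigma, cop, mem_filter, mem_range, Nat.mem_divisors] at h ⊢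
    obtain ⟨⟨hd, -⟩, ha, -⟩ := h
    have h1 : 0 < v / d := Nat.div_pos (Nat.le_of_dvd (by omega) hd)
      (Nat.pos_of_dvd_of_pos hd (by omega))
    calc a * (v / d) < d * (v / d) := Nat.mul_lt_mul_of_pos_right ha h1
      _ = v := Nat.mul_div_cancel' hd
  · intro a h
    rw [mem_range] at h
    simp only [mem_sigma, cop, mem_filter, mem_range, Nat.mem_divisors]
    have hg : 0 < Nat.gcd a v := Nat.gcd_pos_of_pos_right _ (by omega)
    refine ⟨⟨Nat.div_dvd_of_dvd (Nat.gcd_dvd_right _ _), by omega⟩, ?_,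
      Nat.coprime_div_gcd_div_gcd hg⟩
    exact Nat.div_lt_div_of_lt_of_dvd (Nat.gcd_dvd_right _ _) h
  · rintro ⟨d, a⟩ h
    simp only [mem_sigma, cop, mem_filter, mem_range, Nat.mem_divisors] at h
    obtain ⟨⟨hd, -⟩, ha, hcop⟩ := h
    obtain ⟨e, rfl⟩ := hd
    have hd0 : 0 < d := by omega
    have he0 : 0 < e := Nat.pos_of_ne_zero (by rintro rfl; simp at hv)
    have h1 : d * e / d = e := Nat.mul_div_cancel_left _ hd0
    have h2 : Nat.gcd (a * e) (d * e) = e := by rw [Nat.gcd_mul_right, hcop, one_mul]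
    simp only [h1, h2]
    rw [Nat.mul_div_cancel _ he0, Nat.mul_div_cancel _ he0]
  · intro a h
    rw [mem_range] at h
    have hg : 0 < Nat.gcd a v := Nat.gcd_pos_of_pos_right _ (by omega)
    simp only
    rw [Nat.div_div_self (Nat.gcd_dvd_right _ _) (by omega),
      Nat.div_mul_cancel (Nat.gcd_dvd_left _ _)]
  · rintro ⟨d, a⟩ h
    simp only [mem_sigma, cop, mem_filter, mem_range, Nat.mem_divisors] at h
    obtain ⟨⟨hd, -⟩, ha, hcop⟩ := h
    obtain ⟨e, rfl⟩ := hd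
    have hd0 : 0 < d := by omega
    have he0 : 0 < e := Nat.pos_of_ne_zero (by rintro rfl; simp at hv)
    have h1 : d * e / d = e := Nat.mul_div_cancel_left _ hd0
    simp only [h1]
    congr 1
    push_cast
    field_simp

/-- CRT for reduced fractions -/
lemma sum_cop_mul {m n : ℕ} (hm : 1 ≤ m) (hn : 1 ≤ n) (hmn : Nat.Coprime m n) (Φ : ℝ → E)
    (hΦ : ∀ t (k : ℤ), Φ (t + k) = Φ t) :
    ∑ c ∈ cop (m * n), Φ ((c : ℝ) / ((m * n : ℕ) : ℝ)) =
      ∑ b ∈ cop n, ∑ a ∈ cop m, Φ ((a : ℝ) / m + (b : ℝ) / n) := by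
  classical
  rw [sum_comm, ← sum_product']
  have hmn0 : 0 < m * n := Nat.mul_pos hm hn
  have hinj : Set.InjOn (fun ab : ℕ × ℕ => (ab.1 * n + ab.2 * m) % (m * n))
      ((cop m ×ˢ cop n : Finset (ℕ × ℕ)) : Set (ℕ × ℕ)) := by
    rintro ⟨a, b⟩ h ⟨a', b'⟩ h' heq
    rw [mem_coe, mem_product] at h h'
    simp only [cop, mem_filter, mem_range] at h h' heq
    obtain ⟨⟨ha, -⟩, hb, -⟩ := h
    obtain ⟨⟨ha', -⟩, hb', -⟩ := h'
    have h1 : a * n + b * m ≡ a' * n + b' * m [MOD m * n] := heq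
    have h2 : a * n ≡ a' * n [MOD m] := by
      have h3 := h1.of_mul_right n
      have e1 : a * n + b * m ≡ a * n [MOD m] := by
        simp [Nat.ModEq]
      have e2 : a' * n + b' * m ≡ a' * n [MOD m] := by
        simp [Nat.ModEq]
      exact e1.symm.trans (h3.trans e2)
    have h3 : b * m ≡ b' * m [MOD n] := by
      have h3 := h1.of_mul_left m
      have e1 : a * n + b * m ≡ b * m [MOD n] := by
        simp [Nat.ModEq]
      have e2 : a' * n + b' * m ≡ b' * m [MOD n] := by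
        simp [Nat.ModEq]
      exact e1.symm.trans (h3.trans e2)
    have h4 : a ≡ a' [MOD m] := Nat.ModEq.cancel_right_of_coprime hmn h2
    have h5 : b ≡ b' [MOD n] := Nat.ModEq.cancel_right_of_coprime hmn.symm h3
    rw [Prod.mk.injEq]
    exact ⟨Nat.ModEq.eq_of_lt_of_lt h4 ha ha', Nat.ModEq.eq_of_lt_of_lt h5 hb hb'⟩
  have himg : (cop m ×ˢ cop n).image (fun ab : ℕ × ℕ => (ab.1 * n + ab.2 * m) % (m * n)) =
      cop (m * n) := by
    apply eq_of_subset_of_card_le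
    · intro c hc
      rw [mem_image] at hc
      obtain ⟨⟨a, b⟩, hab, rfl⟩ := hc
      rw [mem_product] at hab
      simp only [cop, mem_filter, mem_range] at hab ⊢
      obtain ⟨⟨ha, hac⟩, hb, hbc⟩ := hab
      refine ⟨Nat.mod_lt _ hmn0, ?_⟩
      have h1 : Nat.Coprime (a * n + b * m) (m * n) := by
        apply Nat.Coprime.mul_right
        · rw [Nat.coprime_add_mul_right_left]
          exact Nat.Coprime.mul_left hac hmn.symm
        · rw [add_comm, Nat.coprime_add_mul_right_left]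
          exact Nat.Coprime.mul_left hbc hmn
      unfold Nat.Coprime at h1 ⊢
      rw [← Nat.gcd_rec, Nat.gcd_comm]
      exact h1
    · rw [card_image_of_injOn hinj, card_product, card_cop, card_cop, card_cop,
        Nat.totient_mul hmn]
  rw [← himg, sum_image hinj]
  apply sum_congr rfl
  rintro ⟨a, b⟩ _
  simp only
  have h1 := Nat.div_add_mod (a * n + b * m) (m * n)
  have h2 : (((a * n + b * m) % (m * n) : ℕ) : ℝ) =
      (a : ℝ) * n + b * m - ((m : ℝ) * n) * (((a * n + b * m) / (m * n) : ℕ) : ℝ) := by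
    have h3 : (((m * n) * ((a * n + b * m) / (m * n)) + (a * n + b * m) % (m * n) : ℕ) : ℝ) =
        ((a * n + b * m : ℕ) : ℝ) := by rw [h1]
    push_cast at h3
    linarith
  rw [h2, ← hΦ ((a : ℝ) / m + (b : ℝ) / n) (-(((a * n + b * m) / (m * n) : ℕ) : ℤ))]
  generalize (a * n + b * m) / (m * n) = t
  congr 1
  have hm0 : (m : ℝ) ≠ 0 := by positivity
  have hn0 : (n : ℝ) ≠ 0 := by positivity
  push_cast
  field_simp
  ring

end freq

/-- Ramanujan sums for squarefree moduli -/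
lemma ramanujan (R : Finset ℕ) (hR : ∀ p ∈ R, p.Prime) (n : ℤ) :
    ∑ b ∈ cop (∏ p ∈ R, p), ee (((b : ℝ) / ((∏ p ∈ R, p : ℕ) : ℝ)) * n) =
      ∏ p ∈ R, ((if (p : ℤ) ∣ n then (p : ℂ) else 0) - 1) := by
  classical
  induction R using Finset.induction_on with
  | empty =>
    have : cop 1 = {0} := by
      ext a
      simp [cop]
    simp [this, ee_zero]
  | insert p R hp ih =>
    have hpp : p.Prime := hR p (mem_insert_self _ _)
    have hR' : ∀ q ∈ R, q.Prime := fun q hq => hR q (mem_insert_of_mem hq)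
    have hPR : 1 ≤ ∏ q ∈ R, q := Finset.prod_pos fun q hq => (hR' q hq).pos
    have hcop : Nat.Coprime p (∏ q ∈ R, q) := by
      apply Nat.Coprime.prod_right
      intro q hq
      exact (Nat.coprime_primes hpp (hR' q hq)).2 (by rintro rfl; exact hp hq)
    rw [prod_insert hp, prod_insert hp, ← ih hR']
    have h1 := sum_cop_mul hpp.one_le hPR hcop (fun t => ee (t * n)) (fun t k => by
      have : (t + (k : ℝ)) * n = t * n + ((k * n : ℤ) : ℝ) := by push_cast; ring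
      rw [this, ee_add_int])
    rw [h1, mul_sum]
    apply sum_congr rfl
    intro b _
    have h2 : ∀ a : ℕ, ee (((a : ℝ) / p + (b : ℝ) / ((∏ q ∈ R, q : ℕ) : ℝ)) * n) =
        ee (((a : ℝ) / p) * n) * ee (((b : ℝ) / ((∏ q ∈ R, q : ℕ) : ℝ)) * n) := by
      intro a
      rw [← ee_add]; congr 1; ring
    simp only [h2]
    rw [← sum_mul]
    congr 1
    have h3 := orth hpp.one_le n
    have h4 : range p = insert 0 (cop p) := by
      ext a
      simp only [cop, mem_insert, mem_filter, mem_range]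
      constructor
      · intro ha
        rcases Nat.eq_zero_or_pos a with h0 | h0
        · left; exact h0
        · right; exact ⟨ha, ((Nat.Prime.coprime_iff_not_dvd hpp).2 (Nat.not_dvd_of_pos_of_lt h0 ha)).symm⟩
      · rintro (rfl | h)
        · exact hpp.pos
        · exact h.1
    have h5 : (0 : ℕ) ∉ cop p := by
      simp only [cop, mem_filter, mem_range, not_and]
      intro _
      rw [Nat.coprime_zero_left]
      exact hpp.one_lt.ne'
    rw [h4, sum_insert h5] at h3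
    have h6 : ee ((n : ℝ) * ((0 : ℕ) : ℝ) / p) = 1 := by simp [ee_zero]
    rw [h6] at h3
    rw [← h3]
    rw [add_sub_cancel_left]
    apply sum_congr rfl
    intro a _
    congr 1
    ring

/-- the frequency-side expression of the energy -/
lemma energy_eq (F : ℤ → ℝ) (y : ℤ) (J : ℕ) (R : Finset ℕ) (hR : ∀ p ∈ R, p.Prime) :
    energy F y J R = ∑ b ∈ cop (∏ p ∈ R, p),
      ‖(∑ x ∈ Finset.Ioc y (y + J),
        (F x : ℂ) * ee (-(((b : ℝ) / ((∏ p ∈ R, p : ℕ) : ℝ)) * x))) / (J : ℂ)‖ ^ 2 := by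
  have hPR : 1 ≤ ∏ q ∈ R, q := Finset.prod_pos fun q hq => (hR q hq).pos
  set PR := ∏ p ∈ R, p with hPRdef
  have hPR0 : (PR : ℝ) ≠ 0 := by positivity
  set w : ℕ → ℂ := fun b => (∑ x ∈ Finset.Ioc y (y + J),
    (F x : ℂ) * ee (-(((b : ℝ) / (PR : ℝ)) * x))) / (J : ℂ) with hw
  have h1 : ∀ r : ℕ, (comp F y J R r : ℂ) = ∑ b ∈ cop PR, w b * ee ((b : ℝ) * r / PR) := by
    intro r
    have h2 : ∀ x : ℤ, ((∏ p ∈ R, ((if x ≡ (r : ℤ) [ZMOD (p : ℤ)] then (p : ℝ) else 0) - 1) : ℝ) : ℂ) =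
        ∑ b ∈ cop PR, ee (((b : ℝ) / (PR : ℝ)) * ((r : ℤ) - x : ℤ)) := by
      intro x
      rw [hPRdef, ramanujan R hR]
      push_cast
      apply prod_congr rfl
      intro p _
      have : (p : ℤ) ∣ (r : ℤ) - x ↔ x ≡ (r : ℤ) [ZMOD (p : ℤ)] := Int.modEq_iff_dvd.symm
      by_cases h : x ≡ (r : ℤ) [ZMOD (p : ℤ)]
      · rw [if_pos h, if_pos (this.2 h)]; simp
      · rw [if_neg h, if_neg (fun h' => h (this.1 h'))]; simp
    unfold comp
    rw [Complex.ofReal_div, Complex.ofReal_sum]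
    have h3 : ∀ x ∈ Finset.Ioc y (y + J), ((F x * ∏ p ∈ R,
        ((if x ≡ (r : ℤ) [ZMOD (p : ℤ)] then (p : ℝ) else 0) - 1) : ℝ) : ℂ) =
        ∑ b ∈ cop PR, (F x : ℂ) * ee (-(((b : ℝ) / (PR : ℝ)) * x)) * ee ((b : ℝ) * r / PR) := by
      intro x _
      rw [Complex.ofReal_mul, h2, mul_sum]
      apply sum_congr rfl
      intro b _
      rw [mul_assoc, ← ee_add]
      congr 2
      push_cast
      ring
    rw [sum_congr rfl h3, sum_comm, hw]
    simp only [sum_div, sum_mul]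
    apply sum_congr rfl
    intro b _
    apply sum_congr rfl
    intro x _
    rw [Complex.ofReal_natCast]
    ring
  unfold energy
  rw [← hPRdef]
  have h4 : ∀ r : ℕ, (comp F y J R r) ^ 2 = ‖∑ b ∈ cop PR, w b * ee ((b : ℝ) * r / PR)‖ ^ 2 := by
    intro r
    rw [← h1, Complex.norm_real, Real.norm_eq_abs, sq_abs]
  rw [sum_congr rfl (fun r _ => h4 r), parseval_inj (cop PR) w hPR (filter_subset _ _)]
  rw [mul_div_cancel_left₀ _ hPR0]

end ParsevalAux

open ParsevalAux MajorArcAux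

/-! ### Module G1 (file Parseval.lean) -/

/-- G1a Parseval over all fractions with denominator dividing `v` -/
theorem sum_EN_dvd (A : Finset ℤ) (y : ℤ) (J v : ℕ) (hv : 1 ≤ v) :
    ∑ q ∈ v.divisors, EN A y J q
      = (v : ℝ) * ∑ c ∈ Finset.range v, ((((A.filter (fun x => y < x ∧ x ≤ y + J)).filter
          (fun x => x ≡ (c : ℤ) [ZMOD (v : ℤ)])).card : ℝ) / J) ^ 2 := by
  set S := A.filter (fun x => y < x ∧ x ≤ y + J) with hS
  have h1 : ∀ q, EN A y J q = ∑ a ∈ cop q,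
      (fun t : ℝ => ‖(∑ x ∈ S, ee (-(t * x))) / (J : ℂ)‖ ^ 2) ((a : ℝ) / q) := by
    intro q
    unfold EN cop
    apply sum_congr rfl
    intro a _
    simp only
    congr 3
    apply sum_congr rfl
    intro x _
    congr 1
    ring
  simp only [h1]
  rw [sum_all hv (fun t : ℝ => ‖(∑ x ∈ S, ee (-(t * x))) / (J : ℂ)‖ ^ 2)]
  have h2 := parseval_classes S (fun _ => 1) hv
  simp only [one_mul, sum_const, nsmul_eq_mul, mul_one, Complex.norm_natCast] at h2
  have h3 : ∀ a : ℕ, ‖(∑ x ∈ S, ee (-((a : ℝ) / v * x))) / (J : ℂ)‖ ^ 2 =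
      ‖∑ x ∈ S, ee (-((a : ℝ) / v * x))‖ ^ 2 / (J : ℝ) ^ 2 := by
    intro a
    rw [norm_div, Complex.norm_natCast, div_pow]
  simp only [h3]
  rw [← sum_div, h2]
  simp only [div_pow]
  rw [← sum_div, mul_div_assoc]

/-- G1b fractions with denominator `q₁ * ∏ R`, `q₁ ∣ v`, `R` primes not dividing `v` -/
theorem sum_EN_energy (A : Finset ℤ) (y : ℤ) (J v : ℕ) (hv : 1 ≤ v) (R : Finset ℕ)
    (hR : ∀ p ∈ R, p.Prime) (hRv : ∀ p ∈ R, Nat.Coprime p v) :
    ∑ q ∈ v.divisors, EN A y J (q * ∏ p ∈ R, p)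
      = (∑ c ∈ Finset.range v, energy (fun x => if x ∈ A ∧ x ≡ (c : ℤ) [ZMOD (v : ℤ)]
          then (v : ℝ) else 0) y J R) / v := by
  set S := A.filter (fun x => y < x ∧ x ≤ y + J) with hS
  have hPR : 1 ≤ ∏ q ∈ R, q := Finset.prod_pos fun q hq => (hR q hq).pos
  have hPRv : Nat.Coprime v (∏ p ∈ R, p) := Nat.Coprime.prod_right fun p hp => (hRv p hp).symm
  have hv0 : (v : ℝ) ≠ 0 := by positivity
  set Φ : ℝ → ℝ := fun t => ‖(∑ x ∈ S, ee (-(t * x))) / (J : ℂ)‖ ^ 2 with hΦ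
  have hΦp : ∀ t (k : ℤ), Φ (t + k) = Φ t := by
    intro t k
    rw [hΦ]
    simp only
    congr 3
    apply sum_congr rfl
    intro x _
    have : -((t + (k : ℝ)) * x) = -(t * x) + ((-(k * x) : ℤ) : ℝ) := by push_cast; ring
    rw [this, ee_add_int]
  have h1 : ∀ q, EN A y J q = ∑ a ∈ cop q, Φ ((a : ℝ) / q) := by
    intro q
    unfold EN cop
    apply sum_congr rfl
    intro a _
    rw [hΦ]
    simp only
    congr 3
    apply sum_congr rfl
    intro x _
    congr 1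
    ring
  have h2 : ∀ q ∈ v.divisors, EN A y J (q * ∏ p ∈ R, p) =
      ∑ b ∈ cop (∏ p ∈ R, p), ∑ a ∈ cop q,
        Φ ((a : ℝ) / q + (b : ℝ) / ((∏ p ∈ R, p : ℕ) : ℝ)) := by
    intro q hq
    rw [Nat.mem_divisors] at hq
    rw [h1, sum_cop_mul (Nat.pos_of_dvd_of_pos hq.1 (by omega)) hPR
      (Nat.Coprime.coprime_dvd_left hq.1 hPRv) Φ hΦp]
  rw [sum_congr rfl h2, sum_comm]
  have h3 : ∀ b : ℕ, ∑ q ∈ v.divisors, ∑ a ∈ cop q,
      Φ ((a : ℝ) / q + (b : ℝ) / ((∏ p ∈ R, p : ℕ) : ℝ)) =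
      ∑ a ∈ range v, Φ ((a : ℝ) / v + (b : ℝ) / ((∏ p ∈ R, p : ℕ) : ℝ)) := fun b =>
    sum_all hv (fun t => Φ (t + (b : ℝ) / ((∏ p ∈ R, p : ℕ) : ℝ)))
  simp only [h3]
  -- the right-hand side
  simp only [energy_eq _ y J R hR]
  rw [sum_comm (s := Finset.range v), sum_div]
  apply sum_congr rfl
  intro b _
  set β : ℝ := (b : ℝ) / ((∏ p ∈ R, p : ℕ) : ℝ) with hβ
  have h4 := parseval_classes S (fun x => ee (-(β * x))) hv
  have h5 : ∀ a : ℕ, Φ ((a : ℝ) / v + β) =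
      ‖∑ x ∈ S, ee (-(β * x)) * ee (-((a : ℝ) / v * x))‖ ^ 2 / (J : ℝ) ^ 2 := by
    intro a
    rw [hΦ]
    simp only
    rw [norm_div, Complex.norm_natCast, div_pow]
    congr 3
    apply sum_congr rfl
    intro x _
    rw [← ee_add]
    congr 1
    ring
  simp only [h5]
  rw [← sum_div, h4]
  have h6 : ∀ c : ℕ, ∑ x ∈ Finset.Ioc y (y + J),
      (((if x ∈ A ∧ x ≡ (c : ℤ) [ZMOD (v : ℤ)] then (v : ℝ) else 0 : ℝ)) : ℂ) * ee (-(β * x)) =
      (v : ℂ) * ∑ x ∈ S.filter (fun x => x ≡ (c : ℤ) [ZMOD (v : ℤ)]), ee (-(β * x)) := by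
    intro c
    rw [mul_sum]
    have h7 : S.filter (fun x => x ≡ (c : ℤ) [ZMOD (v : ℤ)]) =
        (Finset.Ioc y (y + J)).filter (fun x => x ∈ A ∧ x ≡ (c : ℤ) [ZMOD (v : ℤ)]) := by
      ext x
      simp only [hS, mem_filter, mem_Ioc]
      tauto
    rw [h7, sum_filter]
    apply sum_congr rfl
    intro x _
    split_ifs <;> simp
  simp only [h6]
  have h8 : ∀ c : ℕ, ‖(v : ℂ) * (∑ x ∈ S.filter (fun x => x ≡ (c : ℤ) [ZMOD (v : ℤ)]),
      ee (-(β * x))) / (J : ℂ)‖ ^ 2 = (v : ℝ) ^ 2 *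
      ‖∑ x ∈ S.filter (fun x => x ≡ (c : ℤ) [ZMOD (v : ℤ)]), ee (-(β * x))‖ ^ 2 / (J : ℝ) ^ 2 := by
    intro c
    rw [norm_div, norm_mul, Complex.norm_natCast, Complex.norm_natCast, div_pow, mul_pow]
  simp only [h8]
  rw [← sum_div, ← mul_sum]
  field_simp

end Vale.Agent.P042
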