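import Vale.Agent.P042.Defs
import Vale.Agent.P042.Parseval
import Vale.Agent.P042.Level
import Vale.Agent.P042.WindowCount

namespace Vale.Agent.P042

open Finset Polynomial

/-- G3-b -/
theorem window_level (N : ℕ) (A : Finset ℤ) (V L J Q m : ℕ) (α η : ℝ)
    (hA : A ⊆ Finset.Icc 1 (N : ℤ)) (hα : 0 < α) (hα1 : α ≤ 1)
    (hη : 0 < η) (hη1 : η ≤ 1 / 1000) (hreg : Regular A V L ((1 + η) * α))
    (hVJ : (V : ℝ) ≤ η * J) (hVL : V * L ≤ J) (hm : 2 ≤ m) (hmα : Real.exp (-(m : ℝ)) ≤ α)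
    (hQ : 1 ≤ Q) (v : ℕ) (hv : 1 ≤ v) (hvV : v * Q ≤ V)
    (hJ : (8 : ℝ) * v * (Q : ℝ) ^ (10 * m + 10) * Real.exp (10 * (m : ℝ) + 10) ≤ J)
    (Ps : Finset ℕ) (hP : ∀ p ∈ Ps, p.Prime) (hPv : ∀ p ∈ Ps, ¬ p ∣ v) (d : ℕ) (hd : 1 ≤ d)
    (y : ℤ) :
    ∑ R ∈ Ps.powerset.filter (fun R => R.card = d ∧ ∏ p ∈ R, p ≤ Q),
      ∑ q ∈ v.divisors, EN A y J (q * ∏ p ∈ R, p)
      ≤ ((1 + η) ^ 2 * α) ^ 2 * (200 * (m : ℝ)) ^ d := by
  classical
  have hcopr : ∀ p ∈ Ps, Nat.Coprime p v := fun p hp =>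
    (Nat.Prime.coprime_iff_not_dvd (hP p hp)).2 (hPv p hp)
  have hvR : (0 : ℝ) < v := by exact_mod_cast hv
  have hJ0 : (0 : ℝ) < J := by
    refine lt_of_lt_of_le ?_ hJ
    have : (0 : ℝ) < Q := by exact_mod_cast hQ
    positivity
  have h1 : ∀ R ∈ Ps.powerset.filter (fun R => R.card = d ∧ ∏ p ∈ R, p ≤ Q),
      ∑ q ∈ v.divisors, EN A y J (q * ∏ p ∈ R, p)
      = (∑ c ∈ Finset.range v, energy (fun x => if x ∈ A ∧ x ≡ (c : ℤ) [ZMOD (v : ℤ)]
          then (v : ℝ) else 0) y J R) / v := by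
    intro R hR
    rw [Finset.mem_filter, Finset.mem_powerset] at hR
    exact sum_EN_energy A y J v hv R (fun p hp => hP p (hR.1 hp)) (fun p hp => hcopr p (hR.1 hp))
  rw [Finset.sum_congr rfl h1, ← Finset.sum_div, Finset.sum_comm, div_le_iff₀ hvR]
  set A1 : ℝ := (1 + η) ^ 2 * α with hA1
  have hA1α : α ≤ A1 := by
    rw [hA1]
    have : 1 ≤ (1 + η) ^ 2 := one_le_pow₀ (by linarith)
    exact le_mul_of_one_le_left hα.le this
  have hA12 : A1 ≤ 2 := by
    rw [hA1]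
    have h2 : (1 + η) ^ 2 ≤ 2 := by
      have : (1 + η) ^ 2 ≤ (1 + 1 / 1000) ^ 2 := by gcongr
      refine this.trans ?_
      norm_num
    calc (1 + η) ^ 2 * α ≤ 2 * 1 := by gcongr
      _ = 2 := by norm_num
  have hA10 : 0 ≤ A1 := hα.le.trans hA1α
  have h2 : ∀ c ∈ Finset.range v,
      ∑ R ∈ Ps.powerset.filter (fun R => R.card = d ∧ ∏ p ∈ R, p ≤ Q),
        energy (fun x => if x ∈ A ∧ x ≡ (c : ℤ) [ZMOD (v : ℤ)]
          then (v : ℝ) else 0) y J R ≤ A1 ^ 2 * (200 * (m : ℝ)) ^ d := by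
    intro c _
    refine level_lemma m hm Ps hP Q v hQ hv hcopr J y c _ ?_ ?_ A1 (hmα.trans hA1α) hA12 ?_ hJ d hd
    · intro x
      split_ifs <;> positivity
    · intro x _
      by_cases h3 : x ≡ (c : ℤ) [ZMOD (v : ℤ)]
      · rw [if_pos h3]
        split_ifs <;> linarith
      · rw [if_neg h3, if_neg (fun h => h3 h.2)]
    · intro R hR hRQ r
      set P := ∏ p ∈ R, p with hPdef
      have hPpos : 1 ≤ P := by
        rw [hPdef]
        exact Nat.one_le_iff_ne_zero.2 (Finset.prod_ne_zero_iff.2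
          (fun p hp => (hP p (hR hp)).ne_zero))
      have hPR : (0 : ℝ) < P := by exact_mod_cast hPpos
      have hcopP : Nat.Coprime v P := by
        rw [hPdef]
        apply Nat.Coprime.prod_right
        intro p hp
        exact (hcopr p (hR hp)).symm
      -- the sum is `v` times a count
      have hsum : ∑ x ∈ (Finset.Ioc y (y + J)).filter (fun x => x ≡ r [ZMOD ((P : ℕ) : ℤ)]),
          (if x ∈ A ∧ x ≡ (c : ℤ) [ZMOD (v : ℤ)] then (v : ℝ) else 0)
          = v * ((((Finset.Ioc y (y + J)).filter (fun x => x ≡ r [ZMOD ((P : ℕ) : ℤ)])).filter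
            (fun x => x ∈ A ∧ x ≡ (c : ℤ) [ZMOD (v : ℤ)])).card : ℝ) := by
        rw [← Finset.sum_filter, Finset.sum_const, nsmul_eq_mul, mul_comm]
      rw [hsum]
      set S := ((Finset.Ioc y (y + J)).filter (fun x => x ≡ r [ZMOD ((P : ℕ) : ℤ)])).filter
            (fun x => x ∈ A ∧ x ≡ (c : ℤ) [ZMOD (v : ℤ)]) with hS
      have hbound : (S.card : ℝ) ≤ (1 + η) * ((1 + η) * α) * J / (v * P : ℕ) := by
        rcases S.eq_empty_or_nonempty with he | ⟨x0, hx0⟩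
        · rw [he]; simp; positivity
        · have hvP : v * P ≤ V := (Nat.mul_le_mul_left v hRQ).trans hvV
          refine le_trans ?_ (count_le N A V L J ((1 + η) * α) η (by positivity) hη hreg hVJ hVL
            (v * P) (Nat.mul_pos hv hPpos) hvP y x0)
          have hsub : S ⊆ (A.filter (fun x => y < x ∧ x ≤ y + J)).filter
              (fun x => x ≡ x0 [ZMOD ((v * P : ℕ) : ℤ)]) := by
            intro x hx
            rw [hS, Finset.mem_filter, Finset.mem_filter, Finset.mem_Ioc] at hx hx0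
            rw [Finset.mem_filter, Finset.mem_filter]
            refine ⟨⟨hx.2.1, hx.1.1⟩, ?_⟩
            push_cast
            rw [← Int.modEq_and_modEq_iff_modEq_mul (by simpa using hcopP)]
            exact ⟨hx.2.2.trans hx0.2.2.symm, hx.1.2.trans hx0.1.2.symm⟩
          exact_mod_cast Finset.card_le_card hsub
      have h4 : ((P : ℕ) : ℝ) * (v * (S.card : ℝ)) / J ≤
          ((P : ℕ) : ℝ) * (v * ((1 + η) * ((1 + η) * α) * J / (v * P : ℕ))) / J := by
        gcongr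
      refine h4.trans (le_of_eq ?_)
      push_cast
      rw [hA1]
      field_simp
  calc ∑ c ∈ Finset.range v, ∑ R ∈ Ps.powerset.filter (fun R => R.card = d ∧ ∏ p ∈ R, p ≤ Q),
        energy (fun x => if x ∈ A ∧ x ≡ (c : ℤ) [ZMOD (v : ℤ)]
          then (v : ℝ) else 0) y J R
      ≤ ∑ c ∈ Finset.range v, A1 ^ 2 * (200 * (m : ℝ)) ^ d := Finset.sum_le_sum h2
    _ = A1 ^ 2 * (200 * (m : ℝ)) ^ d * v := by
        rw [Finset.sum_const, Finset.card_range, nsmul_eq_mul, mul_comm]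

end Vale.Agent.P042
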