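import Vale.Agent.P042.Defs
import Vale.Agent.P042.Parseval
import Vale.Agent.P042.WindowCount

namespace Vale.Agent.P042

open Finset Polynomial

namespace WindowSmallAux

/-- the number of elements of `A` in the window -/
noncomputable def wc (A : Finset ℤ) (J : ℕ) (y : ℤ) : ℝ :=
  ((A.filter (fun x => y < x ∧ x ≤ y + J)).card : ℝ)

lemma wc_nonneg (A : Finset ℤ) (J : ℕ) (y : ℤ) : 0 ≤ wc A J y := by
  unfold wc; positivity

lemma sum_wc (N J : ℕ) (A : Finset ℤ) (hA : A ⊆ Finset.Icc 1 (N : ℤ)) :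
    ∑ y ∈ Finset.Ioo (-(J : ℤ)) N, wc A J y = J * A.card := by
  unfold wc
  have h1 : ∀ y : ℤ, ((A.filter (fun x => y < x ∧ x ≤ y + J)).card : ℝ)
      = ∑ x ∈ A, if y < x ∧ x ≤ y + J then (1 : ℝ) else 0 := by
    intro y
    rw [Finset.card_filter]
    push_cast
    rfl
  simp only [h1]
  rw [Finset.sum_comm]
  have h2 : ∀ x ∈ A, ∑ y ∈ Finset.Ioo (-(J : ℤ)) N, (if y < x ∧ x ≤ y + J then (1 : ℝ) else 0)
      = J := by
    intro x hx
    have hx' := hA hx
    rw [Finset.mem_Icc] at hx'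
    rw [← Finset.sum_filter, Finset.sum_const, nsmul_eq_mul, mul_one]
    have h3 : (Finset.Ioo (-(J : ℤ)) N).filter (fun y => y < x ∧ x ≤ y + J)
        = Finset.Ico (x - J) x := by
      ext y
      rw [Finset.mem_filter, Finset.mem_Ioo, Finset.mem_Ico]
      constructor
      · rintro ⟨_, h5, h6⟩
        constructor <;> linarith
      · rintro ⟨h5, h6⟩
        refine ⟨⟨?_, ?_⟩, ?_, ?_⟩ <;> linarith [hx'.1, hx'.2]
    rw [h3, Int.card_Ico]
    have h4 : (x - (x - (J : ℤ))).toNat = J := by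
      rw [sub_sub_cancel]; simp
    rw [h4]
  rw [Finset.sum_congr rfl h2, Finset.sum_const, nsmul_eq_mul, mul_comm]

lemma sum_classes (A : Finset ℤ) (J v : ℕ) (hv : 1 ≤ v) (y : ℤ) :
    ∑ c ∈ Finset.range v, (((A.filter (fun x => y < x ∧ x ≤ y + J)).filter
          (fun x => x ≡ (c : ℤ) [ZMOD (v : ℤ)])).card : ℝ) = wc A J y := by
  unfold wc
  have hvpos : (0 : ℤ) < v := by exact_mod_cast hv
  have h1 := Finset.card_eq_sum_card_fiberwise (s := A.filter (fun x => y < x ∧ x ≤ y + J))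
    (t := Finset.range v) (f := fun x : ℤ => (x % (v : ℤ)).toNat) (fun x _ => by
      rw [Finset.mem_coe, Finset.mem_range]
      have h2 := Int.emod_nonneg x hvpos.ne'
      have h3 := Int.emod_lt_of_pos x hvpos
      show (x % (v : ℤ)).toNat < v
      omega)
  rw [h1]
  push_cast
  apply Finset.sum_congr rfl
  intro c hc
  rw [Finset.mem_range] at hc
  congr 2
  apply Finset.filter_congr
  intro x _
  have h2 := Int.emod_nonneg x hvpos.ne'
  unfold Int.ModEq
  have h3 : ((c : ℤ) % v) = c := Int.emod_eq_of_lt (by positivity) (by exact_mod_cast hc)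
  rw [h3]
  omega

lemma EN_one (A : Finset ℤ) (y : ℤ) (J : ℕ) : EN A y J 1 = (wc A J y / J) ^ 2 := by
  have h := sum_EN_dvd A y J 1 le_rfl
  have h2 := sum_classes A J 1 le_rfl y
  rw [Nat.divisors_one, Finset.sum_singleton] at h
  rw [h]
  rw [Finset.sum_range_one] at h2 ⊢
  rw [h2]
  push_cast
  ring

end WindowSmallAux

open WindowSmallAux in
/-- G3-a -/
theorem window_small (N : ℕ) (A : Finset ℤ) (V L J : ℕ) (α η : ℝ)
    (hA : A ⊆ Finset.Icc 1 (N : ℤ)) (hcard : (A.card : ℝ) = α * N) (hα : 0 < α) (hα1 : α ≤ 1)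
    (hη : 0 < η) (hη1 : η ≤ 1 / 1000) (hreg : Regular A V L ((1 + η) * α))
    (hVJ : (V : ℝ) ≤ η * J) (hVL : V * L ≤ J) (hJN : (J : ℝ) ≤ η * N)
    (v : ℕ) (hv : 1 ≤ v) (hvV : v ≤ V) :
    ∑ y ∈ Finset.Ioo (-(J : ℤ)) N, ∑ q ∈ v.divisors.erase 1, EN A y J q ≤ 4 * η * α ^ 2 * N := by
  have hvR : (0 : ℝ) < v := by exact_mod_cast hv
  have hVR : (1 : ℝ) ≤ V := by
    have : 1 ≤ V := hv.trans hvV
    exact_mod_cast this
  have hJpos : (0 : ℝ) < J := by
    by_contra hcon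
    push Not at hcon
    have : η * J ≤ 0 := mul_nonpos_of_nonneg_of_nonpos hη.le hcon
    linarith
  have hNpos : (0 : ℝ) < N := by
    by_contra hcon
    push Not at hcon
    have : η * N ≤ 0 := mul_nonpos_of_nonneg_of_nonpos hη.le hcon
    linarith
  -- pointwise upper bound
  have hup : ∀ y : ℤ, ∑ q ∈ v.divisors, EN A y J q ≤ (1 + η) ^ 2 * α * (wc A J y / J) := by
    intro y
    rw [sum_EN_dvd A y J v hv]
    have h1 : ∀ c ∈ Finset.range v, ((((A.filter (fun x => y < x ∧ x ≤ y + J)).filter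
          (fun x => x ≡ (c : ℤ) [ZMOD (v : ℤ)])).card : ℝ) / J) ^ 2 ≤
          ((1 + η) ^ 2 * α / v) * ((((A.filter (fun x => y < x ∧ x ≤ y + J)).filter
          (fun x => x ≡ (c : ℤ) [ZMOD (v : ℤ)])).card : ℝ) / J) := by
      intro c _
      rw [sq]
      have h2 := count_le N A V L J ((1 + η) * α) η (by positivity) hη hreg hVJ hVL v hv hvV y c
      have h3 : (((A.filter (fun x => y < x ∧ x ≤ y + J)).filter
          (fun x => x ≡ (c : ℤ) [ZMOD (v : ℤ)])).card : ℝ) / J ≤ (1 + η) ^ 2 * α / v := by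
        rw [div_le_iff₀ hJpos]
        refine h2.trans (le_of_eq ?_)
        ring
      gcongr
    calc (v : ℝ) * ∑ c ∈ Finset.range v, ((((A.filter (fun x => y < x ∧ x ≤ y + J)).filter
          (fun x => x ≡ (c : ℤ) [ZMOD (v : ℤ)])).card : ℝ) / J) ^ 2
        ≤ v * ∑ c ∈ Finset.range v, ((1 + η) ^ 2 * α / v) *
          ((((A.filter (fun x => y < x ∧ x ≤ y + J)).filter
          (fun x => x ≡ (c : ℤ) [ZMOD (v : ℤ)])).card : ℝ) / J) := by
          have := Finset.sum_le_sum h1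
          gcongr
      _ = (1 + η) ^ 2 * α * (wc A J y / J) := by
          rw [← Finset.mul_sum, ← Finset.sum_div, sum_classes A J v hv y]
          field_simp
  have hsplit : ∀ y : ℤ, ∑ q ∈ v.divisors.erase 1, EN A y J q
      = ∑ q ∈ v.divisors, EN A y J q - (wc A J y / J) ^ 2 := by
    intro y
    have h1 : (1 : ℕ) ∈ v.divisors := Nat.one_mem_divisors.2 (by omega)
    rw [← Finset.add_sum_erase _ _ h1, EN_one]
    ring
  have hsum1 : ∑ y ∈ Finset.Ioo (-(J : ℤ)) N, wc A J y / J = α * N := by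
    rw [← Finset.sum_div, sum_wc N J A hA, hcard]
    field_simp
  -- Cauchy-Schwarz
  have hcs : (α * N) ^ 2 ≤ ((1 + η) * N) * ∑ y ∈ Finset.Ioo (-(J : ℤ)) N, (wc A J y / J) ^ 2 := by
    rw [← hsum1]
    have h1 := sq_sum_le_card_mul_sum_sq (s := Finset.Ioo (-(J : ℤ)) (N : ℤ))
      (f := fun y => wc A J y / J)
    refine h1.trans ?_
    have h2 : ((Finset.Ioo (-(J : ℤ)) (N : ℤ)).card : ℝ) ≤ (1 + η) * N := by
      rw [Int.card_Ioo]
      have h4 : (((N : ℤ) - -(J : ℤ) - 1).toNat : ℕ) ≤ N + J := by omega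
      have h5 : ((((N : ℤ) - -(J : ℤ) - 1).toNat : ℕ) : ℝ) ≤ ((N + J : ℕ) : ℝ) := by
        exact_mod_cast h4
      refine h5.trans ?_
      push_cast
      linarith
    have h3 : 0 ≤ ∑ y ∈ Finset.Ioo (-(J : ℤ)) (N : ℤ), (wc A J y / J) ^ 2 :=
      Finset.sum_nonneg (fun _ _ => by positivity)
    gcongr
  have hlow : (1 - η) * α ^ 2 * N ≤ ∑ y ∈ Finset.Ioo (-(J : ℤ)) N, (wc A J y / J) ^ 2 := by
    set T := ∑ y ∈ Finset.Ioo (-(J : ℤ)) (N : ℤ), (wc A J y / J) ^ 2 with hT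
    have h1 : (1 + η) * N * ((1 - η) * α ^ 2 * N) ≤ (1 + η) * N * T := by
      refine le_trans ?_ hcs
      have h2 : (1 + η) * N * ((1 - η) * α ^ 2 * N) = (α * N) ^ 2 * (1 - η ^ 2) := by ring
      rw [h2]
      have h3 : 1 - η ^ 2 ≤ 1 := by
        have : 0 ≤ η ^ 2 := by positivity
        linarith
      calc (α * N) ^ 2 * (1 - η ^ 2) ≤ (α * N) ^ 2 * 1 := by gcongr
        _ = _ := by ring
    exact le_of_mul_le_mul_left h1 (by positivity)
  calc ∑ y ∈ Finset.Ioo (-(J : ℤ)) N, ∑ q ∈ v.divisors.erase 1, EN A y J q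
      = ∑ y ∈ Finset.Ioo (-(J : ℤ)) N, ∑ q ∈ v.divisors, EN A y J q
        - ∑ y ∈ Finset.Ioo (-(J : ℤ)) N, (wc A J y / J) ^ 2 := by
        rw [← Finset.sum_sub_distrib]
        exact Finset.sum_congr rfl (fun y _ => hsplit y)
    _ ≤ (1 + η) ^ 2 * α * (α * N) - (1 - η) * α ^ 2 * N := by
        have h1 : ∑ y ∈ Finset.Ioo (-(J : ℤ)) N, ∑ q ∈ v.divisors, EN A y J q
            ≤ (1 + η) ^ 2 * α * (α * N) := by
          rw [← hsum1, Finset.mul_sum]
          exact Finset.sum_le_sum (fun y _ => hup y)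
        linarith
    _ = (3 * η + η ^ 2) * (α ^ 2 * N) := by ring
    _ ≤ (4 * η) * (α ^ 2 * N) := by
        have h1 : η ^ 2 ≤ η := by
          rw [sq]
          calc η * η ≤ η * 1 := by gcongr; linarith
            _ = η := mul_one _
        have h2 : 3 * η + η ^ 2 ≤ 4 * η := by linarith
        gcongr
    _ = _ := by ring

end Vale.Agent.P042
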