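import Vale.Agent.P042.Defs
import Vale.Agent.P042.WindowCount
import Vale.Agent.P042.WindowSmall
import Vale.Agent.P042.WindowLevel
import Vale.Agent.P042.RandomModulus

namespace Vale.Agent.P042

open Finset Polynomial

namespace WindowAux

lemma EN_nonneg (A : Finset ℤ) (y : ℤ) (J q : ℕ) : 0 ≤ EN A y J q := by
  unfold EN
  exact Finset.sum_nonneg (fun _ _ => by positivity)

/-- the large primes dividing `q` exactly once -/
noncomputable def Rq (y0 : ℝ) (q : ℕ) : Finset ℕ :=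
  q.primeFactors.filter (fun p => y0 < (p : ℝ) ∧ q.factorization p = 1)

noncomputable def q1 (y0 : ℝ) (q : ℕ) : ℕ := q / ∏ p ∈ Rq y0 q, p

lemma Rq_sub (y0 : ℝ) (q : ℕ) : Rq y0 q ⊆ q.primeFactors := Finset.filter_subset _ _

lemma prod_Rq_dvd (y0 : ℝ) (q : ℕ) : (∏ p ∈ Rq y0 q, p) ∣ q :=
  (Finset.prod_dvd_prod_of_subset _ _ _ (Rq_sub y0 q)).trans (Nat.prod_primeFactors_dvd q)

lemma q1_mul (y0 : ℝ) (q : ℕ) : q1 y0 q * ∏ p ∈ Rq y0 q, p = q :=
  Nat.div_mul_cancel (prod_Rq_dvd y0 q)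

lemma prod_Rq_ne (y0 : ℝ) (q : ℕ) : (∏ p ∈ Rq y0 q, p) ≠ 0 := by
  rw [Finset.prod_ne_zero_iff]
  intro p hp
  exact (Nat.prime_of_mem_primeFactors (Rq_sub y0 q hp)).ne_zero

lemma q1_ne (y0 : ℝ) (q : ℕ) (hq : q ≠ 0) : q1 y0 q ≠ 0 := by
  intro h
  have := q1_mul y0 q
  rw [h, zero_mul] at this
  exact hq this.symm

lemma fact_prod (R : Finset ℕ) (hR : ∀ p ∈ R, p.Prime) (p : ℕ) :
    (∏ p ∈ R, p).factorization p = if p ∈ R then 1 else 0 := by
  rw [Nat.factorization_prod (fun x hx => (hR x hx).ne_zero)]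
  rw [Finsupp.finsetSum_apply]
  by_cases hp : p ∈ R
  · rw [if_pos hp]
    rw [Finset.sum_eq_single p]
    · exact (hR p hp).factorization_self
    · intro x hx hxp
      rw [(hR x hx).factorization, Finsupp.single_apply, if_neg hxp]
    · intro h; exact absurd hp h
  · rw [if_neg hp]
    apply Finset.sum_eq_zero
    intro x hx
    have hxp : x ≠ p := fun h => hp (h ▸ hx)
    rw [(hR x hx).factorization, Finsupp.single_apply, if_neg hxp]

lemma fact_q1 (y0 : ℝ) (q : ℕ) (hq : q ≠ 0) (p : ℕ) :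
    (q1 y0 q).factorization p = if p ∈ Rq y0 q then 0 else q.factorization p := by
  have h1 : q.factorization p = (q1 y0 q).factorization p
      + (∏ p ∈ Rq y0 q, p).factorization p := by
    conv_lhs => rw [← q1_mul y0 q]
    rw [Nat.factorization_mul (q1_ne y0 q hq) (prod_Rq_ne y0 q)]
    rfl
  rw [fact_prod _ (fun p hp => Nat.prime_of_mem_primeFactors (Rq_sub y0 q hp))] at h1
  by_cases hp : p ∈ Rq y0 q
  · rw [if_pos hp] at h1 ⊢
    unfold Rq at hp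
    rw [Finset.mem_filter] at hp
    omega
  · rw [if_neg hp] at h1 ⊢
    omega

lemma mem_primeFactors_q1 (y0 : ℝ) (q : ℕ) (hq : q ≠ 0) :
    (q1 y0 q).primeFactors = q.primeFactors \ Rq y0 q := by
  ext p
  rw [Finset.mem_sdiff, ← Nat.support_factorization, ← Nat.support_factorization,
    Finsupp.mem_support_iff, Finsupp.mem_support_iff, fact_q1 y0 q hq]
  by_cases hp : p ∈ Rq y0 q
  · simp [hp]
  · simp [hp]

lemma prod_split (y0 : ℝ) (q : ℕ) (hq : q ≠ 0) (bb : ℕ → ℕ → ℝ) :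
    ∏ p ∈ q.primeFactors, bb p (q.factorization p)
      = (∏ p ∈ (q1 y0 q).primeFactors, bb p ((q1 y0 q).factorization p)) *
        ∏ p ∈ Rq y0 q, bb p 1 := by
  rw [mem_primeFactors_q1 y0 q hq, ← Finset.prod_sdiff (Rq_sub y0 q)]
  congr 1
  · apply Finset.prod_congr rfl
    intro p hp
    rw [Finset.mem_sdiff] at hp
    rw [fact_q1 y0 q hq, if_neg hp.2]
  · apply Finset.prod_congr rfl
    intro p hp
    unfold Rq at hp
    rw [Finset.mem_filter] at hp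
    rw [hp.2.2]

lemma not_dvd_q1 (y0 : ℝ) (q : ℕ) (hq : q ≠ 0) (p : ℕ) (hp : p ∈ Rq y0 q) :
    ¬ p ∣ q1 y0 q := by
  intro hdvd
  have hpp := Nat.prime_of_mem_primeFactors (Rq_sub y0 q hp)
  have h1 : p ∈ (q1 y0 q).primeFactors :=
    Nat.mem_primeFactors.2 ⟨hpp, hdvd, q1_ne y0 q hq⟩
  rw [mem_primeFactors_q1 y0 q hq, Finset.mem_sdiff] at h1
  exact h1.2 hp

lemma two_le_fact (y0 : ℝ) (q : ℕ) (hq : q ≠ 0) (p : ℕ) (hp : p ∈ (q1 y0 q).primeFactors)
    (hpy : y0 < (p : ℝ)) : 2 ≤ (q1 y0 q).factorization p := by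
  have hp0 := hp
  rw [mem_primeFactors_q1 y0 q hq, Finset.mem_sdiff] at hp
  rw [fact_q1 y0 q hq, if_neg hp.2]
  by_contra hcon
  have h1 : q.factorization p ≠ 0 := by
    rw [← Finsupp.mem_support_iff, Nat.support_factorization]
    exact hp.1
  apply hp.2
  unfold Rq
  rw [Finset.mem_filter]
  exact ⟨hp.1, hpy, by omega⟩

/-- pointwise bound of `b q` -/
lemma b_le (κ C0 C1 C5 ell : ℝ) (hκ : 0 < κ) (hC0 : 1 ≤ C0) (bb : ℕ → ℕ → ℝ)
    (hbb : LocalMajorant κ C0 C1 bb) (hC5 : 0 < C5 * ell) (V Q : ℕ) (w : ℕ → ℝ)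
    (hrm : ∀ (q : ℕ) (R : Finset ℕ), 1 ≤ q → (∀ p ∈ R, p.Prime ∧ (C5 * ell) ^ (1 / κ) < (p : ℝ) ∧
          ¬ p ∣ q) → q * ∏ p ∈ R, p ≤ Q →
          (∀ p ∈ q.primeFactors, (C5 * ell) ^ (1 / κ) < (p : ℝ) → 2 ≤ q.factorization p) →
          ∏ p ∈ q.primeFactors, bb p (q.factorization p)
            ≤ 2 * ∑ v ∈ (Finset.Icc 1 V).filter (fun v => q ∣ v ∧ ∀ p ∈ R, ¬ p ∣ v), w v)
    (q : ℕ) (hq1 : 1 ≤ q) (hqQ : q ≤ Q) :
    ∏ p ∈ q.primeFactors, bb p (q.factorization p) ≤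
      (2 * ∑ v ∈ (Finset.Icc 1 V).filter (fun v => q1 ((C5 * ell) ^ (1 / κ)) q ∣ v ∧
        ∀ p ∈ Rq ((C5 * ell) ^ (1 / κ)) q, ¬ p ∣ v), w v) *
      (C0 / (C5 * ell)) ^ (Rq ((C5 * ell) ^ (1 / κ)) q).card := by
  set y0 := (C5 * ell) ^ (1 / κ) with hy0
  have hq0 : q ≠ 0 := by omega
  rw [prod_split y0 q hq0]
  have h1 := hrm (q1 y0 q) (Rq y0 q) (Nat.one_le_iff_ne_zero.2 (q1_ne y0 q hq0))
    (fun p hp => by
      refine ⟨Nat.prime_of_mem_primeFactors (Rq_sub y0 q hp), ?_, not_dvd_q1 y0 q hq0 p hp⟩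
      unfold Rq at hp
      rw [Finset.mem_filter] at hp
      exact hp.2.1)
    (by rw [q1_mul]; exact hqQ)
    (fun p hp hpy => two_le_fact y0 q hq0 p hp hpy)
  have h2 : ∏ p ∈ Rq y0 q, bb p 1 ≤ (C0 / (C5 * ell)) ^ (Rq y0 q).card := by
    rw [← Finset.prod_const]
    apply Finset.prod_le_prod
    · intro p _; exact hbb.nonneg _ _
    · intro p hp
      have hpp := Nat.prime_of_mem_primeFactors (Rq_sub y0 q hp)
      refine (hbb.one p hpp).trans ?_
      unfold Rq at hp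
      rw [Finset.mem_filter] at hp
      have h3 : C5 * ell ≤ (p : ℝ) ^ κ := by
        calc C5 * ell = ((C5 * ell) ^ (1 / κ)) ^ κ := by
              rw [← Real.rpow_mul hC5.le, one_div, inv_mul_cancel₀ hκ.ne', Real.rpow_one]
          _ ≤ (p : ℝ) ^ κ := by
              apply Real.rpow_le_rpow (by positivity) hp.2.1.le hκ.le
      rw [Real.rpow_neg (by positivity), div_eq_mul_inv]
      gcongr
  have h4 : 0 ≤ ∏ p ∈ (q1 y0 q).primeFactors, bb p ((q1 y0 q).factorization p) :=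
    Finset.prod_nonneg (fun p _ => hbb.nonneg _ _)
  have h5 : 0 ≤ ∏ p ∈ Rq y0 q, bb p 1 := Finset.prod_nonneg (fun p _ => hbb.nonneg _ _)
  exact mul_le_mul h1 h2 h5 (h4.trans h1)

lemma geom_small (ε : ℝ) (hε0 : 0 ≤ ε) (hε : ε ≤ 1 / 2) (n : ℕ) :
    ∑ d ∈ Finset.Icc 1 n, ε ^ d ≤ 2 * ε := by
  have h1 : ∑ d ∈ Finset.Icc 1 n, ε ^ d ≤ 2 * ε - 2 * ε ^ (n + 1) := by
    induction n with
    | zero => simp
    | succ n ih =>
      rw [Finset.sum_Icc_succ_top (by omega)]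
      have h2 : ε ^ (n + 2) ≤ ε ^ (n + 1) * (1 / 2) := by
        rw [pow_succ ε (n + 1)]
        gcongr
      have h3 : 0 ≤ ε ^ (n + 1) := by positivity
      have h4 : 0 ≤ ε ^ (n + 2) := by positivity
      have h5 : ε ^ (n + 1 + 1) = ε ^ (n + 2) := rfl
      linarith
  have h2 : 0 ≤ ε ^ (n + 1) := by positivity
  linarith

/-- for fixed `v` and `y` -/
lemma sum_fixed_v (A : Finset ℤ) (y : ℤ) (J Q v : ℕ) (hv : 1 ≤ v) (y0 t B K : ℝ) (ht : 0 ≤ t)
    (hB : 0 ≤ B) (hK0 : 0 ≤ K)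
    (hlev : ∀ Ps : Finset ℕ, (∀ p ∈ Ps, p.Prime) → (∀ p ∈ Ps, ¬ p ∣ v) → ∀ d : ℕ, 1 ≤ d →
      ∑ R ∈ Ps.powerset.filter (fun R => R.card = d ∧ ∏ p ∈ R, p ≤ Q),
      ∑ q ∈ v.divisors, EN A y J (q * ∏ p ∈ R, p) ≤ B * K ^ d) (htK : t * K ≤ 1 / 2) :
    ∑ q ∈ (Finset.Icc 2 Q).filter (fun q => q1 y0 q ∣ v ∧ ∀ p ∈ Rq y0 q, ¬ p ∣ v),
      t ^ (Rq y0 q).card * EN A y J q
    ≤ ∑ q ∈ v.divisors.erase 1, EN A y J q + 2 * (t * K) * B := by
  classical
  set S := (Finset.Icc 2 Q).filter (fun q => q1 y0 q ∣ v ∧ ∀ p ∈ Rq y0 q, ¬ p ∣ v) with hS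
  set Ps := (Finset.range (Q + 1)).filter (fun p => p.Prime ∧ ¬ p ∣ v) with hPs
  set RR := Ps.powerset.filter (fun R => R.card ∈ Finset.Icc 1 Ps.card ∧ ∏ p ∈ R, p ≤ Q) with hRR
  rw [← Finset.sum_filter_add_sum_filter_not S (fun q => Rq y0 q = ∅)]
  have h1 : ∑ q ∈ S.filter (fun q => Rq y0 q = ∅), t ^ (Rq y0 q).card * EN A y J q
      ≤ ∑ q ∈ v.divisors.erase 1, EN A y J q := by
    have h2 : ∀ q ∈ S.filter (fun q => Rq y0 q = ∅),
        t ^ (Rq y0 q).card * EN A y J q = EN A y J q := by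
      intro q hq
      rw [Finset.mem_filter] at hq
      rw [hq.2]; simp
    rw [Finset.sum_congr rfl h2]
    apply Finset.sum_le_sum_of_subset_of_nonneg
    · intro q hq
      rw [Finset.mem_filter, hS, Finset.mem_filter, Finset.mem_Icc] at hq
      rw [Finset.mem_erase, Nat.mem_divisors]
      refine ⟨by omega, ?_, by omega⟩
      have h3 := q1_mul y0 q
      rw [hq.2] at h3
      simp only [Finset.prod_empty, mul_one] at h3
      rw [h3] at hq
      exact hq.1.2.1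
    · intro q _ _; exact EN_nonneg _ _ _ _
  have h2 : ∑ q ∈ S.filter (fun q => ¬ Rq y0 q = ∅), t ^ (Rq y0 q).card * EN A y J q
      ≤ ∑ R ∈ RR, ∑ q ∈ v.divisors, t ^ R.card * EN A y J (q * ∏ p ∈ R, p) := by
    rw [← Finset.sum_product']
    have h3 : ∑ q ∈ S.filter (fun q => ¬ Rq y0 q = ∅), t ^ (Rq y0 q).card * EN A y J q
        = ∑ x ∈ (S.filter (fun q => ¬ Rq y0 q = ∅)).image (fun q => (Rq y0 q, q1 y0 q)),
          t ^ x.1.card * EN A y J (x.2 * ∏ p ∈ x.1, p) := by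
      rw [Finset.sum_image]
      · apply Finset.sum_congr rfl
        intro q _
        rw [q1_mul]
      · intro a _ b _ hab
        simp only [Prod.mk.injEq] at hab
        rw [← q1_mul y0 a, ← q1_mul y0 b, hab.1, hab.2]
    rw [h3]
    apply Finset.sum_le_sum_of_subset_of_nonneg
    · intro x hx
      rw [Finset.mem_image] at hx
      obtain ⟨q, hq, rfl⟩ := hx
      rw [Finset.mem_filter, hS, Finset.mem_filter, Finset.mem_Icc] at hq
      obtain ⟨⟨⟨hq2, hqQ⟩, hqv, hqR⟩, hne⟩ := hq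
      have hq0 : q ≠ 0 := by omega
      have hsub : Rq y0 q ⊆ Ps := by
        intro p hp
        rw [hPs, Finset.mem_filter, Finset.mem_range]
        have hpq := Rq_sub y0 q hp
        have h4 := Nat.le_of_dvd (by omega) (Nat.dvd_of_mem_primeFactors hpq)
        exact ⟨by omega, Nat.prime_of_mem_primeFactors hpq, hqR p hp⟩
      rw [Finset.mem_product, Nat.mem_divisors]
      refine ⟨?_, hqv, by omega⟩
      rw [hRR, Finset.mem_filter, Finset.mem_powerset, Finset.mem_Icc]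
      refine ⟨hsub, ⟨?_, Finset.card_le_card hsub⟩, ?_⟩
      · exact Finset.card_pos.2 (Finset.nonempty_iff_ne_empty.2 hne)
      · exact (Nat.le_of_dvd (by omega) (prod_Rq_dvd y0 q)).trans hqQ
    · intro x _ _
      have := EN_nonneg A y J (x.2 * ∏ p ∈ x.1, p)
      positivity
  have h3 : ∑ R ∈ RR, ∑ q ∈ v.divisors, t ^ R.card * EN A y J (q * ∏ p ∈ R, p)
      = ∑ d ∈ Finset.Icc 1 Ps.card, t ^ d *
        ∑ R ∈ Ps.powerset.filter (fun R => R.card = d ∧ ∏ p ∈ R, p ≤ Q),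
        ∑ q ∈ v.divisors, EN A y J (q * ∏ p ∈ R, p) := by
    have hmap : ∀ R ∈ RR, R.card ∈ Finset.Icc 1 Ps.card := by
      intro R hR
      rw [hRR, Finset.mem_filter] at hR
      exact hR.2.1
    rw [← Finset.sum_fiberwise_of_maps_to hmap]
    apply Finset.sum_congr rfl
    intro d hd
    rw [Finset.mul_sum]
    have hset : RR.filter (fun R => R.card = d)
        = Ps.powerset.filter (fun R => R.card = d ∧ ∏ p ∈ R, p ≤ Q) := by
      ext R
      simp only [hRR, Finset.mem_filter]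
      constructor
      · rintro ⟨⟨h1, h2, h3⟩, h4⟩
        exact ⟨h1, h4, h3⟩
      · rintro ⟨h1, h4, h3⟩
        exact ⟨⟨h1, h4 ▸ hd, h3⟩, h4⟩
    rw [hset]
    apply Finset.sum_congr rfl
    intro R hR
    rw [Finset.mem_filter] at hR
    rw [Finset.mul_sum, hR.2.1]
  have h4 : ∑ d ∈ Finset.Icc 1 Ps.card, t ^ d *
        ∑ R ∈ Ps.powerset.filter (fun R => R.card = d ∧ ∏ p ∈ R, p ≤ Q),
        ∑ q ∈ v.divisors, EN A y J (q * ∏ p ∈ R, p)
      ≤ ∑ d ∈ Finset.Icc 1 Ps.card, B * (t * K) ^ d := by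
    apply Finset.sum_le_sum
    intro d hd
    rw [Finset.mem_Icc] at hd
    have h5 := hlev Ps (fun p hp => by rw [hPs, Finset.mem_filter] at hp; exact hp.2.1)
      (fun p hp => by rw [hPs, Finset.mem_filter] at hp; exact hp.2.2) d hd.1
    calc _ ≤ t ^ d * (B * K ^ d) := by gcongr
      _ = B * (t * K) ^ d := by rw [mul_pow]; ring
  have h5 : ∑ d ∈ Finset.Icc 1 Ps.card, B * (t * K) ^ d ≤ 2 * (t * K) * B := by
    rw [← Finset.mul_sum]
    have := geom_small (t * K) (by positivity) htK Ps.card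
    calc B * ∑ d ∈ Finset.Icc 1 Ps.card, (t * K) ^ d ≤ B * (2 * (t * K)) := by gcongr
      _ = _ := by ring
  linarith

end WindowAux

open WindowAux in
set_option maxHeartbeats 1000000 in
theorem window (κ C0 C1 C2 η : ℝ) (hκ : 0 < κ) (hκ2 : κ ≤ 1 / 2) (hC0 : 1 ≤ C0) (hC1 : 1 ≤ C1)
    (hC2 : 1 ≤ C2) (hη : 0 < η) (hη1 : η ≤ 1 / 1000) :
    ∃ C3 : ℝ, 1 ≤ C3 ∧ ∀ (N : ℕ) (A : Finset ℤ) (α : ℝ) (V L J Q : ℕ) (b : ℕ → ℝ)
      (bb : ℕ → ℕ → ℝ),
      A ⊆ Finset.Icc 1 (N : ℤ) → (A.card : ℝ) = α * N → 0 < α → α ≤ 1 →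
      Regular A V L ((1 + η) * α) →
      Real.exp (C3 * (Real.log (2 / α)) ^ ((1 - κ) / κ)) ≤ V →
      (Q : ℝ) ≤ Real.exp (C2 * Real.log (2 / α)) →
      1 ≤ L → C3 * V * L ≤ J → (V : ℝ) * Real.exp (C3 * (Real.log (2 / α)) ^ 2) ≤ J →
      (J : ℝ) ≤ η * N → LocalMajorant κ C0 C1 bb →
      (∀ q, 1 ≤ q → b q = ∏ p ∈ q.primeFactors, bb p (q.factorization p)) →
      ∑ y ∈ Finset.Ioo (-(J : ℤ)) N, ∑ q ∈ Finset.Icc 2 Q, b q * EN A y J q
        ≤ 20 * η * α ^ 2 * N := by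
  set C5 : ℝ := 6000 * C0 * C2 / η with hC5def
  have hC5 : 20 * C0 * C2 ≤ C5 := by
    rw [hC5def, le_div_iff₀ hη]
    have h1 : 0 < C0 * C2 := by positivity
    calc 20 * C0 * C2 * η ≤ 20 * C0 * C2 * 1 := by gcongr; linarith
      _ ≤ 6000 * C0 * C2 := by linarith
  have hC5pos : 0 < C5 := by positivity
  obtain ⟨C3', hC3', hrm⟩ := random_modulus κ C0 C1 C2 C5 hκ hκ2 hC0 hC1 hC2 hC5
  set s : ℝ := (1 - κ) / κ with hs
  have hs1 : 1 ≤ s := by
    rw [hs, le_div_iff₀ hκ]; linarith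
  set K : ℝ := 2 ^ s with hK
  have hK1 : 1 ≤ K := Real.one_le_rpow (by norm_num) (by linarith)
  refine ⟨C3' + K + C2 * K + 1 / η + 200 + 90 * C2, ?_, ?_⟩
  · have h1 : 0 < 1 / η := by positivity
    have h2 : 0 < C2 * K := by positivity
    linarith
  set C3 : ℝ := C3' + K + C2 * K + 1 / η + 200 + 90 * C2 with hC3
  have hηinv : 0 < 1 / η := by positivity
  have hC2K : 0 < C2 * K := by positivity
  have hC3pos : 0 < C3 := by rw [hC3]; linarith
  intro N A α V L J Q b bb hA hcard hα hα1 hreg hV hQ hL hVLJ hVJ2 hJN hbb hb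
  set l := Real.log (2 / α) with hl
  have hlog2 : Real.log 2 ≤ l := by
    apply Real.log_le_log (by norm_num)
    rw [le_div_iff₀ hα]; linarith
  have hl2 : 1 / 2 ≤ l := by
    have := Real.log_two_gt_d9
    linarith
  have hl0 : 0 < l := by linarith
  have hexpl : Real.exp l = 2 / α := Real.exp_log (by positivity)
  have h2l : 1 ≤ 2 * l := by linarith
  have hKl : (2 * l) ^ s ≤ K * l ^ s := by
    rw [Real.mul_rpow (by norm_num) hl0.le]
  have h1K : 1 ≤ K * l ^ s := (Real.one_le_rpow h2l (by linarith)).trans hKl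
  have hlK : l ≤ K * l ^ s := by
    refine le_trans ?_ hKl
    calc l ≤ 2 * l := by linarith
      _ = (2 * l) ^ (1 : ℝ) := (Real.rpow_one _).symm
      _ ≤ (2 * l) ^ s := Real.rpow_le_rpow_of_exponent_le h2l hs1
  have hls0 : 0 ≤ l ^ s := by positivity
  -- `V1`
  set V1 : ℕ := ⌈Real.exp (C3' * l ^ s)⌉₊ with hV1
  have hV1a : Real.exp (C3' * l ^ s) ≤ V1 := Nat.le_ceil _
  have hV1b : (V1 : ℝ) ≤ 2 * Real.exp (C3' * l ^ s) := by
    have h1 := (Nat.ceil_lt_add_one (Real.exp_pos (C3' * l ^ s)).le).le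
    have h2 : 1 ≤ Real.exp (C3' * l ^ s) := Real.one_le_exp (by positivity)
    linarith
  obtain ⟨w, hw0, hw1, hw⟩ := hrm l V1 Q bb hl2 hQ hV1a hbb
  have hV1Q : (V1 : ℝ) * Q ≤ V := by
    refine le_trans ?_ hV
    have h2 : (2 : ℝ) ≤ Real.exp (K * l ^ s) := by
      have := Real.add_one_le_exp (K * l ^ s)
      linarith
    have h3 : (Q : ℝ) ≤ Real.exp (C2 * (K * l ^ s)) := by
      refine hQ.trans (Real.exp_le_exp.2 ?_)
      gcongr
    calc (V1 : ℝ) * Q ≤ (2 * Real.exp (C3' * l ^ s)) * Real.exp (C2 * (K * l ^ s)) := by gcongr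
      _ ≤ (Real.exp (K * l ^ s) * Real.exp (C3' * l ^ s)) * Real.exp (C2 * (K * l ^ s)) := by
          gcongr
      _ = Real.exp ((C3' + K + C2 * K) * l ^ s) := by
          rw [← Real.exp_add, ← Real.exp_add]; congr 1; ring
      _ ≤ Real.exp (C3 * l ^ s) := by
          apply Real.exp_le_exp.2
          have : C3' + K + C2 * K ≤ C3 := by rw [hC3]; linarith
          gcongr
  have hV1Qn : V1 * Q ≤ V := by exact_mod_cast hV1Q
  have hLR : (1 : ℝ) ≤ L := by exact_mod_cast hL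
  have hVnn : (0 : ℝ) ≤ V := by positivity
  have hC3η : 1 / η ≤ C3 := by rw [hC3]; linarith
  have hVJ : (V : ℝ) ≤ η * J := by
    have h1 : (1 / η) * V * 1 ≤ C3 * V * L := by gcongr
    have h2 : (1 / η) * V ≤ J := by linarith
    have h3 : η * ((1 / η) * V) ≤ η * J := by gcongr
    have h4 : η * ((1 / η) * V) = V := by field_simp
    linarith
  have hC31 : 1 ≤ C3 := by rw [hC3]; linarith
  have hVL : V * L ≤ J := by
    have h1 : (1 : ℝ) * V * L ≤ C3 * V * L := by gcongr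
    have h2 : ((V * L : ℕ) : ℝ) ≤ J := by push_cast; linarith
    exact_mod_cast h2
  -- `m`
  set m : ℕ := ⌈l⌉₊ + 2 with hm
  have hm1 : l ≤ m := by
    rw [hm]; push_cast
    have := Nat.le_ceil l
    linarith
  have hm2 : (m : ℝ) ≤ 7 * l := by
    rw [hm]; push_cast
    have := (Nat.ceil_lt_add_one hl0.le).le
    linarith
  have hmα : Real.exp (-(m : ℝ)) ≤ α := by
    have h1 : Real.exp (-(m : ℝ)) ≤ Real.exp (-l) := Real.exp_le_exp.2 (by linarith)
    have h2 : Real.exp (-l) = α / 2 := by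
      rw [Real.exp_neg, hexpl]; field_simp
    rw [h2] at h1
    linarith
  set t : ℝ := C0 / (C5 * l) with ht
  have ht0 : 0 ≤ t := by positivity
  set K' : ℝ := 200 * (m : ℝ) with hK'
  have htK : t * K' ≤ η / 4 := by
    have h1 : t * K' ≤ C0 / (C5 * l) * (200 * (7 * l)) := by rw [ht, hK']; gcongr
    refine h1.trans ?_
    have h2 : C0 / (C5 * l) * (200 * (7 * l)) = 1400 * C0 / C5 := by field_simp; ring
    rw [h2, hC5def, div_le_iff₀ (by positivity)]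
    have h3 : η / 4 * (6000 * C0 * C2 / η) = 1500 * (C0 * C2) := by field_simp; ring
    rw [h3]
    have h4 : C0 * 1 ≤ C0 * C2 := by gcongr
    linarith
  have htK2 : t * K' ≤ 1 / 2 := by linarith
  have htK0 : 0 ≤ t * K' := by positivity
  set B : ℝ := ((1 + η) ^ 2 * α) ^ 2 with hB
  have hB0 : 0 ≤ B := by positivity
  have hBle : B ≤ 1.01 * α ^ 2 := by
    rw [hB, mul_pow]
    have h1 : ((1 + η) ^ 2) ^ 2 ≤ 1.01 := by
      have : ((1 + η) ^ 2) ^ 2 ≤ ((1 + 1 / 1000) ^ 2) ^ 2 := by gcongr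
      refine this.trans ?_
      norm_num
    gcongr
  have hN0 : (0 : ℝ) ≤ N := by positivity
  -- the bound for fixed `v`
  have hfix : ∀ v ∈ Finset.Icc 1 V1, ∑ y ∈ Finset.Ioo (-(J : ℤ)) N,
      ∑ q ∈ (Finset.Icc 2 Q).filter (fun q => q1 ((C5 * l) ^ (1 / κ)) q ∣ v ∧
        ∀ p ∈ Rq ((C5 * l) ^ (1 / κ)) q, ¬ p ∣ v),
        t ^ (Rq ((C5 * l) ^ (1 / κ)) q).card * EN A y J q ≤ 6 * η * α ^ 2 * N := by
    intro v hv
    rw [Finset.mem_Icc] at hv
    rcases Nat.eq_zero_or_pos Q with hQ0 | hQpos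
    · subst hQ0
      have : ∀ y ∈ Finset.Ioo (-(J : ℤ)) N,
        ∑ q ∈ (Finset.Icc 2 0).filter (fun q => q1 ((C5 * l) ^ (1 / κ)) q ∣ v ∧
        ∀ p ∈ Rq ((C5 * l) ^ (1 / κ)) q, ¬ p ∣ v),
        t ^ (Rq ((C5 * l) ^ (1 / κ)) q).card * EN A y J q = 0 := by
        intro y _
        simp
      rw [Finset.sum_congr rfl this]
      simp; positivity
    have hvQV : v * Q ≤ V := (Nat.mul_le_mul_right Q hv.2).trans hV1Qn
    have hvV : v ≤ V := (Nat.le_mul_of_pos_right v hQpos).trans hvQV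
    have hvVR : (v : ℝ) ≤ V := by exact_mod_cast hvV
    have hJbig : (8 : ℝ) * v * (Q : ℝ) ^ (10 * m + 10) * Real.exp (10 * (m : ℝ) + 10) ≤ J := by
      refine le_trans ?_ hVJ2
      have h10 : 10 * (m : ℝ) + 10 ≤ 90 * l := by linarith
      have h1 : (Q : ℝ) ^ (10 * m + 10) ≤ Real.exp (90 * C2 * l ^ 2) := by
        calc (Q : ℝ) ^ (10 * m + 10) ≤ Real.exp (C2 * l) ^ (10 * m + 10) := by gcongr
          _ = Real.exp ((10 * m + 10) * (C2 * l)) := by
              rw [← Real.exp_nat_mul]; push_cast; ring_nf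
          _ ≤ Real.exp (90 * C2 * l ^ 2) := by
              apply Real.exp_le_exp.2
              calc (10 * (m : ℝ) + 10) * (C2 * l) ≤ (90 * l) * (C2 * l) := by gcongr
                _ = _ := by ring
      have h2 : (8 : ℝ) ≤ Real.exp (20 * l ^ 2) := by
        have h3 : (1 : ℝ) / 4 ≤ l ^ 2 := by
          calc (1 : ℝ) / 4 = (1 / 2) ^ 2 := by norm_num
            _ ≤ l ^ 2 := by gcongr
        have h5 : (8 : ℝ) ≤ Real.exp 3 := by
          have h8 : (2 : ℝ) ≤ Real.exp 1 := by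
            have := Real.add_one_le_exp (1 : ℝ); linarith
          calc (8 : ℝ) = 2 ^ 3 := by norm_num
            _ ≤ Real.exp 1 ^ 3 := by gcongr
            _ = Real.exp 3 := by rw [← Real.exp_nat_mul]; norm_num
        refine h5.trans (Real.exp_le_exp.2 ?_)
        linarith
      have h3 : Real.exp (10 * (m : ℝ) + 10) ≤ Real.exp (180 * l ^ 2) := by
        apply Real.exp_le_exp.2
        have h4 : l * 1 ≤ l * (2 * l) := by gcongr
        have h5 : l * (2 * l) = 2 * l ^ 2 := by ring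
        linarith
      calc (8 : ℝ) * v * (Q : ℝ) ^ (10 * m + 10) * Real.exp (10 * (m : ℝ) + 10)
          ≤ Real.exp (20 * l ^ 2) * V * Real.exp (90 * C2 * l ^ 2) * Real.exp (180 * l ^ 2) := by
            gcongr
        _ = V * Real.exp ((200 + 90 * C2) * l ^ 2) := by
            rw [show (200 + 90 * C2) * l ^ 2 = 20 * l ^ 2 + 90 * C2 * l ^ 2 + 180 * l ^ 2 by ring,
              Real.exp_add, Real.exp_add]
            ring
        _ ≤ V * Real.exp (C3 * l ^ 2) := by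
            have h6 : 200 + 90 * C2 ≤ C3 := by rw [hC3]; linarith
            have h7 : 0 ≤ l ^ 2 := by positivity
            gcongr
    have h1 : ∀ y ∈ Finset.Ioo (-(J : ℤ)) N,
        ∑ q ∈ (Finset.Icc 2 Q).filter (fun q => q1 ((C5 * l) ^ (1 / κ)) q ∣ v ∧
        ∀ p ∈ Rq ((C5 * l) ^ (1 / κ)) q, ¬ p ∣ v),
        t ^ (Rq ((C5 * l) ^ (1 / κ)) q).card * EN A y J q
        ≤ ∑ q ∈ v.divisors.erase 1, EN A y J q + 2 * (t * K') * B := by
      intro y _
      refine sum_fixed_v A y J Q v hv.1 _ t B K' ht0 hB0 (by positivity) ?_ htK2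
      intro Ps hP hPv d hd
      exact window_level N A V L J Q m α η hA hα hα1 hη hη1 hreg hVJ hVL (by omega) hmα hQpos v
        hv.1 hvQV hJbig Ps hP hPv d hd y
    have h2 := window_small N A V L J α η hA hcard hα hα1 hη hη1 hreg hVJ hVL hJN v hv.1 hvV
    have h3 : ((Finset.Ioo (-(J : ℤ)) N).card : ℝ) ≤ 1.001 * N := by
      rw [Int.card_Ioo]
      have h4 : (((N : ℤ) - -(J : ℤ) - 1).toNat : ℕ) ≤ N + J := by omega
      have h5 : ((((N : ℤ) - -(J : ℤ) - 1).toNat : ℕ) : ℝ) ≤ ((N + J : ℕ) : ℝ) := by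
        exact_mod_cast h4
      refine h5.trans ?_
      push_cast
      have h6 : η * N ≤ 1 / 1000 * N := by gcongr
      linarith
    calc _ ≤ ∑ y ∈ Finset.Ioo (-(J : ℤ)) N,
          (∑ q ∈ v.divisors.erase 1, EN A y J q + 2 * (t * K') * B) := Finset.sum_le_sum h1
      _ = ∑ y ∈ Finset.Ioo (-(J : ℤ)) N, ∑ q ∈ v.divisors.erase 1, EN A y J q
          + ((Finset.Ioo (-(J : ℤ)) N).card : ℝ) * (2 * (t * K') * B) := by
          rw [Finset.sum_add_distrib, Finset.sum_const, nsmul_eq_mul]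
      _ ≤ 4 * η * α ^ 2 * N + (1.001 * N) * (2 * (η / 4) * (1.01 * α ^ 2)) := by gcongr
      _ ≤ 6 * η * α ^ 2 * N := by
          have h7 : 0 ≤ η * α ^ 2 * N := by positivity
          have h8 : (1.001 * N) * (2 * (η / 4) * (1.01 * α ^ 2)) = 0.505505 * (η * α ^ 2 * N) := by
            ring
          rw [h8]; linarith
  -- sum over `v`
  have hpt : ∀ y ∈ Finset.Ioo (-(J : ℤ)) N, ∑ q ∈ Finset.Icc 2 Q, b q * EN A y J q ≤
      ∑ v ∈ Finset.Icc 1 V1, 2 * w v *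
        ∑ q ∈ (Finset.Icc 2 Q).filter (fun q => q1 ((C5 * l) ^ (1 / κ)) q ∣ v ∧
        ∀ p ∈ Rq ((C5 * l) ^ (1 / κ)) q, ¬ p ∣ v),
        t ^ (Rq ((C5 * l) ^ (1 / κ)) q).card * EN A y J q := by
    intro y _
    calc ∑ q ∈ Finset.Icc 2 Q, b q * EN A y J q
        ≤ ∑ q ∈ Finset.Icc 2 Q, ∑ v ∈ Finset.Icc 1 V1,
          (if q1 ((C5 * l) ^ (1 / κ)) q ∣ v ∧ ∀ p ∈ Rq ((C5 * l) ^ (1 / κ)) q, ¬ p ∣ v
            then 2 * w v * (t ^ (Rq ((C5 * l) ^ (1 / κ)) q).card * EN A y J q) else 0) := by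
          apply Finset.sum_le_sum
          intro q hq
          rw [Finset.mem_Icc] at hq
          rw [hb q (by omega)]
          have h1 := b_le κ C0 C1 C5 l hκ hC0 bb hbb (by positivity) V1 Q w hw q (by omega) hq.2
          have h2 := EN_nonneg A y J q
          refine (mul_le_mul_of_nonneg_right h1 h2).trans (le_of_eq ?_)
          rw [← Finset.sum_filter, Finset.mul_sum, Finset.sum_mul, Finset.sum_mul]
          apply Finset.sum_congr rfl
          intro v _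
          rw [ht]; ring
      _ = _ := by
          rw [Finset.sum_comm]
          apply Finset.sum_congr rfl
          intro v _
          rw [Finset.mul_sum, Finset.sum_filter]
  calc ∑ y ∈ Finset.Ioo (-(J : ℤ)) N, ∑ q ∈ Finset.Icc 2 Q, b q * EN A y J q
      ≤ ∑ y ∈ Finset.Ioo (-(J : ℤ)) N, ∑ v ∈ Finset.Icc 1 V1, 2 * w v *
        ∑ q ∈ (Finset.Icc 2 Q).filter (fun q => q1 ((C5 * l) ^ (1 / κ)) q ∣ v ∧
        ∀ p ∈ Rq ((C5 * l) ^ (1 / κ)) q, ¬ p ∣ v),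
        t ^ (Rq ((C5 * l) ^ (1 / κ)) q).card * EN A y J q := Finset.sum_le_sum hpt
    _ = ∑ v ∈ Finset.Icc 1 V1, 2 * w v * ∑ y ∈ Finset.Ioo (-(J : ℤ)) N,
        ∑ q ∈ (Finset.Icc 2 Q).filter (fun q => q1 ((C5 * l) ^ (1 / κ)) q ∣ v ∧
        ∀ p ∈ Rq ((C5 * l) ^ (1 / κ)) q, ¬ p ∣ v),
        t ^ (Rq ((C5 * l) ^ (1 / κ)) q).card * EN A y J q := by
        rw [Finset.sum_comm]
        apply Finset.sum_congr rfl
        intro v _
        rw [Finset.mul_sum]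
    _ ≤ ∑ v ∈ Finset.Icc 1 V1, 2 * w v * (6 * η * α ^ 2 * N) := by
        apply Finset.sum_le_sum
        intro v hv
        have := hw0 v
        have := hfix v hv
        gcongr
    _ = (∑ v ∈ Finset.Icc 1 V1, w v) * (12 * η * α ^ 2 * N) := by
        rw [Finset.sum_mul]
        apply Finset.sum_congr rfl
        intro v _
        ring
    _ ≤ 1 * (12 * η * α ^ 2 * N) := by gcongr
    _ ≤ 20 * η * α ^ 2 * N := by
        have : 0 ≤ η * α ^ 2 * N := by positivity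
        linarith

end Vale.Agent.P042
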