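import Vale.Agent.P042.MinorArc
import Vale.Agent.P042.MajorArc
import Vale.Agent.P042.Count
import Vale.Agent.P042.Window
import Vale.Agent.P042.MainLocal
import Vale.Agent.P042.MainSplit

namespace Vale.Agent.P042
namespace MainAux

open Finset Polynomial

lemma exists_M (c k N : ℕ) (hc : 1 ≤ c) (hk : 1 ≤ k) :
    ∃ M : ℕ, c * M ^ k ≤ N ∧ N < c * (M + 1) ^ k := by
  refine ⟨Nat.findGreatest (fun M => c * M ^ k ≤ N) N, ?_, ?_⟩
  · have h0 : c * 0 ^ k ≤ N := by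
      rw [zero_pow (by omega)]; simp
    exact Nat.findGreatest_spec (P := fun M => c * M ^ k ≤ N) (m := 0) (Nat.zero_le _) h0
  · by_contra hcon
    push Not at hcon
    have h1 : Nat.findGreatest (fun M => c * M ^ k ≤ N) N + 1 ≤ N := by
      refine le_trans ?_ hcon
      calc Nat.findGreatest (fun M => c * M ^ k ≤ N) N + 1
          ≤ (Nat.findGreatest (fun M => c * M ^ k ≤ N) N + 1) ^ k := Nat.le_self_pow (by omega) _
        _ ≤ c * (Nat.findGreatest (fun M => c * M ^ k ≤ N) N + 1) ^ k :=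
            Nat.le_mul_of_pos_left _ hc
    have h2 := Nat.le_findGreatest (P := fun M => c * M ^ k ≤ N) h1 hcon
    omega

lemma natCast_le_pow (c : ℕ) (V : ℝ) (hV : 2 ≤ V) : (c : ℝ) ≤ V ^ c := by
  have h1 : c ≤ 2 ^ c := Nat.lt_two_pow_self.le
  calc (c : ℝ) ≤ ((2 ^ c : ℕ) : ℝ) := by exact_mod_cast h1
    _ = (2 : ℝ) ^ c := by push_cast; rfl
    _ ≤ V ^ c := by gcongr

lemma counting_window_false (α : ℝ) (N : ℕ) (hα : 0 < α) (hN : 1 ≤ N) (S : ℝ)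
    (h1 : α ^ 2 * N / 4 ≤ 8 * S) (h2 : S ≤ 20 * (1 / 1000) * α ^ 2 * N) : False := by
  have hN' : (0 : ℝ) < N := by exact_mod_cast hN
  have h3 : 0 < α ^ 2 * N := by positivity
  nlinarith

lemma exp_le1 (k Ch Cm : ℕ) :
    (11 + k + 2 * Ch) * Cm ≤ 40 + (40 + k + 4 * Ch) * Cm + k + 4 * Ch := by nlinarith

lemma exp_le2 (k Ch Cm : ℕ) :
    14 + 2 * Ch + 22 * Cm ≤ 40 + (40 + k + 4 * Ch) * Cm + k + 4 * Ch := by nlinarith

/-- The arc decomposition of the exponential sum. -/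
lemma arcs (k : ℕ) (hk : 2 ≤ k) (κ C0 C1 : ℝ) (Ch Cm : ℕ) (hCh : 1 ≤ Ch) (P : ℤ[X])
    (hdeg : P.natDegree = k) (hlc : 0 < P.leadingCoeff)
    (hgs : ∀ (a : ℤ) (q : ℕ), 1 ≤ q → Int.gcd a q = 1 →
        ‖gs P a q‖ ≤ ∏ p ∈ q.primeFactors, bbf κ C0 C1 p (q.factorization p))
    (δ : ℝ) (M Q : ℕ)
    (hminor : ∀ θ : ℝ, δ * M ≤ ‖ES P M θ‖ →
      ∃ (a : ℤ) (q : ℕ), 1 ≤ q ∧ Int.gcd a q = 1 ∧ (q : ℝ) ≤ Ch * (2 / δ) ^ Cm ∧
      |θ - a / q| ≤ (2 / δ) ^ Cm / (((P.leadingCoeff : ℤ) : ℝ) * (M : ℝ) ^ k))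
    (hδ : 0 < δ) (hM : 1 ≤ M)
    (hQ : Q = ⌊(Ch : ℝ) * (2 / δ) ^ Cm⌋₊)
    (hdiff : ∀ n : ℤ, 1 ≤ n → |P.eval (n + 1) - P.eval n|
          ≤ Ch * P.leadingCoeff * n ^ (k - 1))
    (hMbig : (Q : ℝ) + 7 * Q * (2 / δ) ^ Cm * Ch ≤ δ * M) (θ : ℝ) :
    ‖ES P M θ‖ ≤ δ * M ∨ ∃ (a : ℤ) (q : ℕ), 1 ≤ q ∧ q ≤ Q ∧ Int.gcd a q = 1 ∧
      |θ - a / q| ≤ (2 / δ) ^ Cm / (((P.leadingCoeff : ℤ) : ℝ) * (M : ℝ) ^ k) ∧
      ‖ES P M θ‖ ≤ ((∏ p ∈ q.primeFactors, bbf κ C0 C1 p (q.factorization p)) + δ) * M := by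
  rcases le_or_gt (‖ES P M θ‖) (δ * M) with h | h
  · left; exact h
  right
  obtain ⟨a, q, hq, hgcd, hqle, hθ⟩ := hminor θ h.le
  have hMpos : (0 : ℝ) < M := by exact_mod_cast hM
  have hlcR : (0 : ℝ) < ((P.leadingCoeff : ℤ) : ℝ) := by exact_mod_cast hlc
  have hqQ : q ≤ Q := by
    rw [hQ]; exact Nat.le_floor hqle
  refine ⟨a, q, hq, hqQ, hgcd, hθ, ?_⟩
  have h1 := major_arc P a q hq (θ - a / q) M
  have h2 : (a : ℝ) / q + (θ - a / q) = θ := by ring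
  rw [h2] at h1
  refine h1.trans ?_
  have h3 : ∑ n ∈ Finset.Icc 1 M, |((P.eval ((n : ℤ) + 1) : ℤ) : ℝ) - ((P.eval (n : ℤ) : ℤ) : ℝ)|
      ≤ M * (Ch * ((P.leadingCoeff : ℤ) : ℝ) * (M : ℝ) ^ (k - 1)) := by
    have h4 : ∀ n ∈ Finset.Icc 1 M,
        |((P.eval ((n : ℤ) + 1) : ℤ) : ℝ) - ((P.eval (n : ℤ) : ℤ) : ℝ)|
        ≤ Ch * ((P.leadingCoeff : ℤ) : ℝ) * (M : ℝ) ^ (k - 1) := by
      intro n hn
      rw [Finset.mem_Icc] at hn
      have h5 := hdiff (n : ℤ) (by exact_mod_cast hn.1)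
      have h6 : |((P.eval ((n : ℤ) + 1) : ℤ) : ℝ) - ((P.eval (n : ℤ) : ℤ) : ℝ)|
          ≤ Ch * ((P.leadingCoeff : ℤ) : ℝ) * (n : ℝ) ^ (k - 1) := by
        exact_mod_cast h5
      refine h6.trans ?_
      have h7 : (n : ℝ) ≤ M := by exact_mod_cast hn.2
      gcongr
    calc _ ≤ ∑ n ∈ Finset.Icc 1 M, (Ch * ((P.leadingCoeff : ℤ) : ℝ) * (M : ℝ) ^ (k - 1)) :=
          Finset.sum_le_sum h4
      _ = _ := by simp
  have h4 : (M : ℝ) * (Ch * ((P.leadingCoeff : ℤ) : ℝ) * (M : ℝ) ^ (k - 1))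
      = Ch * (((P.leadingCoeff : ℤ) : ℝ) * (M : ℝ) ^ k) := by
    have : (M : ℝ) ^ k = M ^ (k - 1) * M := by
      rw [← pow_succ]; congr 1; omega
    rw [this]; ring
  rw [h4] at h3
  have hqR : (q : ℝ) ≤ Q := by exact_mod_cast hqQ
  have hq0 : (0 : ℝ) ≤ q := by positivity
  set K := (2 / δ) ^ Cm with hK
  have hK0 : 0 ≤ K := by positivity
  set LM := ((P.leadingCoeff : ℤ) : ℝ) * (M : ℝ) ^ k with hLM
  have hLM0 : 0 < LM := by positivity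
  set S := ∑ n ∈ Finset.Icc 1 M, |((P.eval ((n : ℤ) + 1) : ℤ) : ℝ) - ((P.eval (n : ℤ) : ℤ) : ℝ)|
    with hS
  have hS0 : 0 ≤ S := Finset.sum_nonneg (fun _ _ => abs_nonneg _)
  have h5 : 2 * Real.pi * q * |θ - a / q| * S ≤ 7 * Q * K * Ch := by
    have hpi : 2 * Real.pi ≤ 7 := by
      have := Real.pi_lt_d2
      linarith
    calc 2 * Real.pi * q * |θ - a / q| * S
        ≤ 7 * Q * (K / LM) * (Ch * LM) := by gcongr
      _ = 7 * Q * K * Ch := by field_simp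
  have h6 := hgs a q hq hgcd
  have h7 : ‖gs P a q‖ * M
      ≤ (∏ p ∈ q.primeFactors, bbf κ C0 C1 p (q.factorization p)) * M := by gcongr
  have h8 : ((∏ p ∈ q.primeFactors, bbf κ C0 C1 p (q.factorization p)) + δ) * M
      = (∏ p ∈ q.primeFactors, bbf κ C0 C1 p (q.factorization p)) * M + δ * M := by ring
  rw [h8]
  linarith

lemma floor_two (x : ℝ) (hx : 1 ≤ x) : x ≤ 2 * (⌊x⌋₊ : ℝ) := by
  have h1 := Nat.lt_floor_add_one x
  have h2 : 1 ≤ ⌊x⌋₊ := Nat.le_floor (by simpa using hx)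
  have h3 : (1 : ℝ) ≤ (⌊x⌋₊ : ℝ) := by exact_mod_cast h2
  linarith

set_option maxHeartbeats 4000000 in
/-- If `A` is regular at scale `(V, L)` we get a contradiction. -/
lemma not_regular (k : ℕ) (hk : 2 ≤ k) (κ : ℝ) (hκ : 0 < κ) (hκ2 : κ ≤ 1 / 2) (Ch : ℕ)
    (hCh : 1 ≤ Ch) (hloc : LocalDecay k κ) :
    ∃ (C3 : ℝ) (C4 : ℕ), 1 ≤ C3 ∧ 1 ≤ C4 ∧ ∀ (P : ℤ[X]) (u N V : ℕ) (A : Finset ℤ) (α ell : ℝ),
      1 ≤ u → P.natDegree = k → 0 < P.leadingCoeff → ContentLE P Ch →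
      (∀ j, |P.coeff j| ≤ Ch * (u : ℤ) ^ k) →
      (∀ n : ℤ, 1 ≤ n → |P.eval n| ≤ Ch * P.leadingCoeff * n ^ k) →
      (∀ n : ℤ, 1 ≤ n → |P.eval (n + 1) - P.eval n| ≤ Ch * P.leadingCoeff * n ^ (k - 1)) →
      A ⊆ Finset.Icc 1 (N : ℤ) → (A.card : ℝ) = α * N → 0 < α → α ≤ 1 → Avoids P A →
      Real.log (2 / α) ≤ ell → Real.exp (C3 * ell ^ ((1 - κ) / κ)) ≤ V → Real.exp ell ≤ V →
      ((u : ℝ) * V) ^ C4 * Real.exp (C4 * ell ^ 2) ≤ N →
      ∃ L : ℕ, (V : ℝ) ^ k ≤ L ∧ (N : ℝ) ≤ L * (V : ℝ) ^ C4 ∧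
        ¬ Regular A V L ((1 + 1 / 1000) * α) := by
  obtain ⟨C0, C1, hC0, hC1, hgs⟩ := exists_local k (by omega) κ (by linarith) Ch hCh hloc
  obtain ⟨Cm, hCm, hminor⟩ := minor_arc k (by omega)
  obtain ⟨C3, hC3, hwin⟩ := window κ C0 C1 (Ch + 11 * Cm) (1 / 1000) hκ hκ2 hC0 hC1
    (by
      have h1 : (1 : ℝ) ≤ Ch := by exact_mod_cast hCh
      have h2 : (0 : ℝ) ≤ Cm := by positivity
      linarith) (by norm_num) (by norm_num)
  -- exponents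
  set c3 : ℕ := ⌈C3⌉₊ with hc3
  set e : ℕ := 40 + (40 + k + 4 * Ch) * Cm + k + 4 * Ch with he
  set z : ℕ := 21 + Ch + k + 11 * Cm with hz
  set C4 : ℕ := 4 + 2 * Ch + k + e * k + z + k + 2 * c3 + 10 with hC4
  refine ⟨C3, C4, hC3, by omega, ?_⟩
  intro P u N V A α ell hu hPdeg hPlc hPcont hPcoeff hPval hPdiff hA hcard hα hα1 hav hell
    hV1 hV2 hN
  -- basic quantities
  have huR : (1 : ℝ) ≤ u := by exact_mod_cast hu
  have hlog2 : Real.log 2 ≤ Real.log (2 / α) := by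
    apply Real.log_le_log (by norm_num)
    rw [le_div_iff₀ hα]; linarith
  have hlog2' : (0.69 : ℝ) < Real.log 2 := by
    have := Real.log_two_gt_d9
    linarith
  set l := Real.log (2 / α) with hl
  have hl0 : 0 < l := by linarith
  have hexpl : Real.exp l = 2 / α := Real.exp_log (by positivity)
  have hVexp : 2 / α ≤ V := by
    rw [← hexpl]
    exact (Real.exp_le_exp.2 hell).trans hV2
  have hV2' : (2 : ℝ) ≤ V := by
    refine le_trans ?_ hVexp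
    rw [le_div_iff₀ hα]; linarith
  have hV1' : (1 : ℝ) ≤ V := by linarith
  have huV : (V : ℝ) ≤ u * V := le_mul_of_one_le_left (by linarith) huR
  have huV1 : (1 : ℝ) ≤ (u : ℝ) * V := by linarith
  have hu_le : (u : ℝ) ≤ u * V := le_mul_of_one_le_right (by linarith) hV1'
  have hexp1 : (1 : ℝ) ≤ Real.exp (C4 * ell ^ 2) := by
    apply Real.one_le_exp; positivity
  have hNuV : ((u : ℝ) * V) ^ C4 ≤ N := by
    refine le_trans ?_ hN
    exact le_mul_of_one_le_right (by positivity) hexp1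
  have hVN : (V : ℝ) ^ C4 * Real.exp (C4 * ell ^ 2) ≤ N := by
    refine le_trans ?_ hN
    gcongr
  have hNpos : (1 : ℝ) ≤ N := (one_le_pow₀ huV1).trans hNuV
  have hN1 : 1 ≤ N := by exact_mod_cast hNpos
  -- `δ` and `X = 2/δ`
  set δ : ℝ := 1 / 1000 * α with hδ
  have hδ0 : 0 < δ := by positivity
  have hδ1 : δ ≤ 1 := by rw [hδ]; linarith
  have hX : 2 / δ = 1000 * (2 / α) := by
    rw [hδ]; field_simp
  have h1000 : (1000 : ℝ) ≤ (V : ℝ) ^ 10 := by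
    calc (1000 : ℝ) ≤ 2 ^ 10 := by norm_num
      _ ≤ (V : ℝ) ^ 10 := by gcongr
  have hX0 : 0 < 2 / δ := by positivity
  have hXV : 2 / δ ≤ (V : ℝ) ^ 11 := by
    rw [hX]
    calc 1000 * (2 / α) ≤ (V : ℝ) ^ 10 * V := by gcongr
      _ = (V : ℝ) ^ 11 := by ring
  have hX1 : 1 ≤ 2 / δ := by
    rw [le_div_iff₀ hδ0]; linarith
  set κ₁ : ℝ := (2 / δ) ^ Cm with hκ₁
  have hκ₁1 : 1 ≤ κ₁ := one_le_pow₀ hX1
  have hκ₁V : κ₁ ≤ (V : ℝ) ^ (11 * Cm) := by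
    rw [hκ₁, pow_mul]; gcongr
  have hChV : (Ch : ℝ) ≤ (V : ℝ) ^ Ch := natCast_le_pow Ch V hV2'
  have hCh1 : (1 : ℝ) ≤ Ch := by exact_mod_cast hCh
  have hkV : (k : ℝ) ≤ (V : ℝ) ^ k := natCast_le_pow k V hV2'
  -- leading coefficient
  obtain ⟨lc, hlc⟩ := Int.eq_ofNat_of_zero_le hPlc.le
  have hlcpos : 1 ≤ lc := by
    rw [hlc] at hPlc
    exact_mod_cast hPlc
  have hlcu : (lc : ℝ) ≤ Ch * (u : ℝ) ^ k := by
    have h1 := hPcoeff k
    have h2 : P.coeff k = P.leadingCoeff := by rw [leadingCoeff, hPdeg]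
    rw [h2, hlc] at h1
    have h3 : |((lc : ℕ) : ℤ)| = lc := abs_of_nonneg (by positivity)
    rw [h3] at h1
    exact_mod_cast h1
  have hlcR : (1 : ℝ) ≤ lc := by exact_mod_cast hlcpos
  have hlcc : ((P.leadingCoeff : ℤ) : ℝ) = lc := by rw [hlc]; simp
  -- choice of `M`
  obtain ⟨M, hM1, hM2⟩ := exists_M (10 * Ch * lc) k N
    (Nat.one_le_iff_ne_zero.2 (by positivity)) (by omega)
  have hM1' : 10 * (Ch : ℝ) * lc * (M : ℝ) ^ k ≤ N := by exact_mod_cast hM1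
  have hM2' : (N : ℝ) < 10 * (Ch : ℝ) * lc * ((M : ℝ) + 1) ^ k := by exact_mod_cast hM2
  have hMY : ((u : ℝ) * V) ^ e ≤ M := by
    by_contra hcon
    push Not at hcon
    have h0 : (M : ℝ) + 1 ≤ ((u : ℝ) * V) ^ e := by
      have h1 : M + 1 ≤ (u * V) ^ e := by
        have : M < (u * V) ^ e := by exact_mod_cast hcon
        omega
      exact_mod_cast h1
    have h1 : (N : ℝ) < N := by
      calc (N : ℝ) < 10 * (Ch : ℝ) * lc * ((M : ℝ) + 1) ^ k := hM2'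
        _ ≤ (V : ℝ) ^ 4 * (V : ℝ) ^ Ch * ((V : ℝ) ^ Ch * (u : ℝ) ^ k) *
            (((u : ℝ) * V) ^ e) ^ k := by
            have h2 : (10 : ℝ) ≤ (V : ℝ) ^ 4 := by
              calc (10 : ℝ) ≤ 2 ^ 4 := by norm_num
                _ ≤ (V : ℝ) ^ 4 := by gcongr
            have h3 : (lc : ℝ) ≤ (V : ℝ) ^ Ch * (u : ℝ) ^ k := hlcu.trans (by gcongr)
            gcongr
        _ ≤ ((u : ℝ) * V) ^ 4 * ((u : ℝ) * V) ^ Ch * (((u : ℝ) * V) ^ Ch * ((u : ℝ) * V) ^ k) *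
            (((u : ℝ) * V) ^ e) ^ k := by gcongr
        _ = ((u : ℝ) * V) ^ (4 + 2 * Ch + k + e * k) := by ring
        _ ≤ ((u : ℝ) * V) ^ C4 := pow_le_pow_right₀ huV1 (by omega)
        _ ≤ N := hNuV
    exact lt_irrefl _ h1
  have hM1R : (1 : ℝ) ≤ M := (one_le_pow₀ huV1).trans hMY
  have hMn1 : 1 ≤ M := by exact_mod_cast hM1R
  have hVe : ∀ n : ℕ, n ≤ e → (V : ℝ) ^ n ≤ M := by
    intro n hn
    calc (V : ℝ) ^ n ≤ ((u : ℝ) * V) ^ n := by gcongr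
      _ ≤ ((u : ℝ) * V) ^ e := pow_le_pow_right₀ huV1 hn
      _ ≤ M := hMY
  -- `Q`
  set Q : ℕ := ⌊(Ch : ℝ) * (2 / δ) ^ Cm⌋₊ with hQ
  have hQle : (Q : ℝ) ≤ Ch * κ₁ := Nat.floor_le (by positivity)
  have hQV : (Q : ℝ) ≤ (V : ℝ) ^ (Ch + 11 * Cm) := by
    refine hQle.trans ?_
    rw [pow_add]; gcongr
  have hQexp : (Q : ℝ) ≤ Real.exp (((Ch : ℝ) + 11 * Cm) * l) := by
    refine hQle.trans ?_
    have h2l : (2 : ℝ) ≤ Real.exp l := by
      rw [← Real.log_le_iff_le_exp (by norm_num)]; exact hlog2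
    have h1 : (Ch : ℝ) ≤ Real.exp l ^ Ch := natCast_le_pow Ch _ h2l
    have h2 : 2 / δ ≤ Real.exp l ^ 11 := by
      rw [hX, ← hexpl]
      calc 1000 * Real.exp l ≤ (Real.exp l) ^ 10 * Real.exp l := by
            have : (1000 : ℝ) ≤ Real.exp l ^ 10 := by
              calc (1000 : ℝ) ≤ 2 ^ 10 := by norm_num
                _ ≤ Real.exp l ^ 10 := by gcongr
            gcongr
        _ = Real.exp l ^ 11 := by ring
    have h3 : κ₁ ≤ Real.exp l ^ (11 * Cm) := by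
      rw [hκ₁, pow_mul]; gcongr
    calc (Ch : ℝ) * κ₁ ≤ Real.exp l ^ Ch * Real.exp l ^ (11 * Cm) := by gcongr
      _ = Real.exp l ^ (Ch + 11 * Cm) := by rw [pow_add]
      _ = Real.exp (((Ch : ℝ) + 11 * Cm) * l) := by
        rw [← Real.exp_nat_mul]; push_cast; ring_nf
  -- the minor arc input
  have hminor' : ∀ θ : ℝ, δ * M ≤ ‖ES P M θ‖ →
      ∃ (a : ℤ) (q : ℕ), 1 ≤ q ∧ Int.gcd a q = 1 ∧ (q : ℝ) ≤ Ch * (2 / δ) ^ Cm ∧
      |θ - a / q| ≤ (2 / δ) ^ Cm / (((P.leadingCoeff : ℤ) : ℝ) * (M : ℝ) ^ k) := by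
    intro θ hθ
    refine hminor P Ch (Ch * (u : ℝ) ^ k) δ M θ hPdeg hPlc hPcont hCh ?_ ?_ hδ0 hδ1 ?_ hθ
    · have : (1 : ℝ) ≤ (u : ℝ) ^ k := one_le_pow₀ huR
      exact one_le_mul_of_one_le_of_one_le hCh1 this
    · intro j
      have := hPcoeff j
      exact_mod_cast this
    · calc (2 / δ * (Ch * (u : ℝ) ^ k) * Ch) ^ Cm
          ≤ ((V : ℝ) ^ 11 * ((V : ℝ) ^ Ch * (u : ℝ) ^ k) * (V : ℝ) ^ Ch) ^ Cm := by gcongr
        _ ≤ (((u : ℝ) * V) ^ 11 * (((u : ℝ) * V) ^ Ch * ((u : ℝ) * V) ^ k) *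
            ((u : ℝ) * V) ^ Ch) ^ Cm := by gcongr
        _ = ((u : ℝ) * V) ^ ((11 + k + 2 * Ch) * Cm) := by ring
        _ ≤ ((u : ℝ) * V) ^ e := by
            apply pow_le_pow_right₀ huV1
            rw [he]
            exact exp_le1 k Ch Cm
        _ ≤ M := hMY
  have hMbig : (Q : ℝ) + 7 * Q * (2 / δ) ^ Cm * Ch ≤ δ * M := by
    have h1 : (Q : ℝ) + 7 * Q * (2 / δ) ^ Cm * Ch ≤ 8 * Q * κ₁ * Ch := by
      have h2 : (Q : ℝ) * 1 ≤ Q * (κ₁ * Ch) := by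
        have : 1 ≤ κ₁ * Ch := one_le_mul_of_one_le_of_one_le hκ₁1 hCh1
        gcongr
      rw [← hκ₁]
      have h3 : 8 * Q * κ₁ * Ch = Q * (κ₁ * Ch) + 7 * Q * κ₁ * Ch := by ring
      rw [h3]
      linarith
    refine h1.trans ?_
    have h2 : 8 * Q * κ₁ * Ch * (2 / δ) ≤ M := by
      calc 8 * Q * κ₁ * Ch * (2 / δ)
          ≤ (V : ℝ) ^ 3 * (V : ℝ) ^ (Ch + 11 * Cm) * (V : ℝ) ^ (11 * Cm) * (V : ℝ) ^ Ch *
            (V : ℝ) ^ 11 := by
            have : (8 : ℝ) ≤ (V : ℝ) ^ 3 := by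
              calc (8 : ℝ) = 2 ^ 3 := by norm_num
                _ ≤ (V : ℝ) ^ 3 := by gcongr
            gcongr
        _ = (V : ℝ) ^ (14 + 2 * Ch + 22 * Cm) := by ring
        _ ≤ M := hVe _ (by rw [he]; exact exp_le2 k Ch Cm)
    have h3 : 8 * Q * κ₁ * Ch ≤ M * (δ / 2) := by
      have h4 : 8 * Q * κ₁ * Ch * (2 / δ) * (δ / 2) ≤ M * (δ / 2) := by gcongr
      have h5 : 8 * Q * κ₁ * Ch * (2 / δ) * (δ / 2) = 8 * Q * κ₁ * Ch := by field_simp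
      rw [h5] at h4; exact h4
    have h6 : (M : ℝ) * (δ / 2) ≤ δ * M := by
      have h7 : 0 ≤ δ * M := by positivity
      have h8 : (M : ℝ) * (δ / 2) = δ * M / 2 := by ring
      rw [h8]; linarith
    linarith
  -- `J`
  set LM : ℝ := ((P.leadingCoeff : ℤ) : ℝ) * (M : ℝ) ^ k with hLM
  have hLM0 : 0 < LM := by rw [hLM, hlcc]; positivity
  have hLMN : (N : ℝ) ≤ 10 * Ch * 2 ^ k * LM := by
    refine hM2'.le.trans ?_
    rw [hLM, hlcc]
    have h1 : ((M : ℝ) + 1) ^ k ≤ (2 * M) ^ k := by gcongr; linarith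
    calc 10 * (Ch : ℝ) * lc * ((M : ℝ) + 1) ^ k ≤ 10 * (Ch : ℝ) * lc * (2 * M) ^ k := by gcongr
      _ = 10 * Ch * 2 ^ k * (lc * (M : ℝ) ^ k) := by rw [mul_pow]; ring
  have hLMN2 : LM ≤ N := by
    rw [hLM, hlcc]
    refine le_trans ?_ hM1'
    have h1 : (1 : ℝ) ≤ 10 * Ch := by linarith
    have h2 : (0 : ℝ) ≤ lc * (M : ℝ) ^ k := by positivity
    calc (lc : ℝ) * (M : ℝ) ^ k = 1 * (lc * (M : ℝ) ^ k) := by ring
      _ ≤ (10 * Ch) * (lc * (M : ℝ) ^ k) := by gcongr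
      _ = _ := by ring
  set x : ℝ := LM / (100000 * κ₁) with hx
  have hxN : 2 * (N : ℝ) ≤ x * (V : ℝ) ^ z := by
    have h1 : 2 * (N : ℝ) ≤ 20 * Ch * 2 ^ k * LM := by linarith
    refine h1.trans ?_
    rw [hx, div_mul_eq_mul_div, le_div_iff₀ (by positivity)]
    calc 20 * Ch * 2 ^ k * LM * (100000 * κ₁) = LM * ((20 * 100000) * Ch * 2 ^ k * κ₁) := by ring
      _ ≤ LM * ((V : ℝ) ^ 21 * (V : ℝ) ^ Ch * (V : ℝ) ^ k * (V : ℝ) ^ (11 * Cm)) := by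
          have : (20 * 100000 : ℝ) ≤ (V : ℝ) ^ 21 := by
            calc (20 * 100000 : ℝ) ≤ 2 ^ 21 := by norm_num
              _ ≤ (V : ℝ) ^ 21 := by gcongr
          gcongr
      _ = LM * (V : ℝ) ^ z := by rw [hz]; ring
  have hVz : (0 : ℝ) < (V : ℝ) ^ z := by positivity
  have hx1 : 1 ≤ x := by
    have h1 : (V : ℝ) ^ z ≤ N := by
      calc (V : ℝ) ^ z ≤ ((u : ℝ) * V) ^ z := by gcongr
        _ ≤ ((u : ℝ) * V) ^ C4 := pow_le_pow_right₀ huV1 (by omega)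
        _ ≤ N := hNuV
    by_contra hcon
    push Not at hcon
    have h2 : x * (V : ℝ) ^ z < 1 * (V : ℝ) ^ z := by gcongr
    linarith
  set J : ℕ := ⌊x⌋₊ with hJ
  have hJx : (J : ℝ) ≤ x := Nat.floor_le (by linarith)
  have hJx2 : x ≤ 2 * J := floor_two x hx1
  have hJN : (N : ℝ) ≤ J * (V : ℝ) ^ z := by
    have h1 := mul_le_mul_of_nonneg_right hJx2 hVz.le
    linarith
  have hJN2 : (J : ℝ) ≤ 1 / 1000 * N := by
    refine hJx.trans ?_
    rw [hx, div_le_iff₀ (by positivity)]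
    have h1 : (N : ℝ) * 1 ≤ N * κ₁ := by gcongr
    have h2 : 1 / 1000 * (N : ℝ) * (100000 * κ₁) = 100 * (N * κ₁) := by ring
    rw [h2]; linarith
  -- `C3`
  have hc3' : C3 ≤ (V : ℝ) ^ c3 := (Nat.le_ceil C3).trans (natCast_le_pow c3 V hV2')
  have hc3'' : C3 ≤ c3 := Nat.le_ceil C3
  have hC3pos : 0 < C3 := by linarith
  have hVR : (0 : ℝ) < V := by linarith
  -- `J` is large
  have hJlarge : ∀ (n : ℕ), n + z ≤ C4 → (V : ℝ) ^ n * Real.exp (C4 * ell ^ 2) ≤ J := by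
    intro n hn
    have h1 : (V : ℝ) ^ n * Real.exp (C4 * ell ^ 2) * (V : ℝ) ^ z ≤ J * (V : ℝ) ^ z := by
      refine le_trans ?_ hJN
      refine le_trans ?_ hVN
      calc (V : ℝ) ^ n * Real.exp (C4 * ell ^ 2) * (V : ℝ) ^ z
          = (V : ℝ) ^ (n + z) * Real.exp (C4 * ell ^ 2) := by rw [pow_add]; ring
        _ ≤ (V : ℝ) ^ C4 * Real.exp (C4 * ell ^ 2) := by gcongr
    exact le_of_mul_le_mul_right h1 hVz
  have hJlarge' : ∀ (n : ℕ), n + z ≤ C4 → (V : ℝ) ^ n ≤ J := by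
    intro n hn
    refine le_trans ?_ (hJlarge n hn)
    exact le_mul_of_one_le_right (by positivity) hexp1
  -- `L`
  set y : ℝ := J / (C3 * V) with hy
  have hyJ : y * (C3 * V) = J := by rw [hy]; field_simp
  have hy1 : (V : ℝ) ^ (k + 1) ≤ y := by
    rw [hy, le_div_iff₀ (by positivity)]
    calc (V : ℝ) ^ (k + 1) * (C3 * V) ≤ (V : ℝ) ^ (k + 1) * ((V : ℝ) ^ c3 * V) := by gcongr
      _ = (V : ℝ) ^ (k + 2 + c3) := by ring
      _ ≤ J := hJlarge' _ (by omega)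
  have hy1' : 1 ≤ y := (one_le_pow₀ hV1').trans hy1
  set L : ℕ := ⌊y⌋₊ with hL
  have hLy : (L : ℝ) ≤ y := Nat.floor_le (by linarith)
  have hLy2 : y ≤ 2 * L := floor_two y hy1'
  have hLk : (V : ℝ) ^ k ≤ L := by
    have h1 : (V : ℝ) ^ (k + 1) ≤ 2 * L := hy1.trans hLy2
    have h2 : 2 * (V : ℝ) ^ k ≤ (V : ℝ) ^ (k + 1) := by
      rw [pow_succ]
      have h3 : (0 : ℝ) ≤ (V : ℝ) ^ k := by positivity
      have h4 := mul_le_mul_of_nonneg_left hV2' h3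
      linarith
    linarith
  have hL1 : 1 ≤ L := by
    have : (1 : ℝ) ≤ L := (one_le_pow₀ hV1').trans hLk
    exact_mod_cast this
  have hLN : (N : ℝ) ≤ L * (V : ℝ) ^ C4 := by
    calc (N : ℝ) ≤ J * (V : ℝ) ^ z := hJN
      _ = y * (C3 * V) * (V : ℝ) ^ z := by rw [hyJ]
      _ ≤ (2 * L) * ((V : ℝ) ^ c3 * V) * (V : ℝ) ^ z := by gcongr
      _ ≤ ((V : ℝ) * L) * ((V : ℝ) ^ c3 * V) * (V : ℝ) ^ z := by gcongr
      _ = L * (V : ℝ) ^ (c3 + 2 + z) := by ring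
      _ ≤ L * (V : ℝ) ^ C4 := by
          have : (V : ℝ) ^ (c3 + 2 + z) ≤ (V : ℝ) ^ C4 := pow_le_pow_right₀ hV1' (by omega)
          gcongr
  have hCVL : C3 * V * L ≤ J := by
    calc C3 * V * L ≤ C3 * V * y := by gcongr
      _ = J := by rw [← hyJ]; ring
  refine ⟨L, hLk, hLN, ?_⟩
  intro hreg
  -- the majorant
  set b : ℕ → ℝ := fun q => ∏ p ∈ q.primeFactors, bbf κ C0 C1 p (q.factorization p) with hb
  have hmaj := localMajorant_bbf κ C0 C1 hC0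
  have hwin' := hwin N A α V L J Q b (bbf κ C0 C1) hA hcard hα hα1 hreg
    (by
      refine le_trans ?_ hV1
      apply Real.exp_le_exp.2
      apply mul_le_mul_of_nonneg_left _ (by linarith)
      apply Real.rpow_le_rpow hl0.le hell
      apply div_nonneg <;> linarith)
    hQexp hL1 hCVL
    (by
      refine le_trans ?_ (hJlarge 1 (by omega))
      rw [pow_one]
      apply mul_le_mul_of_nonneg_left _ (by linarith)
      apply Real.exp_le_exp.2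
      have h1 : C3 ≤ C4 := by
        refine hc3''.trans ?_
        have : c3 ≤ C4 := by omega
        exact_mod_cast this
      have h2 : l ^ 2 ≤ ell ^ 2 := by gcongr
      have h3 : (0 : ℝ) ≤ l ^ 2 := by positivity
      calc C3 * l ^ 2 ≤ C4 * l ^ 2 := by gcongr
        _ ≤ C4 * ell ^ 2 := by gcongr)
    hJN2 hmaj (fun q _ => rfl)
  have hLJ : L ≤ J := by
    have h1 : (L : ℝ) ≤ J := by
      refine le_trans ?_ hCVL
      have h2 : 1 ≤ C3 * V := one_le_mul_of_one_le_of_one_le hC3 hV1'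
      exact le_mul_of_one_le_left (by positivity) h2
    exact_mod_cast h1
  have hcount := counting N A hA α (1 / 1000) δ (κ₁ / LM) hcard hα hα1 (by norm_num) (by norm_num)
    P M k hMn1
    (by
      intro n hn
      rw [Finset.mem_Icc] at hn
      have h1 := hPval (n : ℤ) (by exact_mod_cast hn.1)
      rw [hlc] at h1
      have h2 : (10 : ℤ) * (Ch * lc * (n : ℤ) ^ k) ≤ N := by
        have h3 : 10 * Ch * lc * n ^ k ≤ N := by
          refine le_trans ?_ hM1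
          have := Nat.pow_le_pow_left hn.2 k
          gcongr
        have h4 : ((10 * Ch * lc * n ^ k : ℕ) : ℤ) ≤ N := by exact_mod_cast h3
        push_cast at h4
        linarith
      linarith)
    hav
    (by
      have hP0 : P ≠ 0 := by
        intro h0
        rw [h0] at hPlc
        simp at hPlc
      have h1 : ((Finset.Icc 1 M).filter (fun n : ℕ => P.eval (n : ℤ) = 0)).card
          ≤ P.roots.toFinset.card := by
        apply Finset.card_le_card_of_injOn (fun n : ℕ => (n : ℤ))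
        · intro n hn
          rw [Finset.mem_coe, Finset.mem_filter] at hn
          rw [Finset.mem_coe, Multiset.mem_toFinset, Polynomial.mem_roots hP0]
          exact hn.2
        · intro a _ b _ hab
          exact Int.ofNat.inj hab
      refine h1.trans ((Multiset.toFinset_card_le _).trans ?_)
      rw [← hPdeg]
      exact P.card_roots')
    (by
      have h1 : (k : ℝ) * (2 / δ) ≤ M := by
        calc (k : ℝ) * (2 / δ) ≤ (V : ℝ) ^ k * (V : ℝ) ^ 11 := by gcongr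
          _ = (V : ℝ) ^ (k + 11) := by rw [pow_add]
          _ ≤ M := hVe _ (by rw [he]; omega)
      have h2 : (k : ℝ) ≤ M * (δ / 2) := by
        have h4 : (k : ℝ) * (2 / δ) * (δ / 2) ≤ M * (δ / 2) := by gcongr
        have h5 : (k : ℝ) * (2 / δ) * (δ / 2) = k := by field_simp
        rw [h5] at h4; exact h4
      refine h2.trans ?_
      rw [hδ]
      have h7 : (0 : ℝ) ≤ α * M := by positivity
      linarith)
    hδ0.le le_rfl L J Q
    (fun v hv1 hv2 c l' hl' => hreg v hv1 (by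
      have h1 : (1 : ℕ) ≤ V := by exact_mod_cast hV1'
      omega) c l' hl')
    hL1 hLJ hJN2 (by positivity)
    (by
      have h1 : κ₁ / LM * J ≤ κ₁ / LM * x := by gcongr
      refine h1.trans ?_
      rw [hx]
      have : κ₁ / LM * (LM / (100000 * κ₁)) = 1 / 1000 / 100 := by field_simp; norm_num
      rw [this])
    b (fun q => Finset.prod_nonneg (fun p _ => hmaj.nonneg _ _))
    (by simp [hb])
    (fun θ => by
      rcases arcs k hk κ C0 C1 Ch Cm hCh P hPdeg hPlc (hgs P hPdeg hPlc hPcont) δ M Q hminor'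
        hδ0 hMn1 hQ hPdiff hMbig θ with h | ⟨a, q, h1, h2, h3, h4, h5⟩
      · left; exact h
      · right; exact ⟨a, q, h1, h2, h3, h4, h5⟩)
  exact counting_window_false α N hα hN1 _ hcount hwin'

end MainAux
end Vale.Agent.P042
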