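import Vale.Agent.P042.Defs

/-!
P042, module W5: power sums determine the size of the largest term.
-/

namespace Vale.Agent.P042

open Finset Polynomial

namespace PowerSumAux

open Filter Topology ComplexConjugate

/-- Cesaro means of the powers of a complex number in the closed unit disc -/
lemma cesaro_pow (w : ℂ) (hw : ‖w‖ ≤ 1) :
    Tendsto (fun N : ℕ => ((N : ℝ)⁻¹ : ℝ) • ∑ r ∈ range N, w ^ r) atTop
      (𝓝 (if w = 1 then 1 else 0)) := by
  split_ifs with h
  · subst h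
    have : (fun N : ℕ => ((N : ℝ)⁻¹ : ℝ) • ∑ r ∈ range N, (1 : ℂ) ^ r) =ᶠ[atTop] fun _ => 1 := by
      filter_upwards [eventually_ge_atTop 1] with N hN
      have hN' : (N : ℂ) ≠ 0 := by
        have : N ≠ 0 := by omega
        exact_mod_cast this
      simp [hN']
    exact tendsto_const_nhds.congr' this.symm
  · have hw1 : w - 1 ≠ 0 := sub_ne_zero.2 h
    have hb : ∀ N : ℕ, ‖((N : ℝ)⁻¹ : ℝ) • ∑ r ∈ range N, w ^ r‖ ≤ (N : ℝ)⁻¹ * (2 / ‖w - 1‖) := by
      intro N
      rw [norm_smul, norm_inv, Real.norm_natCast]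
      refine mul_le_mul_of_nonneg_left ?_ (by positivity)
      rw [geom_sum_eq h, norm_div]
      refine div_le_div_of_nonneg_right ?_ (norm_nonneg _)
      refine (norm_sub_le _ _).trans ?_
      rw [norm_pow, norm_one]
      have := pow_le_one₀ (n := N) (norm_nonneg w) hw
      linarith
    refine squeeze_zero_norm hb ?_
    have : Tendsto (fun N : ℕ => (N : ℝ)⁻¹ * (2 / ‖w - 1‖)) atTop (𝓝 (0 * (2 / ‖w - 1‖))) :=
      (tendsto_inv_atTop_zero.comp tendsto_natCast_atTop_atTop).mul_const _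
    simpa using this

end PowerSumAux

open PowerSumAux Filter Topology ComplexConjugate in
/-- W5 (file PowerSum.lean) -/
theorem powersum_bound (n : ℕ) (ω : Fin n → ℂ) (B C : ℝ) (hB : 0 < B)
    (h : ∀ r : ℕ, 1 ≤ r → ‖∑ i, (ω i) ^ r‖ ≤ C * B ^ r) (i : Fin n) : ‖ω i‖ ≤ B := by
  classical
  by_contra hcon
  push Not at hcon
  obtain ⟨i0, -, hi0⟩ := Finset.exists_max_image (Finset.univ : Finset (Fin n))
    (fun j => ‖ω j‖) ⟨i, Finset.mem_univ i⟩
  set ρ := ‖ω i0‖ with hρ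
  have hρB : B < ρ := hcon.trans_le (hi0 i (Finset.mem_univ i))
  have hρ0 : 0 < ρ := hB.trans hρB
  set z : Fin n → ℂ := fun j => ω j / ρ with hz
  have hz1 : ∀ j, ‖z j‖ ≤ 1 := by
    intro j
    rw [hz]
    simp only [norm_div, Complex.norm_real, Real.norm_eq_abs, abs_of_pos hρ0]
    rw [div_le_one hρ0]
    exact hi0 j (Finset.mem_univ j)
  have hz0 : ‖z i0‖ = 1 := by
    rw [hz]
    simp only [norm_div, Complex.norm_real, Real.norm_eq_abs, abs_of_pos hρ0]
    rw [← hρ]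
    exact div_self hρ0.ne'
  have hS0 : Tendsto (fun r : ℕ => ∑ j, z j ^ r) atTop (𝓝 0) := by
    have hb : ∀ᶠ r : ℕ in atTop, ‖∑ j, z j ^ r‖ ≤ C * (B / ρ) ^ r := by
      filter_upwards [eventually_ge_atTop 1] with r hr
      have e : ∑ j, z j ^ r = (∑ j, ω j ^ r) / (ρ : ℂ) ^ r := by
        rw [Finset.sum_div]
        exact Finset.sum_congr rfl (fun j _ => by rw [hz]; simp [div_pow])
      rw [e, norm_div, norm_pow, Complex.norm_real, Real.norm_eq_abs, abs_of_pos hρ0, div_pow,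
        ← mul_div_assoc]
      exact div_le_div_of_nonneg_right (h r hr) (pow_pos hρ0 r).le
    refine squeeze_zero_norm' hb ?_
    have : Tendsto (fun r : ℕ => C * (B / ρ) ^ r) atTop (𝓝 (C * 0)) :=
      (tendsto_pow_atTop_nhds_zero_of_lt_one (by positivity)
        ((div_lt_one hρ0).2 hρB)).const_mul C
    simpa using this
  have hSS : Tendsto (fun r : ℕ => (∑ j, z j ^ r) * conj (∑ j, z j ^ r)) atTop (𝓝 0) := by
    have h1 : Tendsto (fun r : ℕ => conj (∑ j, z j ^ r)) atTop (𝓝 (conj 0)) :=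
      (Complex.continuous_conj.tendsto 0).comp hS0
    have := hS0.mul h1
    simpa using this
  have hces := hSS.cesaro_smul
  have hexp : ∀ r : ℕ, (∑ j, z j ^ r) * conj (∑ j, z j ^ r) =
      ∑ j, ∑ l, (z j * conj (z l)) ^ r := by
    intro r
    rw [map_sum, Finset.sum_mul_sum]
    refine Finset.sum_congr rfl (fun j _ => Finset.sum_congr rfl (fun l _ => ?_))
    rw [mul_pow, map_pow]
  have hlim : Tendsto (fun N : ℕ => ((N : ℝ)⁻¹ : ℝ) • ∑ r ∈ range N,
      (∑ j, z j ^ r) * conj (∑ j, z j ^ r)) atTop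
      (𝓝 (∑ j, ∑ l, if z j * conj (z l) = 1 then 1 else 0)) := by
    have e : ∀ N : ℕ, ((N : ℝ)⁻¹ : ℝ) • ∑ r ∈ range N, (∑ j, z j ^ r) * conj (∑ j, z j ^ r) =
        ∑ j, ∑ l, ((N : ℝ)⁻¹ : ℝ) • ∑ r ∈ range N, (z j * conj (z l)) ^ r := by
      intro N
      simp_rw [hexp]
      rw [Finset.sum_comm, Finset.smul_sum]
      refine Finset.sum_congr rfl (fun j _ => ?_)
      rw [Finset.sum_comm, Finset.smul_sum]
    simp_rw [e]
    refine tendsto_finsetSum _ (fun j _ => tendsto_finsetSum _ (fun l _ => ?_))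
    refine cesaro_pow _ ?_
    rw [norm_mul, Complex.norm_conj]
    exact mul_le_one₀ (hz1 j) (norm_nonneg _) (hz1 l)
  have heq := tendsto_nhds_unique hlim hces
  have hnat : (∑ j, ∑ l, if z j * conj (z l) = 1 then (1 : ℂ) else 0) =
      ((∑ j, ∑ l, if z j * conj (z l) = 1 then 1 else 0 : ℕ) : ℂ) := by
    push_cast
    rfl
  rw [hnat] at heq
  have h0 : (∑ j, ∑ l, if z j * conj (z l) = 1 then 1 else 0 : ℕ) = 0 := by exact_mod_cast heq
  have h1 := (Finset.sum_eq_zero_iff.1 h0) i0 (Finset.mem_univ _)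
  have h2 := (Finset.sum_eq_zero_iff.1 h1) i0 (Finset.mem_univ _)
  have h3 : z i0 * conj (z i0) = 1 := by
    rw [Complex.mul_conj, Complex.normSq_eq_norm_sq, hz0]
    simp
  rw [if_pos h3] at h2
  exact one_ne_zero h2

end Vale.Agent.P042
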