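import Vale.Agent.P042.Defs

/-!
P042, module W3: Stepanov's method.
-/

namespace Vale.Agent.P042

open Finset Polynomial

namespace StepAux

section general

variable {K : Type*} [Field K]

/-- weighted degree condition for bivariate polynomials: `deg_X (coeff of T^l) ≤ w l + A` -/
def WD (w A : ℕ) (P : K[X][X]) : Prop := ∀ l, (P.coeff l).natDegree ≤ w * l + A

lemma WD.mul {w A B : ℕ} {P Q : K[X][X]} (hP : WD w A P) (hQ : WD w B Q) :
    WD w (A + B) (P * Q) := by
  intro l
  rw [coeff_mul]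
  refine natDegree_sum_le_of_forall_le _ _ (fun ab hab => ?_)
  rw [HasAntidiagonal.mem_antidiagonal] at hab
  refine natDegree_mul_le.trans ?_
  have h1 := hP ab.1
  have h2 := hQ ab.2
  rw [← hab, mul_add]
  omega

lemma WD.add {w A : ℕ} {P Q : K[X][X]} (hP : WD w A P) (hQ : WD w A Q) : WD w A (P + Q) := by
  intro l
  rw [coeff_add]
  exact (natDegree_add_le _ _).trans (max_le (hP l) (hQ l))

lemma WD.sum {ι : Type*} {w A : ℕ} (s : Finset ι) (P : ι → K[X][X])
    (h : ∀ i ∈ s, WD w A (P i)) : WD w A (∑ i ∈ s, P i) := by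
  intro l
  rw [finsetSum_coeff]
  exact natDegree_sum_le_of_forall_le _ _ (fun i hi => h i hi l)

lemma WD.C_C (w : ℕ) (c : K) : WD w 0 (C (C c) : K[X][X]) := by
  intro l
  rw [coeff_C]
  split_ifs <;> simp

lemma WD.one (w : ℕ) : WD w 0 (1 : K[X][X]) := by
  have := WD.C_C w (1 : K)
  simpa using this

lemma WD.pow {w : ℕ} {P : K[X][X]} (hP : WD w 0 P) (n : ℕ) : WD w 0 (P ^ n) := by
  induction n with
  | zero => simpa using WD.one w
  | succ n ih => rw [pow_succ]; exact ih.mul hP

lemma WD.C_X_pow (w j : ℕ) : WD w j (C (X ^ j) : K[X][X]) := by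
  intro l
  rw [coeff_C]
  split_ifs
  · rw [natDegree_X_pow]; omega
  · simp

lemma WD.mono {w A B : ℕ} (h : A ≤ B) {P : K[X][X]} (hP : WD w A P) : WD w B P :=
  fun l => (hP l).trans (by omega)

/-- `a(X + T)` -/
noncomputable def tau : K[X] →ₐ[K] K[X][X] := aeval (X + C X : K[X][X])

lemma tau_eq_taylor (a : K[X]) : tau a = taylor (X : K[X]) (a.map C) := by
  rw [taylor_apply, tau, aeval_def, Polynomial.comp, eval₂_map]
  rfl

lemma tau_coeff_natDegree (a : K[X]) (n : ℕ) : ((tau a).coeff n).natDegree ≤ a.natDegree - n := by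
  rw [tau_eq_taylor, taylor_coeff]
  have : (hasseDeriv n (a.map C : K[X][X])) = (hasseDeriv n a).map C := by
    ext m
    simp [hasseDeriv_coeff, coeff_map]
  rw [this, eval_map]
  have h2 : eval₂ C X (hasseDeriv n a) = hasseDeriv n a := eval₂_C_X
  rw [h2]
  exact natDegree_hasseDeriv_le a n

lemma tau_coeff_zero (a : K[X]) : (tau a).coeff 0 = a := by
  rw [tau_eq_taylor, taylor_coeff_zero, eval_map]
  exact eval₂_C_X

lemma WD_tau {w A : ℕ} {a : K[X]} (h : a.natDegree ≤ A) : WD w A (tau a) := by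
  intro l
  exact (tau_coeff_natDegree a l).trans (by omega)

/-- evaluation of the inner variable at `x` -/
noncomputable def ev (x : K) : K[X][X] →+* K[X] := mapRingHom (evalRingHom x)

lemma ev_tau (x : K) (a : K[X]) : ev x (tau a) = a.comp (X + C x) := by
  rw [tau_eq_taylor, taylor_apply, ev, coe_mapRingHom, Polynomial.map_comp, Polynomial.map_map]
  have h1 : (evalRingHom x).comp (C : K →+* K[X]) = RingHom.id K := by
    ext; simp
  rw [h1]
  simp

lemma ev_coeff (x : K) (P : K[X][X]) (n : ℕ) : (ev x P).coeff n = (P.coeff n).eval x := by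
  simp [ev]

lemma ev_C (x : K) (a : K[X]) : ev x (C a) = C (a.eval x) := by
  simp [ev]

/-- the difference polynomial -/
lemma WD_diff {k : ℕ} (f : K[X]) (hf : f.natDegree = k) : WD (k - 1) 0 (tau f - C f) := by
  intro l
  rw [coeff_sub, coeff_C]
  by_cases hl : l = 0
  · subst hl
    simp [tau_coeff_zero]
  · rw [if_neg hl, sub_zero]
    refine (tau_coeff_natDegree f l).trans ?_
    rw [hf]
    have hl' : 1 ≤ l := Nat.one_le_iff_ne_zero.2 hl
    rcases Nat.eq_zero_or_pos k with hk | hk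
    · omega
    · obtain ⟨k', rfl⟩ : ∃ k', k = k' + 1 := ⟨k - 1, by omega⟩
      obtain ⟨l', rfl⟩ : ∃ l', l = l' + 1 := ⟨l - 1, by omega⟩
      have : k' + 1 - (l' + 1) = k' - l' := by omega
      rw [this]
      have h3 : k' + 1 - 1 = k' := by omega
      rw [h3]
      have : k' ≤ k' * (l' + 1) := Nat.le_mul_of_pos_right _ (by omega)
      omega

end general

section counting

variable {K : Type*} [Field K]

/-- counting zeros of high multiplicity -/
lemma card_mul_le {R : K[X]} (hR : R ≠ 0) (S : Finset K) (M : ℕ)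
    (h : ∀ x ∈ S, X ^ M ∣ R.comp (X + C x)) : S.card * M ≤ R.natDegree := by
  have h1 : ∏ x ∈ S, (X - C x) ^ M ∣ R := by
    refine Finset.prod_dvd_of_coprime (fun a _ b _ hab => ?_) fun a ha => ?_
    · exact (pairwise_coprime_X_sub_C (Function.injective_id) hab).pow
    · rw [X_sub_C_pow_dvd_iff]
      exact h a ha
  have h2 := natDegree_le_of_dvd h1 hR
  rw [natDegree_prod_of_monic _ _ (fun x _ => (monic_X_sub_C x).pow M)] at h2
  simpa [natDegree_pow] using h2

end counting

section linalg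

variable {K : Type*} [Field K]

lemma finrank_degreeLT (n : ℕ) : Module.finrank K (degreeLT K n) = n := by
  rw [LinearEquiv.finrank_eq (degreeLTEquiv K n)]
  simp

instance (n : ℕ) : Module.Finite K (degreeLT K n) :=
  Module.Finite.equiv (degreeLTEquiv K n).symm

/-- existence of the auxiliary coefficients -/
lemma exists_coeffs {ι : Type*} [Fintype ι] (A B M w D : ℕ) (W : ι → K[X][X])
    (hW : ∀ i, WD w D (W i)) (hB : w * M + A + D < B + 1) (hMB : M * B < Fintype.card ι * A) :
    ∃ a : ι → K[X], (∃ i, a i ≠ 0) ∧ (∀ i, (a i).natDegree < A ∨ a i = 0) ∧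
      ∀ l < M, (∑ i, tau (a i) * W i).coeff l = 0 := by
  classical
  let E : (ι → degreeLT K A) →ₗ[K] K[X][X] :=
    ∑ i, (LinearMap.mulRight K (W i)) ∘ₗ (tau : K[X] →ₐ[K] K[X][X]).toLinearMap ∘ₗ
      (degreeLT K A).subtype ∘ₗ LinearMap.proj i
  have hE : ∀ a, E a = ∑ i, tau (a i : K[X]) * W i := by
    intro a
    simp [E, LinearMap.sum_apply]
  have hA : 0 < A := by
    rcases Nat.eq_zero_or_pos A with h | h
    · subst h; simp at hMB
    · exact h
  have hdeg : ∀ (a : ι → degreeLT K A) (l : Fin M), (E a).coeff l ∈ degreeLT K B := by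
    intro a l
    have hWD : WD w ((A - 1) + D) (E a) := by
      rw [hE]
      refine WD.sum _ _ (fun i _ => ?_)
      refine WD.mul (WD_tau ?_) (hW i)
      have h2 := (a i).2
      rw [mem_degreeLT] at h2
      by_cases h0 : (a i : K[X]) = 0
      · rw [h0]; simp
      · rw [degree_eq_natDegree h0] at h2
        have h3 : (a i : K[X]).natDegree < A := by exact_mod_cast h2
        omega
    rw [mem_degreeLT]
    have h1 := hWD l
    have hl := l.2
    have h3 : w * (l : ℕ) ≤ w * M := Nat.mul_le_mul_left _ hl.le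
    refine lt_of_le_of_lt degree_le_natDegree ?_
    have : ((E a).coeff l).natDegree < B := by
      have hM : 0 < M := lt_of_le_of_lt (Nat.zero_le _) hl
      by_contra hcon
      push Not at hcon
      omega
    exact_mod_cast this
  let Φ : (ι → degreeLT K A) →ₗ[K] (Fin M → degreeLT K B) :=
    LinearMap.pi (fun l => LinearMap.codRestrict (degreeLT K B)
      (((lcoeff K[X] (l : ℕ)).restrictScalars K) ∘ₗ E) (fun a => hdeg a l))
  have hfin : Module.finrank K (Fin M → degreeLT K B) < Module.finrank K (ι → degreeLT K A) := by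
    rw [Module.finrank_pi_fintype, Module.finrank_pi_fintype]
    simp only [finrank_degreeLT, Finset.sum_const, Finset.card_univ, Fintype.card_fin, smul_eq_mul]
    exact hMB
  have hker := LinearMap.ker_ne_bot_of_finrank_lt (f := Φ) hfin
  obtain ⟨a, ha, ha0⟩ := (Submodule.ne_bot_iff _).1 hker
  refine ⟨fun i => (a i : K[X]), ?_, ?_, ?_⟩
  · by_contra hcon
    push Not at hcon
    apply ha0
    funext i
    exact Subtype.ext (hcon i)
  · intro i
    by_cases h0 : (a i : K[X]) = 0
    · exact Or.inr h0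
    · left
      have := (a i).2
      rw [mem_degreeLT, degree_eq_natDegree h0] at this
      exact_mod_cast this
  · intro l hl
    have h1 : Φ a = 0 := LinearMap.mem_ker.1 ha
    have h2 := congrArg (fun v => ((v ⟨l, hl⟩ : degreeLT K B) : K[X])) h1
    rw [← hE]
    exact h2

end linalg

section step

variable {K : Type*} [Field K] (p : ℕ) [hp : Fact p.Prime] [CharP K p]

/-- the trace polynomial `∑_{i<r} f^{p^i}` -/
noncomputable def tr (r : ℕ) (f : K[X]) : K[X] := ∑ i ∈ range r, f ^ (p ^ i)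

/-- the deviation `∑_{i<r} (f(X+T) - f(X))^{p^i}` -/
noncomputable def dev (r : ℕ) (f : K[X]) : K[X][X] := ∑ i ∈ range r, (tau f - C f) ^ (p ^ i)

lemma WD_dev {k : ℕ} (r : ℕ) (f : K[X]) (hf : f.natDegree = k) : WD (k - 1) 0 (dev p r f) :=
  WD.sum _ _ (fun i _ => (WD_diff f hf).pow (p ^ i))

lemma ev_dev (r : ℕ) (f : K[X]) (x : K) :
    (tr p r f).comp (X + C x) = C ((tr p r f).eval x) + ev x (dev p r f) := by
  have : CharP K[X] p := inferInstance
  unfold tr dev
  rw [map_sum]
  simp only [map_pow, map_sub, ev_tau, ev_C]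
  rw [eval_finsetSum, map_sum, ← Finset.sum_add_distrib, ← coe_compRingHom_apply, map_sum]
  refine Finset.sum_congr rfl (fun i _ => ?_)
  rw [sub_pow_char_pow, map_pow, coe_compRingHom_apply, eval_pow, map_pow]
  ring

lemma natDegree_tr {k : ℕ} (hk : 1 ≤ k) (r : ℕ) (hr : 1 ≤ r) (f : K[X]) (hf : f.natDegree = k) :
    (tr p r f).natDegree = k * p ^ (r - 1) := by
  have hp1 : 1 < p := hp.out.one_lt
  have hd : ∀ i, (f ^ (p ^ i)).natDegree = k * p ^ i := fun i => by
    rw [natDegree_pow, hf, mul_comm]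
  unfold tr
  rw [natDegree_sum_eq_of_disjoint]
  · simp only [hd]
    apply le_antisymm
    · refine Finset.sup_le (fun i hi => Nat.mul_le_mul_left _ (Nat.pow_le_pow_right hp1.le ?_))
      have := mem_range.1 hi
      omega
    · exact Finset.le_sup (f := fun i => k * p ^ i) (mem_range.2 (by omega : r - 1 < r))
  · intro i _ j _ hij
    simp only [Function.comp_apply, Function.onFun, hd]
    intro h
    exact hij (Nat.pow_right_injective hp1 (Nat.eq_of_mul_eq_mul_left hk h))

/-- the auxiliary polynomial is nonzero -/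
lemma R_ne_zero {k : ℕ} (hk : 1 ≤ k) (hkp : k < p) (A J : ℕ) (g : K[X])
    (hg : g.natDegree = k * A) (hA : 0 < A) (a : Fin p × Fin J → K[X]) (ha : ∃ i, a i ≠ 0)
    (hdeg : ∀ i, (a i).natDegree < A ∨ a i = 0) :
    (∑ i, a i * (g ^ (i.1 : ℕ) * (X ^ (p * A)) ^ (i.2 : ℕ))) ≠ 0 := by
  classical
  have hg0 : g ≠ 0 := by
    intro h
    rw [h, natDegree_zero] at hg
    have : 0 < k * A := Nat.mul_pos hk hA
    omega
  have hX : ∀ n : ℕ, (X : K[X]) ^ n ≠ 0 := fun n => pow_ne_zero _ X_ne_zero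
  have hnd : ∀ i : Fin p × Fin J, a i ≠ 0 →
      (a i * (g ^ (i.1 : ℕ) * (X ^ (p * A)) ^ (i.2 : ℕ))).natDegree =
        (a i).natDegree + A * (k * i.1 + p * i.2) := by
    intro i hi
    rw [natDegree_mul hi (mul_ne_zero (pow_ne_zero _ hg0) (pow_ne_zero _ (hX _))),
      natDegree_mul (pow_ne_zero _ hg0) (pow_ne_zero _ (hX _)), natDegree_pow, hg, natDegree_pow,
      natDegree_X_pow]
    ring
  intro h0
  have hdis : Set.Pairwise {i | i ∈ (Finset.univ : Finset (Fin p × Fin J)) ∧
      a i * (g ^ (i.1 : ℕ) * (X ^ (p * A)) ^ (i.2 : ℕ)) ≠ 0}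
      (Function.onFun Ne (degree ∘ fun i => a i * (g ^ (i.1 : ℕ) * (X ^ (p * A)) ^ (i.2 : ℕ)))) := by
    intro i hi j hj hij
    simp only [Function.onFun, Function.comp_apply]
    have hi' := hi.2
    have hj' := hj.2
    have hai : a i ≠ 0 := fun h => hi' (by rw [h, zero_mul])
    have haj : a j ≠ 0 := fun h => hj' (by rw [h, zero_mul])
    rw [degree_eq_natDegree hi', degree_eq_natDegree hj', hnd i hai, hnd j haj]
    intro heq
    have heq' : (a i).natDegree + A * (k * i.1 + p * i.2) =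
        (a j).natDegree + A * (k * j.1 + p * j.2) := by exact_mod_cast heq
    have h1 : (a i).natDegree < A := (hdeg i).resolve_right hai
    have h2 : (a j).natDegree < A := (hdeg j).resolve_right haj
    have h3 : k * (i.1 : ℕ) + p * (i.2 : ℕ) = k * (j.1 : ℕ) + p * (j.2 : ℕ) := by
      have e1 : ((a i).natDegree + A * (k * i.1 + p * i.2)) / A = k * i.1 + p * i.2 := by
        rw [Nat.add_mul_div_left _ _ hA, Nat.div_eq_of_lt h1, zero_add]
      have e2 : ((a j).natDegree + A * (k * j.1 + p * j.2)) / A = k * j.1 + p * j.2 := by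
        rw [Nat.add_mul_div_left _ _ hA, Nat.div_eq_of_lt h2, zero_add]
      rw [← e1, ← e2, heq']
    have hcop : Nat.Coprime p k := (Nat.Prime.coprime_iff_not_dvd hp.out).2
      (fun h => absurd (Nat.le_of_dvd hk h) (not_le.2 hkp))
    have h4 : k * (i.1 : ℕ) ≡ k * (j.1 : ℕ) [MOD p] := by
      have : k * (i.1 : ℕ) + p * (i.2 : ℕ) ≡ k * (j.1 : ℕ) + p * (j.2 : ℕ) [MOD p] := by rw [h3]
      have e1 : k * (i.1 : ℕ) + p * (i.2 : ℕ) ≡ k * (i.1 : ℕ) [MOD p] := by
        simp [Nat.ModEq]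
      have e2 : k * (j.1 : ℕ) + p * (j.2 : ℕ) ≡ k * (j.1 : ℕ) [MOD p] := by
        simp [Nat.ModEq]
      exact e1.symm.trans (this.trans e2)
    have h5 : (i.1 : ℕ) ≡ (j.1 : ℕ) [MOD p] := Nat.ModEq.cancel_left_of_coprime hcop h4
    have h6 : (i.1 : ℕ) = (j.1 : ℕ) := Nat.ModEq.eq_of_lt_of_lt h5 i.1.2 j.1.2
    have h7 : (i.2 : ℕ) = (j.2 : ℕ) := by
      rw [h6] at h3
      exact Nat.eq_of_mul_eq_mul_left hp.out.pos (by omega)
    exact hij (Prod.ext (Fin.ext h6) (Fin.ext h7))
  have hsum := degree_sum_eq_of_disjoint _ _ hdis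
  rw [h0, degree_zero] at hsum
  obtain ⟨i, hi⟩ := ha
  have hle := Finset.le_sup (f := fun i => degree (a i * (g ^ (i.1 : ℕ) *
    (X ^ (p * A)) ^ (i.2 : ℕ)))) (Finset.mem_univ i)
  rw [← hsum] at hle
  have := le_bot_iff.1 hle
  rw [degree_eq_bot] at this
  exact (mul_ne_zero hi (mul_ne_zero (pow_ne_zero _ hg0) (pow_ne_zero _ (hX _)))) this

/-- degree of the auxiliary polynomial -/
lemma R_natDegree {k : ℕ} (A J : ℕ) (g : K[X]) (hA : 0 < A)
    (hg : g.natDegree = k * A) (a : Fin p × Fin J → K[X])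
    (hdeg : ∀ i, (a i).natDegree < A ∨ a i = 0) :
    (∑ i, a i * (g ^ (i.1 : ℕ) * (X ^ (p * A)) ^ (i.2 : ℕ))).natDegree ≤ (p * A) * (k + J) := by
  refine natDegree_sum_le_of_forall_le _ _ (fun i _ => ?_)
  rcases hdeg i with h | h
  · refine natDegree_mul_le.trans ?_
    have h1 : (g ^ (i.1 : ℕ) * (X ^ (p * A)) ^ (i.2 : ℕ)).natDegree ≤
        (i.1 : ℕ) * (k * A) + (i.2 : ℕ) * (p * A) := by
      refine natDegree_mul_le.trans (add_le_add ?_ ?_)
      · refine natDegree_pow_le.trans ?_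
        rw [hg]
      · refine natDegree_pow_le.trans ?_
        rw [natDegree_X_pow]
    have h2 : (i.1 : ℕ) * (k * A) ≤ p * (k * A) := Nat.mul_le_mul_right _ i.1.2.le
    have h3 : ((i.2 : ℕ) + 1) * (p * A) ≤ J * (p * A) := Nat.mul_le_mul_right _ i.2.2
    have h4 : A ≤ p * A := Nat.le_mul_of_pos_left _ hp.out.pos
    nlinarith
  · rw [h, zero_mul, natDegree_zero]
    exact Nat.zero_le _

/-- Stepanov's method: the main counting inequality -/
lemma main_count [Finite K] {k : ℕ} (hk : 1 ≤ k) (hkp : k < p) (r : ℕ) (hr : 1 ≤ r)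
    (hq : Nat.card K = p ^ r) (f : K[X]) (hf : f.natDegree = k) (c : K) (M J : ℕ) (hM : M ≤ p ^ r)
    (hMB : M * ((k - 1) * M + p ^ (r - 1) + J) < p ^ r * J)
    (S : Finset K) (hS : ∀ x ∈ S, (tr p r f).eval x = c) :
    S.card * M ≤ p ^ r * (k + J) := by
  classical
  set A := p ^ (r - 1) with hAdef
  have hA : 0 < A := pow_pos hp.out.pos _
  have hpA : p * A = p ^ r := by
    rw [hAdef, ← pow_succ']
    congr 1
    omega
  let W : Fin p × Fin J → K[X][X] := fun i =>
    (C (C c) + dev p r f) ^ (i.1 : ℕ) * C (X ^ (i.2 : ℕ))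
  have hJ : 0 < J := by
    rcases Nat.eq_zero_or_pos J with h | h
    · subst h; simp at hMB
    · exact h
  have hW : ∀ i, WD (k - 1) (J - 1) (W i) := by
    intro i
    have h1 : WD (k - 1) 0 ((C (C c) + dev p r f) ^ (i.1 : ℕ)) :=
      ((WD.C_C _ c).add (WD_dev p r f hf)).pow _
    have h2 : WD (k - 1) (i.2 : ℕ) (C (X ^ (i.2 : ℕ)) : K[X][X]) := WD.C_X_pow _ _
    have h3 := h1.mul h2
    exact h3.mono (by have := i.2.2; omega)
  obtain ⟨a, ha0, hadeg, hac⟩ := exists_coeffs A ((k - 1) * M + A + J) M (k - 1) (J - 1) W hW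
    (by omega) (by
      rw [Fintype.card_prod, Fintype.card_fin, Fintype.card_fin]
      calc M * ((k - 1) * M + A + J) < p ^ r * J := hMB
        _ = p * J * A := by rw [← hpA]; ring)
  have hgd := natDegree_tr p hk r hr f hf
  rw [← hAdef] at hgd
  have hRne := R_ne_zero p hk hkp A J (tr p r f) hgd hA a ha0 hadeg
  have hRdeg := R_natDegree p A J (tr p r f) hA hgd a hadeg
  rw [hpA] at hRne hRdeg
  refine (card_mul_le hRne S M (fun x hx => ?_)).trans hRdeg
  -- expansion at a point of `S`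
  have hgx : (tr p r f).comp (X + C x) = ev x (C (C c) + dev p r f) := by
    rw [ev_dev, hS x hx, map_add, ev_C, eval_C]
  have hXq : (X + C x : K[X]) ^ (p ^ r) = X ^ (p ^ r) + C x := by
    rw [add_pow_char_pow, ← C_pow]
    congr 2
    have := Fintype.ofFinite K
    have h1 := FiniteField.pow_card x
    rwa [← Nat.card_eq_fintype_card, hq] at h1
  have hdecomp : (∑ i, a i * ((tr p r f) ^ (i.1 : ℕ) * (X ^ (p ^ r)) ^ (i.2 : ℕ))).comp (X + C x)
      = ev x (∑ i, tau (a i) * W i) + ∑ i, (a i).comp (X + C x) *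
        ((ev x (C (C c) + dev p r f)) ^ (i.1 : ℕ) *
          ((X ^ (p ^ r) + C x) ^ (i.2 : ℕ) - (C x) ^ (i.2 : ℕ))) := by
    rw [map_sum, ← Finset.sum_add_distrib, ← coe_compRingHom_apply, map_sum]
    refine Finset.sum_congr rfl (fun i _ => ?_)
    simp only [W, map_mul, map_pow, coe_compRingHom_apply]
    rw [hgx, ev_tau, ev_C, eval_X, X_comp, hXq]
    ring
  rw [hdecomp]
  refine dvd_add ?_ (Finset.dvd_sum (fun i _ => ?_))
  · rw [X_pow_dvd_iff]
    intro d hd
    rw [ev_coeff, hac d hd, eval_zero]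
  · refine Dvd.dvd.mul_left (Dvd.dvd.mul_left ?_ _) _
    have h1 : (X : K[X]) ^ (p ^ r) ∣ (X ^ (p ^ r) + C x) ^ (i.2 : ℕ) - (C x) ^ (i.2 : ℕ) := by
      have := sub_dvd_pow_sub_pow (X ^ (p ^ r) + C x : K[X]) (C x) (i.2 : ℕ)
      simpa using this
    exact (pow_dvd_pow _ hM).trans h1

end step

end StepAux

theorem stepanov (p : ℕ) [Fact p.Prime] (k : ℕ) (hk : 1 ≤ k) (hkp : k < p) :
    ∃ C : ℝ, ∀ r : ℕ, 1 ≤ r → ∀ f : (GaloisField p r)[X], f.natDegree = k → ∀ c : ZMod p,
      (Nat.card {x : GaloisField p r // Algebra.trace (ZMod p) (GaloisField p r) (f.eval x) = c}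
        : ℝ) ≤ (p : ℝ) ^ r / p + C * Real.sqrt ((p : ℝ) ^ r) := by
  classical
  have hp : Fact p.Prime := inferInstance
  refine ⟨4 * k + 4, fun r hr f hf c => ?_⟩
  have hr0 : r ≠ 0 := by omega
  have hfin : Finite (GaloisField p r) := inferInstance
  have := Fintype.ofFinite (GaloisField p r)
  have hcard : Nat.card (GaloisField p r) = p ^ r := GaloisField.card p r hr0
  set S : Finset (GaloisField p r) := Finset.univ.filter
    (fun x => Algebra.trace (ZMod p) (GaloisField p r) (f.eval x) = c) with hS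
  have hN : Nat.card {x : GaloisField p r //
      Algebra.trace (ZMod p) (GaloisField p r) (f.eval x) = c} = S.card := by
    rw [Nat.card_eq_fintype_card, Fintype.card_subtype]
  rw [hN]
  have hSeval : ∀ x ∈ S, (StepAux.tr p r f).eval x = algebraMap (ZMod p) (GaloisField p r) c := by
    intro x hx
    have hx' : Algebra.trace (ZMod p) (GaloisField p r) (f.eval x) = c := (mem_filter.1 hx).2
    rw [← hx', FiniteField.algebraMap_trace_eq_sum_pow, GaloisField.finrank p hr0]
    unfold StepAux.tr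
    rw [eval_finsetSum]
    refine Finset.sum_congr rfl (fun i _ => ?_)
    rw [eval_pow, Nat.card_zmod]
  have hScard : S.card ≤ p ^ r := by
    have := Finset.card_le_univ S
    rwa [← Nat.card_eq_fintype_card, hcard] at this
  -- real parameters
  set q : ℝ := (p : ℝ) ^ r with hq
  have hp1 : (1 : ℝ) ≤ p := by exact_mod_cast hp.out.one_lt.le
  have hq1 : 1 ≤ q := one_le_pow₀ hp1
  set s := Real.sqrt q with hs
  have hs1 : 1 ≤ s := Real.one_le_sqrt.2 hq1
  have hss : s * s = q := Real.mul_self_sqrt (by linarith)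
  have hk1 : (1 : ℝ) ≤ k := by exact_mod_cast hk
  have hqp : 0 ≤ q / p := by positivity
  have hScard' : (S.card : ℝ) ≤ q := by
    have : ((S.card : ℕ) : ℝ) ≤ ((p ^ r : ℕ) : ℝ) := by exact_mod_cast hScard
    simpa [hq] using this
  by_cases hsmall : s ≤ k + 2
  · calc (S.card : ℝ) ≤ q := hScard'
      _ = s * s := hss.symm
      _ ≤ (k + 2) * s := mul_le_mul_of_nonneg_right hsmall (by linarith)
      _ ≤ (4 * k + 4) * s := mul_le_mul_of_nonneg_right (by linarith) (by linarith)
      _ ≤ _ := by linarith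
  · push Not at hsmall
    set M : ℕ := Nat.sqrt (p ^ r) with hM
    set J : ℕ := M / p + k + 2 with hJ
    have hMM : M * M ≤ p ^ r := Nat.sqrt_le _
    have hMM' : p ^ r < (M + 1) * (M + 1) := Nat.lt_succ_sqrt _
    set A : ℕ := p ^ (r - 1) with hAdef
    have hpA : p * A = p ^ r := by
      rw [hAdef, ← pow_succ']
      congr 1
      omega
    have hkM : k + 2 ≤ M := by
      rw [hM, Nat.le_sqrt]
      have h1 : ((k : ℝ) + 2) * (k + 2) ≤ q := by
        rw [← hss]
        have : (0 : ℝ) ≤ k + 2 := by positivity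
        nlinarith
      have h2 : (((k + 2) * (k + 2) : ℕ) : ℝ) ≤ ((p ^ r : ℕ) : ℝ) := by
        push_cast
        rw [hq] at h1
        exact h1
      exact_mod_cast h2
    have hp2 : 2 ≤ p := hp.out.two_le
    have hm1 : M < p * (M / p + 1) := by
      have := Nat.lt_mul_div_succ M (show 0 < p by omega)
      exact this
    have hm2 : p * (M / p) ≤ M := Nat.mul_div_le M p
    have hMle : M ≤ p ^ r := Nat.sqrt_le_self _
    have hMJ : M * J ≤ 2 * p ^ r := by
      have h1 : 2 * (M / p) ≤ M := (Nat.mul_le_mul_right _ hp2).trans hm2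
      have h2 : M * (2 * (M / p)) ≤ M * M := Nat.mul_le_mul_left _ h1
      have h3 : M * (k + 2) ≤ M * M := Nat.mul_le_mul_left _ hkM
      have h4 : M * J = M * (M / p) + M * (k + 2) := by rw [hJ]; ring
      have h5 : M * (2 * (M / p)) = 2 * (M * (M / p)) := by ring
      omega
    have hA0 : 0 < A := pow_pos hp.out.pos _
    have hMB : M * ((k - 1) * M + A + J) < p ^ r * J := by
      have e1 : M * ((k - 1) * M + A + J) = (k - 1) * (M * M) + A * M + M * J := by ring
      have e2 : (k - 1) * (M * M) ≤ (k - 1) * p ^ r := Nat.mul_le_mul_left _ hMM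
      have e3 : A * M < A * (p * (M / p + 1)) := Nat.mul_lt_mul_of_pos_left hm1 hA0
      have e4 : A * (p * (M / p + 1)) = p ^ r * (M / p) + p ^ r := by rw [← hpA]; ring
      have e5 : p ^ r * J = p ^ r * (M / p) + (k - 1) * p ^ r + 3 * p ^ r := by
        rw [hJ]
        obtain ⟨k', rfl⟩ : ∃ k', k = k' + 1 := ⟨k - 1, by omega⟩
        rw [Nat.add_sub_cancel]
        ring
      omega
    have hmain := StepAux.main_count p hk hkp r hr hcard f hf
      (algebraMap (ZMod p) (GaloisField p r) c) M J hMle hMB S hSeval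
    have hM0 : 0 < M := by omega
    have hM1 : (1 : ℝ) ≤ M := by exact_mod_cast hM0
    have hsM : s ≤ 2 * M := by
      have h1 : s < M + 1 := by
        rw [hs, Real.sqrt_lt' (by positivity)]
        have : ((p ^ r : ℕ) : ℝ) < (((M + 1) * (M + 1) : ℕ) : ℝ) := by exact_mod_cast hMM'
        push_cast at this
        rw [hq, sq]
        exact this
      linarith
    have hmain' : (S.card : ℝ) * M ≤ q * (k + J) := by
      have : ((S.card * M : ℕ) : ℝ) ≤ ((p ^ r * (k + J) : ℕ) : ℝ) := by exact_mod_cast hmain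
      push_cast at this
      exact this
    have hJr : (J : ℝ) ≤ M / p + k + 2 := by
      have h1 : ((M / p : ℕ) : ℝ) ≤ (M : ℝ) / p := Nat.cast_div_le
      rw [hJ]
      push_cast
      linarith
    have hM0' : (0 : ℝ) < M := by linarith
    have h1 : (S.card : ℝ) ≤ q * (k + J) / M := by
      rw [le_div_iff₀ hM0']; exact hmain'
    have h2 : q * (k + J) / M ≤ q * (M / p + 2 * k + 2) / M := by
      apply div_le_div_of_nonneg_right _ hM0'.le
      apply mul_le_mul_of_nonneg_left _ (by linarith)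
      linarith
    have h3 : q * (M / p + 2 * k + 2) / M = q / p + (2 * k + 2) * (q / M) := by
      have hp0 : (p : ℝ) ≠ 0 := by positivity
      field_simp
      ring
    have h4 : q / M ≤ 2 * s := by
      rw [div_le_iff₀ hM0', ← hss]
      nlinarith
    have h5 : (2 * (k : ℝ) + 2) * (q / M) ≤ (2 * k + 2) * (2 * s) :=
      mul_le_mul_of_nonneg_left h4 (by positivity)
    calc (S.card : ℝ) ≤ q / p + (2 * k + 2) * (q / M) := by rw [← h3]; exact h1.trans h2
      _ ≤ q / p + (4 * k + 4) * s := by linarith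

end Vale.Agent.P042
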