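import Vale.Agent.P042.Defs
import Vale.Agent.P042.Stepanov
import Vale.Agent.P042.LFun
import Vale.Agent.P042.PowerSum

/-!
P042, module W6: Weil's bound for complete exponential sums modulo a prime.
-/

namespace Vale.Agent.P042

open Finset Polynomial

namespace WeilAux

/-- an upper bound for all fibres gives an upper bound for the character sum -/
lemma char_sum_le (p : ℕ) [hp : Fact p.Prime] {X : Type*} [Fintype X] (T : X → ZMod p)
    (ψ : AddChar (ZMod p) ℂ) (hψ : ψ ≠ 1) (E : ℝ) (hE : 0 ≤ E)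
    (h : ∀ c : ZMod p, (((Finset.univ.filter (fun x => T x = c)).card : ℕ) : ℝ) ≤
      (Fintype.card X : ℝ) / p + E) :
    ‖∑ x, ψ (T x)‖ ≤ 2 * p * E := by
  classical
  have hp0 : (0 : ℝ) < p := by exact_mod_cast hp.out.pos
  set N : ZMod p → ℝ := fun c => (((Finset.univ.filter (fun x => T x = c)).card : ℕ) : ℝ) with hN
  have hsum : ∑ c, N c = Fintype.card X := by
    rw [hN]
    have := Finset.card_eq_sum_card_fiberwise (f := T) (s := Finset.univ) (t := Finset.univ)
      (fun x _ => Finset.mem_coe.2 (Finset.mem_univ _))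
    rw [Finset.card_univ] at this
    rw [this]
    push_cast
    rfl
  have hψsum : ∑ c, ψ c = 0 := AddChar.sum_eq_zero_of_ne_one hψ
  have h1 : ∑ x, ψ (T x) = ∑ c, (N c : ℂ) * ψ c := by
    rw [← Finset.sum_fiberwise (s := Finset.univ) (g := T)]
    refine Finset.sum_congr rfl (fun c _ => ?_)
    rw [Finset.sum_congr rfl (g := fun _ => ψ c) (fun x hx => by rw [(Finset.mem_filter.1 hx).2])]
    rw [Finset.sum_const, nsmul_eq_mul]
    simp [hN]
  have h2 : ∑ x, ψ (T x) = ∑ c, (((N c - (Fintype.card X : ℝ) / p : ℝ)) : ℂ) * ψ c := by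
    rw [h1]
    have : ∑ c, (((N c - (Fintype.card X : ℝ) / p : ℝ)) : ℂ) * ψ c =
        ∑ c, (N c : ℂ) * ψ c - (((Fintype.card X : ℝ) / p : ℝ) : ℂ) * ∑ c, ψ c := by
      rw [Finset.mul_sum, ← Finset.sum_sub_distrib]
      refine Finset.sum_congr rfl (fun c _ => ?_)
      push_cast
      ring
    rw [this, hψsum, mul_zero, sub_zero]
  have hnorm : ∀ c, ‖ψ c‖ = 1 := fun c => AddChar.norm_apply ψ c
  have hcard : (Finset.univ : Finset (ZMod p)).card = p := by
    rw [Finset.card_univ, ZMod.card]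
  have h3 : ∑ c, (N c - (Fintype.card X : ℝ) / p) = 0 := by
    rw [Finset.sum_sub_distrib, hsum, Finset.sum_const, hcard, nsmul_eq_mul]
    field_simp
    ring
  have habs : ∀ c, |N c - (Fintype.card X : ℝ) / p| ≤
      2 * E - (N c - (Fintype.card X : ℝ) / p) := by
    intro c
    have := h c
    rw [abs_le]
    constructor <;> [linarith; (have h4 : N c ≤ (Fintype.card X : ℝ) / p + E := h c; linarith)]
  calc ‖∑ x, ψ (T x)‖ = ‖∑ c, (((N c - (Fintype.card X : ℝ) / p : ℝ)) : ℂ) * ψ c‖ := by rw [h2]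
    _ ≤ ∑ c, ‖(((N c - (Fintype.card X : ℝ) / p : ℝ)) : ℂ) * ψ c‖ := norm_sum_le _ _
    _ = ∑ c, |N c - (Fintype.card X : ℝ) / p| := by
        refine Finset.sum_congr rfl (fun c _ => ?_)
        rw [norm_mul, hnorm, mul_one, Complex.norm_real, Real.norm_eq_abs]
    _ ≤ ∑ c, (2 * E - (N c - (Fintype.card X : ℝ) / p)) :=
        Finset.sum_le_sum (fun c _ => habs c)
    _ = 2 * p * E := by
        rw [Finset.sum_sub_distrib, h3, Finset.sum_const, hcard, nsmul_eq_mul]
        ring

/-- Weil's bound over `ZMod p` -/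
lemma weil (p : ℕ) [hp : Fact p.Prime] (f : (ZMod p)[X]) (k : ℕ) (hf : f.natDegree = k)
    (hk : 1 ≤ k) (hkp : k < p) (ψ : AddChar (ZMod p) ℂ) (hψ : ψ ≠ 1) :
    ‖∑ x : ZMod p, ψ (f.eval x)‖ ≤ k * Real.sqrt p := by
  classical
  obtain ⟨ω, hω⟩ := lfun_roots p f k hf hk hkp ψ hψ
  obtain ⟨C, hC⟩ := stepanov p k hk hkp
  have hp0 : (0 : ℝ) < p := by exact_mod_cast hp.out.pos
  have hsq : 0 < Real.sqrt p := Real.sqrt_pos.2 hp0
  have hbound : ∀ r : ℕ, 1 ≤ r → ‖∑ i, (ω i) ^ r‖ ≤ (2 * p * |C|) * (Real.sqrt p) ^ r := by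
    intro r hr
    have hr0 : r ≠ 0 := by omega
    have := Fintype.ofFinite (GaloisField p r)
    have hcard : Fintype.card (GaloisField p r) = p ^ r := by
      rw [← Nat.card_eq_fintype_card]; exact GaloisField.card p r hr0
    have h1 := hω r hr
    rw [finsum_eq_sum_of_fintype] at h1
    have h2 : ‖∑ i, (ω i) ^ r‖ = ‖∑ x : GaloisField p r, ψ (Algebra.trace (ZMod p)
        (GaloisField p r) ((f.map (algebraMap (ZMod p) (GaloisField p r))).eval x))‖ := by
      rw [h1, norm_neg]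
    rw [h2]
    have hdeg : (f.map (algebraMap (ZMod p) (GaloisField p r))).natDegree = k := by
      rw [natDegree_map, hf]
    have hsr : Real.sqrt ((p : ℝ) ^ r) = (Real.sqrt p) ^ r := by
      rw [Real.sqrt_eq_iff_mul_self_eq (by positivity) (by positivity), ← mul_pow,
        Real.mul_self_sqrt hp0.le]
    have h3 := char_sum_le p (fun x : GaloisField p r => Algebra.trace (ZMod p)
        (GaloisField p r) ((f.map (algebraMap (ZMod p) (GaloisField p r))).eval x)) ψ hψ
        (|C| * (Real.sqrt p) ^ r) (by positivity) (fun c => by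
          have h4 := hC r hr _ hdeg c
          rw [Nat.card_eq_fintype_card, Fintype.card_subtype, hsr] at h4
          refine h4.trans ?_
          rw [hcard]
          push_cast
          have : C * (Real.sqrt p) ^ r ≤ |C| * (Real.sqrt p) ^ r :=
            mul_le_mul_of_nonneg_right (le_abs_self C) (by positivity)
          linarith)
    refine h3.trans (le_of_eq ?_)
    ring
  have hω1 : ∀ i, ‖ω i‖ ≤ Real.sqrt p := powersum_bound _ ω _ _ hsq hbound
  have h1 := hω 1 le_rfl
  have hbij : Function.Bijective (algebraMap (ZMod p) (GaloisField p 1)) := by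
    have := Fintype.ofFinite (GaloisField p 1)
    rw [Fintype.bijective_iff_injective_and_card]
    refine ⟨(algebraMap (ZMod p) (GaloisField p 1)).injective, ?_⟩
    rw [ZMod.card, ← Nat.card_eq_fintype_card, GaloisField.card p 1 one_ne_zero, pow_one]
  have h2 : ∑ᶠ x : GaloisField p 1, ψ (Algebra.trace (ZMod p) (GaloisField p 1)
        ((f.map (algebraMap (ZMod p) (GaloisField p 1))).eval x)) =
      ∑ x : ZMod p, ψ (f.eval x) := by
    rw [← finsum_eq_sum_of_fintype]
    symm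
    refine finsum_eq_of_bijective _ hbij (fun x => ?_)
    rw [eval_map_algebraMap, aeval_algebraMap_apply, Algebra.trace_algebraMap,
      GaloisField.finrank p one_ne_zero, one_smul]
    simp
  rw [← h2, h1, norm_neg]
  calc ‖∑ i, (ω i) ^ 1‖ ≤ ∑ i, ‖(ω i) ^ 1‖ := norm_sum_le _ _
    _ ≤ ∑ _i : Fin (k - 1), Real.sqrt p := Finset.sum_le_sum (fun i _ => by
        rw [pow_one]; exact hω1 i)
    _ = ((k - 1 : ℕ) : ℝ) * Real.sqrt p := by
        rw [Finset.sum_const, Finset.card_univ, Fintype.card_fin, nsmul_eq_mul]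
    _ ≤ k * Real.sqrt p := by
        refine mul_le_mul_of_nonneg_right ?_ hsq.le
        exact_mod_cast Nat.sub_le _ _

end WeilAux

open WeilAux in
/-- W6 (file Weil.lean) = W3 + W4 + W5 (+ reduction of `P` mod `p`) -/
theorem localDecay_weil (k : ℕ) (hk : 1 ≤ k) : LocalDecay k (1 / 2) := by
  classical
  refine ⟨k, by exact_mod_cast hk, fun P hP p hpp hkp hco a ha => ?_⟩
  have hp : Fact p.Prime := ⟨hpp⟩
  have hp0 : (0 : ℝ) < p := by exact_mod_cast hpp.pos
  set f : (ZMod p)[X] := P.map (Int.castRingHom (ZMod p)) with hf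
  obtain ⟨j, hj1, hj⟩ := hco
  have hfj : f.coeff j ≠ 0 := by
    rw [hf, coeff_map]
    intro h
    apply hj
    exact (ZMod.intCast_zmod_eq_zero_iff_dvd _ _).1 (by simpa using h)
  have hd1 : 1 ≤ f.natDegree := hj1.trans (le_natDegree_of_ne_zero hfj)
  have hdk : f.natDegree ≤ k := by rw [hf, ← hP]; exact natDegree_map_le
  have ha0 : (a : ZMod p) ≠ 0 := fun h => ha ((ZMod.intCast_zmod_eq_zero_iff_dvd _ _).1 h)
  set ψ : AddChar (ZMod p) ℂ := AddChar.mulShift ZMod.stdAddChar (a : ZMod p) with hψdef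
  have hψ : ψ ≠ 1 := ZMod.isPrimitive_stdAddChar p ha0
  have hweil := weil p f f.natDegree rfl hd1 (lt_of_le_of_lt hdk hkp) ψ hψ
  have hsum : ∑ r ∈ Finset.range p, ee ((a : ℝ) * ((P.eval (r : ℤ) : ℤ) : ℝ) / p) =
      ∑ x : ZMod p, ψ (f.eval x) := by
    have hterm : ∀ r : ℕ, ee ((a : ℝ) * ((P.eval (r : ℤ) : ℤ) : ℝ) / p) =
        ψ (f.eval (r : ZMod p)) := by
      intro r
      have e1 : f.eval (r : ZMod p) = ((P.eval (r : ℤ) : ℤ) : ZMod p) := by
        rw [hf, eval_map, ← Int.cast_natCast (R := ZMod p) r]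
        rw [← eq_intCast (Int.castRingHom (ZMod p)) (r : ℤ), eval₂_at_apply]
        rfl
      have e2 : (a : ZMod p) * ((P.eval (r : ℤ) : ℤ) : ZMod p) =
          ((a * P.eval (r : ℤ) : ℤ) : ZMod p) := by push_cast; ring
      rw [e1, hψdef, AddChar.mulShift_apply, e2, ZMod.stdAddChar_coe, ee]
      congr 1
      push_cast
      ring
    rw [Finset.sum_congr rfl (fun r _ => hterm r)]
    rw [Finset.sum_range]
    obtain ⟨n, rfl⟩ : ∃ n, p = n + 1 := ⟨p - 1, by have := hpp.pos; omega⟩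
    refine Finset.sum_congr rfl (fun i _ => ?_)
    congr 2
    exact Fin.cast_val_eq_self i
  have hg : ‖gs P a p‖ ≤ (k * Real.sqrt p) / p := by
    unfold gs
    rw [hsum, norm_div, Complex.norm_natCast]
    refine div_le_div_of_nonneg_right (hweil.trans ?_) hp0.le
    exact mul_le_mul_of_nonneg_right (by exact_mod_cast hdk) (Real.sqrt_nonneg _)
  refine hg.trans (le_of_eq ?_)
  rw [Real.rpow_neg hp0.le, ← Real.sqrt_eq_rpow, mul_div_assoc]
  congr 1
  rw [div_eq_iff hp0.ne', ← div_eq_inv_mul, eq_div_iff (Real.sqrt_pos.2 hp0).ne',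
    Real.mul_self_sqrt hp0.le]

end Vale.Agent.P042
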