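import Vale.Agent.P042.AuxPoly
import Vale.Agent.P042.Weil
import Vale.Agent.P042.MainStep
import Vale.Agent.P042.MainIter

namespace Vale.Agent.P042

open Finset Polynomial

theorem main_bound (h : ℤ[X]) (hint : Intersective h) (hdeg : 2 ≤ h.natDegree)
    (hlc : 0 < h.leadingCoeff) (κ : ℝ) (hκ : 0 < κ) (hκ2 : κ ≤ 1 / 2)
    (hloc : LocalDecay h.natDegree κ) :
    ∃ c C : ℝ, 0 < c ∧ 0 < C ∧ ∀ N : ℕ, 1 ≤ N →
      (rh h N : ℝ) ≤ C * N * Real.exp (-c * (Real.log N) ^ κ) := by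
  obtain ⟨H, lam, Ch, hCh, hH1, hlam, hrec, hH⟩ := exists_aux h hint hdeg hlc
  obtain ⟨C3, C4, hC3, hC4, hnr⟩ :=
    MainAux.not_regular h.natDegree hdeg κ hκ hκ2 Ch hCh hloc
  have hstep := MainAux.step_of_not_regular h.natDegree (by omega) κ H lam hlam hrec C3 C4
    (fun u N V A α ell hu hA hcard hα hα1 hav hell hV1 hV2 hN => by
      obtain ⟨h1, h2, h3, h4, h5, h6⟩ := hH u hu
      exact hnr (H u) u N V A α ell hu h1 h2 h3 h4 h5 h6 hA hcard hα hα1 hav hell hV1 hV2 hN)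
  obtain ⟨C5, hC5, hsize⟩ := MainAux.size_bound H κ hκ hκ2 C3 hC3 _ hstep
  rw [hH1] at hsize
  exact MainAux.rh_bound h κ hκ C5 hC5 hsize

/-- Green-Sawhney strength for all intersective polynomials. -/
theorem intersective_bound (h : ℤ[X]) (hint : Intersective h) (hdeg : 2 ≤ h.natDegree)
    (hlc : 0 < h.leadingCoeff) :
    ∃ c C : ℝ, 0 < c ∧ 0 < C ∧ ∀ N : ℕ, 1 ≤ N →
      (rh h N : ℝ) ≤ C * N * Real.exp (-c * Real.sqrt (Real.log N)) := by
  obtain ⟨c, C, hc, hC, h1⟩ := main_bound h hint hdeg hlc (1 / 2) (by norm_num) le_rfl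
    (localDecay_weil h.natDegree (by omega))
  refine ⟨c, C, hc, hC, fun N hN => ?_⟩
  rw [Real.sqrt_eq_rpow]
  exact h1 N hN

end Vale.Agent.P042
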