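import Vale.Agent.P042.MainIter

namespace Vale.Agent.P042
namespace MainAux

open Finset Polynomial

/-- The conclusion of the density increment step, for the family `H` -/
def StepPropU (H : ℕ → ℤ[X]) (κ : ℝ) (C3 : ℝ) (C4 : ℕ) (ell0 : ℝ) : Prop :=
  ∀ (u N V : ℕ) (A : Finset ℤ) (α ell : ℝ), 1 ≤ u → ell0 ≤ ell →
    A ⊆ Finset.Icc 1 (N : ℤ) → (A.card : ℝ) = α * N → 0 < α → α ≤ 1 → Avoids (H u) A →
    Real.log (2 / α) ≤ ell → Real.exp (C3 * ell ^ ((1 - κ) / κ)) ≤ V → Real.exp ell ≤ V →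
    ((u : ℝ) * V) ^ C4 * Real.exp (C4 * ell ^ 2) ≤ N →
    ∃ (v N' : ℕ) (A' : Finset ℤ) (α' : ℝ), 1 ≤ v ∧ v ≤ V ∧ (N : ℝ) ≤ N' * (V : ℝ) ^ C4 ∧
      A' ⊆ Finset.Icc 1 (N' : ℤ) ∧ (A'.card : ℝ) = α' * N' ∧ (1 + 1 / 1000) * α ≤ α' ∧ α' ≤ 1 ∧
      Avoids (H (u * v)) A'

lemma step_of_not_regularU (ell0 : ℝ) (k : ℕ) (hk : 1 ≤ k) (κ : ℝ) (H : ℕ → ℤ[X]) (lam : ℕ → ℕ)
    (hlam : ∀ v : ℕ, 1 ≤ v → v ∣ lam v ∧ 1 ≤ lam v ∧ lam v ≤ v ^ k)
    (hrec : ∀ u v : ℕ, 1 ≤ u → 1 ≤ v → ∃ r : ℤ, -(v : ℤ) < r ∧ r ≤ 0 ∧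
        ∀ x : ℤ, (H u).eval (r + v * x) = lam v * (H (u * v)).eval x)
    (C3 : ℝ) (C4 : ℕ)
    (hreg : ∀ (u N V : ℕ) (A : Finset ℤ) (α ell : ℝ), 1 ≤ u → ell0 ≤ ell →
      A ⊆ Finset.Icc 1 (N : ℤ) → (A.card : ℝ) = α * N → 0 < α → α ≤ 1 → Avoids (H u) A →
      Real.log (2 / α) ≤ ell → Real.exp (C3 * ell ^ ((1 - κ) / κ)) ≤ V → Real.exp ell ≤ V →
      ((u : ℝ) * V) ^ C4 * Real.exp (C4 * ell ^ 2) ≤ N →
      ∃ L : ℕ, (V : ℝ) ^ k ≤ L ∧ (N : ℝ) ≤ L * (V : ℝ) ^ C4 ∧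
        ¬ Regular A V L ((1 + 1 / 1000) * α)) :
    StepPropU H κ C3 (C4 + k + 1) ell0 := by
  intro u N V A α ell hu hell0 hA hcard hα hα1 hav hell hV1 hV2 hN
  have hl2 : (2 : ℝ) ≤ V := by
    refine le_trans ?_ ((Real.exp_le_exp.2 hell).trans hV2)
    rw [Real.exp_log (by positivity), le_div_iff₀ hα]; linarith
  have hV1' : (1 : ℝ) ≤ V := by linarith
  have huR : (1 : ℝ) ≤ u := by exact_mod_cast hu
  have huV : (1 : ℝ) ≤ (u : ℝ) * V := one_le_mul_of_one_le_of_one_le huR hV1'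
  have hN' : ((u : ℝ) * V) ^ C4 * Real.exp (C4 * ell ^ 2) ≤ N := by
    refine le_trans ?_ hN
    have h1 : ((u : ℝ) * V) ^ C4 ≤ ((u : ℝ) * V) ^ (C4 + k + 1) :=
      pow_le_pow_right₀ huV (by omega)
    have h2 : Real.exp (C4 * ell ^ 2) ≤ Real.exp ((C4 + k + 1 : ℕ) * ell ^ 2) := by
      apply Real.exp_le_exp.2
      have h3 : (C4 : ℝ) ≤ ((C4 + k + 1 : ℕ) : ℝ) := by
        have : C4 ≤ C4 + k + 1 := by omega
        exact_mod_cast this
      gcongr
    gcongr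
  obtain ⟨L, hLk, hLN, hnr⟩ := hreg u N V A α ell hu hell0 hA hcard hα hα1 hav hell hV1 hV2 hN'
  unfold Regular at hnr
  push Not at hnr
  obtain ⟨v, hv1, hvV, c, l, hLl, hdense⟩ := hnr
  obtain ⟨hdvd, hlam1, hlamk⟩ := hlam v hv1
  obtain ⟨t, ht⟩ := hdvd
  have ht1 : 1 ≤ t := by
    rcases Nat.eq_zero_or_pos t with h | h
    · subst h; simp at ht; omega
    · exact h
  have htV : (t : ℝ) ≤ (V : ℝ) ^ k := by
    have h1 : t ≤ v ^ k := by
      calc t ≤ v * t := Nat.le_mul_of_pos_left _ hv1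
        _ = lam v := ht.symm
        _ ≤ v ^ k := hlamk
    have h2 : t ≤ V ^ k := h1.trans (Nat.pow_le_pow_left hvV k)
    exact_mod_cast h2
  obtain ⟨c', n, hn, hdense'⟩ := exists_dense_sub A v t l ht1 c _ hdense
  rw [← ht] at hdense'
  obtain ⟨r, hr1, hr2, hr3⟩ := hrec u v hu hv1
  have hnpos : 0 < n := by
    rcases Nat.eq_zero_or_pos n with h | h
    · subst h
      simp [pull] at hdense'
    · exact h
  have hnR : (0 : ℝ) < n := by exact_mod_cast hnpos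
  set A' := pull A c' (lam v : ℕ) n with hA'
  refine ⟨v, n, A', (A'.card : ℝ) / n, hv1, hvV, ?_, pull_subset _ _ _ _, ?_, ?_, ?_, ?_⟩
  · -- size
    have hLt : t ≤ L := by
      have : (t : ℝ) ≤ L := htV.trans hLk
      exact_mod_cast this
    have h1 : L ≤ 2 * (n * t) := by
      have h2 : L / t ≤ n := (Nat.div_le_div_right hLl).trans hn
      have h3 : 1 ≤ L / t := (Nat.one_le_div_iff ht1).2 hLt
      have h4 := Nat.mod_add_div L t
      have h5 := Nat.mod_lt L ht1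
      have h6 : t * (L / t) ≤ n * t := by
        calc t * (L / t) ≤ t * n := Nat.mul_le_mul_left _ h2
          _ = n * t := Nat.mul_comm _ _
      have h7 : t ≤ n * t := Nat.le_mul_of_pos_left _ hnpos
      omega
    have h2 : (L : ℝ) ≤ 2 * (n * t) := by exact_mod_cast h1
    calc (N : ℝ) ≤ L * (V : ℝ) ^ C4 := hLN
      _ ≤ (V * (n * (V : ℝ) ^ k)) * (V : ℝ) ^ C4 := by
          have h3 : (L : ℝ) ≤ V * (n * (V : ℝ) ^ k) := by
            refine h2.trans ?_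
            gcongr
          gcongr
      _ = n * (V : ℝ) ^ (C4 + k + 1) := by ring
  · field_simp
  · rw [le_div_iff₀ hnR]
    exact hdense'.le
  · rw [div_le_one hnR]
    have h1 := Finset.card_le_card (pull_subset A c' (lam v : ℕ) n)
    rw [Int.card_Icc] at h1
    have h2 : A'.card ≤ n := by
      rw [hA']
      refine h1.trans ?_
      simp
    exact_mod_cast h2
  · exact avoids_pull (H u) (H (u * v)) A v (lam v) hlam1 r hr1 hv1 hr3 hav c' n

/-- Iterating the step `n` times. -/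
lemma iterateU (ell0 : ℝ) (H : ℕ → ℤ[X]) (κ : ℝ) (C3 : ℝ) (C4 : ℕ)
    (hstep : StepPropU H κ C3 C4 ell0) (V : ℕ) (ell : ℝ) (hell0 : ell0 ≤ ell) (hV1 : Real.exp (C3 * ell ^ ((1 - κ) / κ)) ≤ V)
    (hV2 : Real.exp ell ≤ V) (n : ℕ) :
    ∀ (u N : ℕ) (A : Finset ℤ) (α : ℝ), 1 ≤ u →
      A ⊆ Finset.Icc 1 (N : ℤ) → (A.card : ℝ) = α * N → 0 < α → α ≤ 1 → Avoids (H u) A →
      Real.log (2 / α) ≤ ell →
      ((u : ℝ) * (V : ℝ) ^ n) ^ C4 * Real.exp (C4 * ell ^ 2) * ((V : ℝ) ^ C4) ^ n ≤ N →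
      (1 + 1 / 1000) ^ n * α ≤ 1 := by
  induction n with
  | zero =>
    intro u N A α _ _ _ _ hα1 _ _ _
    simpa using hα1
  | succ n ih =>
    intro u N A α hu hA hcard hα hα1 hav hell hN
    have hl2 : (2 : ℝ) ≤ V := by
      refine le_trans ?_ ((Real.exp_le_exp.2 hell).trans hV2)
      rw [Real.exp_log (by positivity), le_div_iff₀ hα]; linarith
    have hV1' : (1 : ℝ) ≤ V := by linarith
    have huR : (1 : ℝ) ≤ u := by exact_mod_cast hu
    have h1 : ((u : ℝ) * V) ^ C4 * Real.exp (C4 * ell ^ 2) ≤ N := by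
      refine le_trans ?_ hN
      have h2 : (V : ℝ) ≤ (V : ℝ) ^ (n + 1) := le_self_pow₀ hV1' (by omega)
      have h3 : (1 : ℝ) ≤ ((V : ℝ) ^ C4) ^ (n + 1) := one_le_pow₀ (one_le_pow₀ hV1')
      calc ((u : ℝ) * V) ^ C4 * Real.exp (C4 * ell ^ 2)
          ≤ ((u : ℝ) * (V : ℝ) ^ (n + 1)) ^ C4 * Real.exp (C4 * ell ^ 2) := by gcongr
        _ ≤ _ := le_mul_of_one_le_right (by positivity) h3
    obtain ⟨v, N', A', α', hv1, hvV, hNN', hA', hcard', hαα', hα'1, hav'⟩ :=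
      hstep u N V A α ell hu hell0 hA hcard hα hα1 hav hell hV1 hV2 h1
    have hα'0 : 0 < α' := by linarith
    have hvR : (v : ℝ) ≤ V := by exact_mod_cast hvV
    have h2 := ih (u * v) N' A' α' (Nat.one_le_iff_ne_zero.2 (by positivity)) hA' hcard' hα'0 hα'1
      hav' (by
        refine le_trans ?_ hell
        apply Real.log_le_log (by positivity)
        apply div_le_div_of_nonneg_left (by norm_num) hα
        linarith)
      (by
        have hVC : (0 : ℝ) < (V : ℝ) ^ C4 := by positivity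
        have h3 : (((u * v : ℕ) : ℝ) * (V : ℝ) ^ n) ^ C4 * Real.exp (C4 * ell ^ 2) *
            ((V : ℝ) ^ C4) ^ n * (V : ℝ) ^ C4 ≤ N' * (V : ℝ) ^ C4 := by
          refine le_trans ?_ hNN'
          refine le_trans ?_ hN
          have h4 : ((u * v : ℕ) : ℝ) * (V : ℝ) ^ n ≤ (u : ℝ) * (V : ℝ) ^ (n + 1) := by
            push_cast
            calc (u : ℝ) * v * (V : ℝ) ^ n ≤ (u : ℝ) * V * (V : ℝ) ^ n := by gcongr
              _ = _ := by ring
          calc (((u * v : ℕ) : ℝ) * (V : ℝ) ^ n) ^ C4 * Real.exp (C4 * ell ^ 2) *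
              ((V : ℝ) ^ C4) ^ n * (V : ℝ) ^ C4
              ≤ ((u : ℝ) * (V : ℝ) ^ (n + 1)) ^ C4 * Real.exp (C4 * ell ^ 2) *
              ((V : ℝ) ^ C4) ^ n * (V : ℝ) ^ C4 := by gcongr
            _ = _ := by ring
        exact le_of_mul_le_mul_right h3 hVC)
    calc (1 + 1 / 1000 : ℝ) ^ (n + 1) * α = (1 + 1 / 1000) ^ n * ((1 + 1 / 1000) * α) := by ring
      _ ≤ (1 + 1 / 1000) ^ n * α' := by gcongr
      _ ≤ 1 := h2

lemma size_boundU (κ : ℝ) (hκ : 0 < κ) (hκ2 : κ ≤ 1 / 2) (C3 : ℝ) (hC3 : 1 ≤ C3)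
    (C4 : ℕ) :
    ∃ C5 : ℝ, 1 ≤ C5 ∧ ∀ (H : ℕ → ℤ[X]) (ell0 : ℝ), StepPropU H κ C3 C4 ell0 →
      ∀ (N : ℕ) (A : Finset ℤ) (α l : ℝ), ell0 ≤ l → Real.log (2 / α) ≤ l →
      A ⊆ Finset.Icc 1 (N : ℤ) → (A.card : ℝ) = α * N → 0 < α → α ≤ 1 → Avoids (H 1) A →
      (N : ℝ) ≤ Real.exp (C5 * l ^ (1 / κ)) := by
  set s : ℝ := (1 - κ) / κ with hs
  have hs1 : 1 ≤ s := by
    rw [hs, le_div_iff₀ hκ]; linarith
  have hs2 : 1 + s = 1 / κ := by
    rw [hs]; field_simp; ring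
  have hκinv : 2 ≤ 1 / κ := by
    rw [le_div_iff₀ hκ]; linarith
  set K : ℝ := 2 ^ (1 / κ) with hK
  have hK1 : 1 ≤ K := Real.one_le_rpow (by norm_num) (by linarith)
  have hKs : (2 : ℝ) ^ s ≤ K := by
    rw [hK]
    exact Real.rpow_le_rpow_of_exponent_le (by norm_num) (by linarith)
  set D : ℝ := 2 * K + C3 * K with hD
  have hD0 : 0 < D := by positivity
  refine ⟨4004 * D * C4 + C4 * K + 1, ?_, ?_⟩
  · have : 0 ≤ 4004 * D * C4 + C4 * K := by positivity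
    linarith
  intro H ell0 hstep N A α l hell0 hαl hA hcard hα hα1 hav
  have hlog2 : Real.log 2 ≤ l := by
    refine le_trans ?_ hαl
    apply Real.log_le_log (by norm_num)
    rw [le_div_iff₀ hα]; linarith
  have hl2 : 1 / 2 ≤ l := by
    have := Real.log_two_gt_d9
    linarith
  have hl0 : 0 < l := by linarith
  have hexpl : 2 / α ≤ Real.exp l := by
    rw [← Real.log_le_iff_le_exp (by positivity)]; exact hαl
  have h2l : 1 ≤ 2 * l := by linarith
  have hKl : ∀ (r : ℝ), 0 ≤ r → (2 : ℝ) ^ r ≤ K → (2 * l) ^ r ≤ K * l ^ r := by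
    intro r hr hrK
    rw [Real.mul_rpow (by norm_num) hl0.le]
    have : 0 ≤ l ^ r := by positivity
    gcongr
  have h1K : 1 ≤ K * l ^ s := (Real.one_le_rpow h2l (by linarith)).trans (hKl s (by linarith) hKs)
  have hlK : l ≤ K * l ^ s := by
    refine le_trans ?_ (hKl s (by linarith) hKs)
    calc l ≤ 2 * l := by linarith
      _ = (2 * l) ^ (1 : ℝ) := (Real.rpow_one _).symm
      _ ≤ (2 * l) ^ s := Real.rpow_le_rpow_of_exponent_le h2l hs1
  have hl2K : l ^ 2 ≤ K * l ^ (1 / κ) := by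
    refine le_trans ?_ (hKl (1 / κ) (by linarith) le_rfl)
    calc l ^ 2 ≤ (2 * l) ^ 2 := by gcongr; linarith
      _ = (2 * l) ^ (2 : ℝ) := (Real.rpow_two _).symm
      _ ≤ (2 * l) ^ (1 / κ) := Real.rpow_le_rpow_of_exponent_le h2l hκinv
  have hls : l * l ^ s = l ^ (1 / κ) := by
    rw [← hs2, Real.rpow_add hl0, Real.rpow_one]
  set V : ℕ := ⌈Real.exp (C3 * l ^ s)⌉₊ + ⌈Real.exp l⌉₊ with hV
  have hV1 : Real.exp (C3 * l ^ s) ≤ V := by
    rw [hV]; push_cast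
    have := Nat.le_ceil (Real.exp (C3 * l ^ s))
    have h2 : (0 : ℝ) ≤ (⌈Real.exp l⌉₊ : ℝ) := by positivity
    linarith
  have hV2 : Real.exp l ≤ V := by
    rw [hV]; push_cast
    have := Nat.le_ceil (Real.exp l)
    have h2 : (0 : ℝ) ≤ (⌈Real.exp (C3 * l ^ s)⌉₊ : ℝ) := by positivity
    linarith
  have hls0 : 0 ≤ l ^ s := by positivity
  have hVD : (V : ℝ) ≤ Real.exp (D * l ^ s) := by
    have h1 : (⌈Real.exp (C3 * l ^ s)⌉₊ : ℝ) ≤ Real.exp (C3 * l ^ s) + 1 :=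
      (Nat.ceil_lt_add_one (Real.exp_pos _).le).le
    have h2 : (⌈Real.exp l⌉₊ : ℝ) ≤ Real.exp l + 1 :=
      (Nat.ceil_lt_add_one (Real.exp_pos _).le).le
    set E := Real.exp (C3 * K * l ^ s) with hE
    have hE1 : 1 ≤ E := Real.one_le_exp (by positivity)
    have h3 : Real.exp (C3 * l ^ s) ≤ E := by
      apply Real.exp_le_exp.2
      have : C3 * 1 ≤ C3 * K := by gcongr
      rw [mul_one] at this
      gcongr
    have h4 : Real.exp l ≤ E := by
      apply Real.exp_le_exp.2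
      refine hlK.trans ?_
      have : 1 * (K * l ^ s) ≤ C3 * (K * l ^ s) := by gcongr
      linarith
    have h5 : (V : ℝ) ≤ 4 * E := by
      rw [hV]; push_cast; linarith
    refine h5.trans ?_
    have h6 : (4 : ℝ) ≤ Real.exp (2 * (K * l ^ s)) := by
      have h7 : (4 : ℝ) ≤ Real.exp 2 := by
        have h8 : (2 : ℝ) ≤ Real.exp 1 := by
          have := Real.add_one_le_exp (1 : ℝ); linarith
        calc (4 : ℝ) = 2 * 2 := by norm_num
          _ ≤ Real.exp 1 * Real.exp 1 := by gcongr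
          _ = Real.exp 2 := by rw [← Real.exp_add]; norm_num
      refine h7.trans (Real.exp_le_exp.2 ?_)
      linarith
    calc 4 * E ≤ Real.exp (2 * (K * l ^ s)) * E := by gcongr
      _ = Real.exp (D * l ^ s) := by
        rw [hE, ← Real.exp_add, hD]; congr 1; ring
  set n : ℕ := ⌈2000 * l⌉₊ with hn
  have hn1 : 2000 * l ≤ n := Nat.le_ceil _
  have hn2 : (n : ℝ) ≤ 2002 * l := by
    have := (Nat.ceil_lt_add_one (a := 2000 * l) (by positivity)).le
    rw [hn]; linarith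
  by_contra hcon
  push Not at hcon
  have hit := iterateU ell0 H κ C3 C4 hstep V l hell0 hV1 hV2 n 1 N A α le_rfl hA hcard hα hα1
    hav hαl
    (by
      refine le_trans ?_ hcon.le
      have h1 : (((1 : ℕ) : ℝ) * (V : ℝ) ^ n) ^ C4 * Real.exp (C4 * l ^ 2) * ((V : ℝ) ^ C4) ^ n
          = (V : ℝ) ^ (2 * n * C4) * Real.exp (C4 * l ^ 2) := by
        push_cast; ring
      rw [h1]
      calc (V : ℝ) ^ (2 * n * C4) * Real.exp (C4 * l ^ 2)
          ≤ Real.exp (D * l ^ s) ^ (2 * n * C4) * Real.exp (C4 * (K * l ^ (1 / κ))) := by gcongr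
        _ = Real.exp ((2 * n * C4) * (D * l ^ s) + C4 * (K * l ^ (1 / κ))) := by
            rw [← Real.exp_nat_mul, ← Real.exp_add]; push_cast; ring_nf
        _ ≤ Real.exp ((4004 * D * C4 + C4 * K + 1) * l ^ (1 / κ)) := by
            apply Real.exp_le_exp.2
            have h2 : (2 * n * C4) * (D * l ^ s) ≤ (2 * (2002 * l) * C4) * (D * l ^ s) := by
              gcongr
            have h3 : (2 * (2002 * l) * C4) * (D * l ^ s) = 4004 * D * C4 * (l * l ^ s) := by ring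
            rw [h3, hls] at h2
            have h4 : 0 ≤ l ^ (1 / κ) := by positivity
            linarith)
  have hbig := pow_big l n hn1
  have h3 : Real.exp l * α ≤ 1 := by
    calc Real.exp l * α ≤ (1 + 1 / 1000 : ℝ) ^ n * α := by gcongr
      _ ≤ 1 := hit
  have h4 : 2 / α * α = 2 := by field_simp
  have h5 : 2 / α * α ≤ Real.exp l * α := by gcongr
  linarith

/-- final extraction of the bound for `rh`; the constant `c` depends on `κ` and `C5` only. -/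
lemma rh_boundU (h : ℤ[X]) (κ : ℝ) (hκ : 0 < κ) (C5 : ℝ) (hC5 : 1 ≤ C5) (ell0 : ℝ)
    (hsize : ∀ (N : ℕ) (A : Finset ℤ) (α l : ℝ), ell0 ≤ l → Real.log (2 / α) ≤ l →
      A ⊆ Finset.Icc 1 (N : ℤ) → (A.card : ℝ) = α * N → 0 < α → α ≤ 1 → Avoids h A →
      (N : ℝ) ≤ Real.exp (C5 * l ^ (1 / κ))) :
    ∃ C : ℝ, 0 < C ∧ ∀ N : ℕ, 1 ≤ N →
      (rh h N : ℝ) ≤ C * N * Real.exp (-(1 / C5) ^ κ * (Real.log N) ^ κ) := by
  classical
  have hC50 : 0 < C5 := by linarith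
  refine ⟨2 + Real.exp (max ell0 0), by positivity, ?_⟩
  intro N hN
  have hNR : (1 : ℝ) ≤ N := by exact_mod_cast hN
  have hex : ∃ A : Finset ℤ, A ⊆ Finset.Icc (1 : ℤ) N ∧ Avoids h A ∧ A.card = rh h N := by
    have hne : ((Finset.Icc (1 : ℤ) N).powerset.filter (Avoids h)).Nonempty := by
      refine ⟨∅, ?_⟩
      rw [Finset.mem_filter]
      refine ⟨Finset.empty_mem_powerset _, ?_⟩
      intro a ha
      simp at ha
    obtain ⟨A, hA1, hA2⟩ := Finset.exists_mem_eq_sup _ hne Finset.card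
    rw [Finset.mem_filter, Finset.mem_powerset] at hA1
    refine ⟨A, hA1.1, hA1.2, ?_⟩
    unfold rh
    exact hA2.symm
  obtain ⟨A, hA1, hA2, hA3⟩ := hex
  rw [← hA3]
  rcases Nat.eq_zero_or_pos A.card with h0 | hpos
  · rw [h0]; push_cast; positivity
  have hposR : (0 : ℝ) < A.card := by exact_mod_cast hpos
  obtain ⟨α, hα⟩ : ∃ α : ℝ, α = (A.card : ℝ) / N := ⟨_, rfl⟩
  have hα0 : 0 < α := by rw [hα]; positivity
  have hcard : (A.card : ℝ) = α * N := by rw [hα]; field_simp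
  have hα1 : α ≤ 1 := by
    rw [hα, div_le_one (by linarith)]
    have h1 := Finset.card_le_card hA1
    rw [Int.card_Icc] at h1
    have h2 : A.card ≤ N := by
      refine h1.trans ?_
      simp
    exact_mod_cast h2
  set l := Real.log (2 / α) with hl
  have hlog2 : Real.log 2 ≤ l := by
    apply Real.log_le_log (by norm_num)
    rw [le_div_iff₀ hα0]; linarith
  have hl0 : 0 < l := by
    have := Real.log_two_gt_d9
    linarith
  have hexpl : Real.exp l = 2 / α := Real.exp_log (div_pos two_pos hα0)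
  set L := max l (max ell0 0) with hL
  have hL0 : 0 < L := lt_of_lt_of_le hl0 (le_max_left _ _)
  have h1 := hsize N A α L ((le_max_left _ _).trans (le_max_right _ _)) (le_max_left _ _)
    hA1 hcard hα0 hα1 hA2
  have h2 : Real.log N ≤ C5 * L ^ (1 / κ) := by
    rw [Real.log_le_iff_le_exp (by linarith)]; exact h1
  have hlogN : 0 ≤ Real.log N := Real.log_nonneg hNR
  have h3 : (1 / C5) ^ κ * (Real.log N) ^ κ ≤ L := by
    rw [← Real.mul_rpow (by positivity) hlogN]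
    have h4 : 1 / C5 * Real.log N ≤ L ^ (1 / κ) := by
      rw [one_div, inv_mul_le_iff₀ hC50]; exact h2
    calc (1 / C5 * Real.log N) ^ κ ≤ (L ^ (1 / κ)) ^ κ := by
          apply Real.rpow_le_rpow (by positivity) h4 hκ.le
      _ = L := by
          rw [← Real.rpow_mul hL0.le, one_div, inv_mul_cancel₀ hκ.ne', Real.rpow_one]
  have h6 : Real.exp (-L) ≤ Real.exp (-(1 / C5) ^ κ * (Real.log N) ^ κ) := by
    apply Real.exp_le_exp.2
    linarith
  have h7 : α ≤ (2 + Real.exp (max ell0 0)) * Real.exp (-L) := by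
    rcases le_total (max ell0 0) l with h | h
    · have h8 : L = l := max_eq_left h
      have h5 : α = 2 * Real.exp (-l) := by
        rw [Real.exp_neg, hexpl]; field_simp
      rw [h8, h5]
      have h9 : 0 < Real.exp (max ell0 0) := Real.exp_pos _
      have h10 : 0 < Real.exp (-l) := Real.exp_pos _
      have h11 : (2 : ℝ) ≤ 2 + Real.exp (max ell0 0) := by linarith
      gcongr
    · have h8 : L = max ell0 0 := max_eq_right h
      rw [h8]
      have h9 : Real.exp (max ell0 0) * Real.exp (-(max ell0 0)) = 1 := by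
        rw [← Real.exp_add, add_neg_cancel, Real.exp_zero]
      have h10 : 0 < Real.exp (-(max ell0 0)) := Real.exp_pos _
      rw [add_mul, h9]
      linarith
  rw [hcard]
  calc α * N ≤ ((2 + Real.exp (max ell0 0)) * Real.exp (-L)) * N := by gcongr
    _ ≤ ((2 + Real.exp (max ell0 0)) * Real.exp (-(1 / C5) ^ κ * (Real.log N) ^ κ)) * N := by
        have : 0 < 2 + Real.exp (max ell0 0) := by positivity
        gcongr
    _ = _ := by ring

end MainAux
end Vale.Agent.P042
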