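import Vale.Agent.P042.RandomModulus

/-!
# Random modulus, uniform version (finitely many exceptional primes `p ≤ D`)
-/

namespace Vale.Agent.P042

open Finset Polynomial

/-- Size conditions on the local majorants `bb p e`: the constants `C0`, `C1` control the primes
`p > D`; the primes `p ≤ D` only satisfy a bound depending on `D`. -/
structure LocalMajorantU (κ C0 C1 : ℝ) (D : ℕ) (bb : ℕ → ℕ → ℝ) : Prop where
  nonneg : ∀ p e, 0 ≤ bb p e
  le_one : ∀ p e, bb p e ≤ 1
  one : ∀ p : ℕ, p.Prime → D < p → bb p 1 ≤ C0 * (p : ℝ) ^ (-κ)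
  two : ∀ p e : ℕ, p.Prime → D < p → 2 ≤ e → bb p e ≤ C0 / p
  decay : ∀ p e : ℕ, p.Prime → D < p → 1 ≤ e → bb p e ≤ C0 * (p : ℝ) ^ (-((e : ℝ) / C1))
  small : ∀ p e : ℕ, p.Prime → p ≤ D → 1 ≤ e → bb p e ≤ 2 * (D + 1) * (2 : ℝ) ^ (-((e : ℝ) / C1))

namespace RandomModulusAux

/-- the amplitude of the tail function -/
noncomputable def AA (C0 y0 κ : ℝ) (D p : ℕ) : ℝ :=
  if p ≤ D then 2 * (D + 1) else 2 * C0 * tt y0 κ p

theorem AA_nonneg {C0 : ℝ} (hC0 : 0 ≤ C0) (y0 κ : ℝ) (D p : ℕ) : 0 ≤ AA C0 y0 κ D p := by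
  unfold AA
  split_ifs
  · positivity
  · exact mul_nonneg (by linarith) (tt_nonneg _ _ _)

theorem sum_fkU {A ρ : ℝ} (hA : 1 ≤ A) (hρ : 0 < ρ) (hρ1 : ρ < 1) (a E : ℕ) :
    ∑ k ∈ Finset.Icc 1 E, fk A ρ (max a k) ≤ (a + A / (1 - ρ)) * fk A ρ a := by
  have hA0 : 0 ≤ A := by linarith
  have h1ρ : 0 < 1 - ρ := by linarith
  rcases Nat.eq_zero_or_pos a with rfl | ha
  · have h1 := sum_fk (A := A) (D := A) (t := 1) (by ring) zero_le_one le_rfl hA hρ hρ1 0 E
    simpa using h1
  · have hfa : 0 ≤ fk A ρ a := fk_nonneg hA0 hρ.le a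
    calc ∑ k ∈ Finset.Icc 1 E, fk A ρ (max a k)
        ≤ ∑ k ∈ Finset.Icc 1 E, ((if k ≤ a then 1 else 0) +
            (if a < k then A * ρ ^ (k - a) else 0)) * fk A ρ a := by
          refine Finset.sum_le_sum fun k hk => ?_
          by_cases hka : k ≤ a
          · have : ¬ a < k := by omega
            rw [max_eq_left hka, if_pos hka, if_neg this]
            linarith
          · have h2 : a < k := by omega
            rw [max_eq_right h2.le, if_neg hka, if_pos h2, zero_add]
            exact fk_ratio hA0 le_rfl hA hρ hρ1.le ha h2.le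
      _ = (∑ k ∈ Finset.Icc 1 E, (if k ≤ a then (1 : ℝ) else 0) +
            ∑ k ∈ Finset.Icc 1 E, (if a < k then A * ρ ^ (k - a) else 0)) * fk A ρ a := by
          rw [← Finset.sum_mul, Finset.sum_add_distrib]
      _ ≤ (a + A / (1 - ρ)) * fk A ρ a := by
          refine mul_le_mul_of_nonneg_right (add_le_add ?_ ?_) hfa
          · rw [Finset.sum_boole]
            have : (Finset.Icc 1 E).filter (fun k => k ≤ a) ⊆ Finset.Icc 1 a := by
              intro k hk
              simp only [Finset.mem_filter, Finset.mem_Icc] at hk ⊢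
              omega
            have h3 := Finset.card_le_card this
            rw [Nat.card_Icc] at h3
            have h4 : ((Finset.Icc 1 E).filter (fun k => k ≤ a)).card ≤ a := by omega
            exact_mod_cast h4
          · rw [← Finset.sum_filter]
            have himg : ∑ k ∈ (Finset.Icc 1 E).filter (fun k => a < k), A * ρ ^ (k - a) =
                ∑ j ∈ ((Finset.Icc 1 E).filter (fun k => a < k)).image (fun k => k - a),
                  A * ρ ^ j := by
              rw [Finset.sum_image]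
              intro x hx y hy hxy
              simp only [Finset.coe_filter, Finset.mem_Icc, Set.mem_ofPred_eq] at hx hy
              simp only at hxy
              omega
            rw [himg]
            calc ∑ j ∈ ((Finset.Icc 1 E).filter (fun k => a < k)).image (fun k => k - a),
                  A * ρ ^ j ≤ ∑ j ∈ Finset.range (E + 1), A * ρ ^ j := by
                  refine Finset.sum_le_sum_of_subset_of_nonneg ?_ fun k _ _ => by positivity
                  intro j hj
                  simp only [Finset.mem_image, Finset.mem_filter, Finset.mem_Icc] at hj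
                  obtain ⟨k, hk, rfl⟩ := hj
                  rw [Finset.mem_range]; omega
              _ = A * ∑ j ∈ Finset.range (E + 1), ρ ^ j := by rw [Finset.mul_sum]
              _ ≤ A * (1 / (1 - ρ)) := mul_le_mul_of_nonneg_left (geom_le hρ hρ1 _) hA0
              _ = A / (1 - ρ) := by ring

theorem sum_small_log {G : ℝ} (hG : 0 ≤ G) (D Q : ℕ) :
    ∑ p ∈ (Finset.range (Q + 1)).filter Nat.Prime, (if p ≤ D then G else 0) * Real.log p
      ≤ G * (D * Real.log D) := by
  have h1 : ∑ p ∈ (Finset.range (Q + 1)).filter Nat.Prime, (if p ≤ D then G else 0) * Real.log p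
      = ∑ p ∈ ((Finset.range (Q + 1)).filter Nat.Prime).filter (fun p => p ≤ D),
        G * Real.log p := by
    rw [Finset.sum_filter (fun p => p ≤ D)]
    refine Finset.sum_congr rfl fun p _ => ?_
    split_ifs <;> simp
  rw [h1]
  have h2 : ∀ p ∈ ((Finset.range (Q + 1)).filter Nat.Prime).filter (fun p => p ≤ D),
      G * Real.log p ≤ G * Real.log D := by
    intro p hp
    simp only [Finset.mem_filter, Finset.mem_range] at hp
    have h3 : Real.log p ≤ Real.log D :=
      Real.log_le_log (by exact_mod_cast hp.1.2.pos) (by exact_mod_cast hp.2)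
    gcongr
  refine (Finset.sum_le_sum h2).trans ?_
  rw [Finset.sum_const, nsmul_eq_mul]
  have h3 : (((Finset.range (Q + 1)).filter Nat.Prime).filter (fun p => p ≤ D)).card ≤ D := by
    have : ((Finset.range (Q + 1)).filter Nat.Prime).filter (fun p => p ≤ D) ⊆
        Finset.Icc 1 D := by
      intro p hp
      simp only [Finset.mem_filter, Finset.mem_range, Finset.mem_Icc] at hp ⊢
      exact ⟨hp.1.2.one_lt.le, hp.2⟩
    have h4 := Finset.card_le_card this
    rw [Nat.card_Icc] at h4
    omega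
  have h4 : ((((Finset.range (Q + 1)).filter Nat.Prime).filter (fun p => p ≤ D)).card : ℝ) ≤ D := by
    exact_mod_cast h3
  have h5 : 0 ≤ G * Real.log D := mul_nonneg hG (Real.log_natCast_nonneg D)
  calc _ ≤ (D : ℝ) * (G * Real.log D) := mul_le_mul_of_nonneg_right h4 h5
    _ = _ := by ring

theorem prod_bb_leU {κ C0 C1 : ℝ} (hκ : 0 < κ) (hκ2 : κ ≤ 1 / 2) (hC0 : 1 ≤ C0) {D : ℕ}
    {bb : ℕ → ℕ → ℝ} (hbb : LocalMajorantU κ C0 C1 D bb) {y0 : ℝ} (hDy0 : (D : ℝ) < y0)
    {q Q : ℕ} (hq : 1 ≤ q)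
    (hqQ : q ≤ Q) (h2 : ∀ p ∈ q.primeFactors, y0 < (p : ℝ) → 2 ≤ q.factorization p) :
    ∏ p ∈ q.primeFactors, bb p (q.factorization p) ≤
      ∏ i : PI Q, fk (AA C0 y0 κ D i) ((2 : ℝ) ^ (-(1 / C1))) (q.factorization i) := by
  rw [prod_PI Q (fun p => fk (AA C0 y0 κ D p) ((2 : ℝ) ^ (-(1 / C1))) (q.factorization p))]
  rw [← Finset.prod_subset (primeFactors_subset hq hqQ)]
  · refine Finset.prod_le_prod (fun p _ => hbb.nonneg _ _) fun p hp => ?_
    have hpp := Nat.prime_of_mem_primeFactors hp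
    have hp2 := hpp.two_le
    have hp0 : (0 : ℝ) < p := by exact_mod_cast hpp.pos
    have hp1 : (1 : ℝ) ≤ p := by exact_mod_cast hpp.one_lt.le
    have he : 1 ≤ q.factorization p :=
      hpp.factorization_pos_of_dvd (by omega) (Nat.dvd_of_mem_primeFactors hp)
    by_cases hpD : p ≤ D
    · rw [AA, if_pos hpD]
      have he0 : q.factorization p ≠ 0 := by omega
      simp only [fk, he0, if_false]
      refine le_min (hbb.le_one _ _) ?_
      refine (hbb.small p _ hpp hpD he).trans (le_of_eq ?_)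
      congr 1
      rw [← Real.rpow_natCast, ← Real.rpow_mul (by norm_num)]
      congr 1
      ring
    rw [AA, if_neg hpD]
    have hpD' : D < p := by omega
    unfold tt
    split_ifs with hy
    · refine bb_le hC0 (by linarith) hp2 he (hbb.le_one _ _) ?_ (hbb.decay _ _ hpp hpD' he)
      rcases Nat.lt_or_ge 1 (q.factorization p) with h | h
      · refine (hbb.two p _ hpp hpD' h).trans ?_
        rw [div_eq_mul_inv]
        refine mul_le_mul_of_nonneg_left ?_ (by linarith)
        rw [← Real.rpow_neg_one]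
        exact Real.rpow_le_rpow_of_exponent_le hp1 (by linarith)
      · have : q.factorization p = 1 := by omega
        rw [this]
        exact hbb.one p hpp hpD'
    · have h3 := h2 p hp (not_le.mp hy)
      refine bb_le hC0 le_rfl hp2 he (hbb.le_one _ _) ?_ (hbb.decay _ _ hpp hpD' he)
      rw [Real.rpow_neg_one, ← div_eq_mul_inv]
      exact hbb.two p _ hpp hpD' h3
  · intro p _ hp
    have : q.factorization p = 0 := by
      rw [← Finsupp.notMem_support_iff, Nat.support_factorization]; exact hp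
    rw [this, fk_zero]

end RandomModulusAux

open RandomModulusAux in
/-- random modulus `v = ∏ p^{e_p}` with independent exponents, restricted to `v ≤ V` -/
theorem random_modulus_unif (κ C0 C1 C2 C5 : ℝ) (hκ : 0 < κ) (hκ2 : κ ≤ 1 / 2) (hC0 : 1 ≤ C0)
    (hC1 : 1 ≤ C1) (hC2 : 1 ≤ C2) (hC5 : 20 * C0 * C2 ≤ C5) :
    ∃ C3 : ℝ, 1 ≤ C3 ∧ ∀ D : ℕ, ∃ ell0 : ℝ, ∀ (ell : ℝ) (V Q : ℕ) (bb : ℕ → ℕ → ℝ),
      ell0 ≤ ell → 1 / 2 ≤ ell →
      (Q : ℝ) ≤ Real.exp (C2 * ell) → Real.exp (C3 * ell ^ ((1 - κ) / κ)) ≤ V →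
      LocalMajorantU κ C0 C1 D bb →
      ∃ w : ℕ → ℝ, (∀ v, 0 ≤ w v) ∧ ∑ v ∈ Finset.Icc 1 V, w v ≤ 1 ∧
        ∀ (q : ℕ) (R : Finset ℕ), 1 ≤ q → (∀ p ∈ R, p.Prime ∧ (C5 * ell) ^ (1 / κ) < (p : ℝ) ∧
          ¬ p ∣ q) → q * ∏ p ∈ R, p ≤ Q →
          (∀ p ∈ q.primeFactors, (C5 * ell) ^ (1 / κ) < (p : ℝ) → 2 ≤ q.factorization p) →
          ∏ p ∈ q.primeFactors, bb p (q.factorization p)
            ≤ 2 * ∑ v ∈ (Finset.Icc 1 V).filter (fun v => q ∣ v ∧ ∀ p ∈ R, ¬ p ∣ v), w v := by
  classical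
  set ρ : ℝ := (2 : ℝ) ^ (-(1 / C1)) with hρdef
  have hρ : 0 < ρ := by positivity
  have hρ1 : ρ < 1 := Real.rpow_lt_one_of_one_lt_of_neg (by norm_num)
    (neg_lt_zero.mpr (by positivity))
  set s : ℝ := (1 - κ) / κ with hs
  have hs1 : 1 ≤ s := by
    rw [hs, le_div_iff₀ hκ]; linarith
  have h1ρ : 0 < 1 - ρ := by linarith
  set G : ℝ := 2 * C0 / (1 - ρ) with hG
  have hG0 : 0 < G := by positivity
  have hC5' : 20 ≤ C5 := by
    have h0 : 1 ≤ C0 * C2 := one_le_mul_of_one_le_of_one_le hC0 hC2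
    linarith
  set C4 : ℝ := (1 + G) * C2 * 2 ^ s + G * (16 * C5 ^ s + 3 * (2 * C2 + 2) * 2 ^ s) + 2 ^ s with hC4
  have hC40 : 0 ≤ C4 := by positivity
  refine ⟨4 * C4 + 1, by linarith, ?_⟩
  intro D
  set GD : ℝ := 2 * (D + 1) / (1 - ρ) with hGD
  have hGD0 : 0 < GD := by positivity
  refine ⟨GD * (D * Real.log D) + (D + 1), ?_⟩
  intro ell V Q bb hell0' hell hQ hV hbb
  have hDlog : 0 ≤ GD * (D * Real.log D) := by
    have : 0 ≤ Real.log D := Real.log_natCast_nonneg D
    positivity
  have hellD : GD * (D * Real.log D) ≤ ell := by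
    have : (0 : ℝ) ≤ D := by positivity
    linarith
  have hDell : (D : ℝ) ≤ ell := by linarith
  have hell0 : 0 < ell := by linarith
  set y0 : ℝ := (C5 * ell) ^ (1 / κ) with hy0
  have hCe : 10 ≤ C5 * ell := by
    calc (10 : ℝ) = 20 * (1 / 2) := by norm_num
      _ ≤ C5 * ell := mul_le_mul hC5' hell (by norm_num) (by linarith)
  have hy01 : 1 ≤ y0 := Real.one_le_rpow (by linarith) (by positivity)
  have hy02 : (C5 * ell) ^ 2 ≤ y0 := by
    rw [← Real.rpow_natCast, hy0]
    refine Real.rpow_le_rpow_of_exponent_le (by linarith) ?_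
    rw [le_div_iff₀ hκ]
    push_cast
    linarith
  have hy0s : y0 ^ (1 - κ) = C5 ^ s * ell ^ s := by
    rw [hy0, ← Real.rpow_mul (by positivity), ← Real.mul_rpow (by positivity) hell0.le]
    congr 1
    rw [hs]; ring
  have hells : ell ≤ 2 ^ s * ell ^ s := by
    rw [← Real.mul_rpow (by norm_num) hell0.le]
    calc ell ≤ (2 * ell) ^ (1 : ℝ) := by rw [Real.rpow_one]; linarith
      _ ≤ (2 * ell) ^ s := Real.rpow_le_rpow_of_exponent_le (by linarith) hs1
  have hDy0 : (D : ℝ) < y0 := by
    refine lt_of_lt_of_le ?_ hy02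
    have h20 : ell < (C5 * ell) ^ 2 := by
      calc ell < 20 * ell := by linarith
        _ ≤ C5 * ell := by gcongr
        _ ≤ (C5 * ell) ^ 2 := le_self_pow₀ (by linarith) (by norm_num)
    linarith
  have hlogV : (4 * C4 + 1) * ell ^ s ≤ Real.log V := by
    rw [Real.le_log_iff_exp_le (lt_of_lt_of_le (Real.exp_pos _) hV)]
    exact hV
  have hlogV0 : 0 < Real.log V := lt_of_lt_of_le (by positivity) hlogV
  let f : PI Q → ℕ → ℝ := fun i => fk (AA C0 y0 κ D i) ρ
  have hpi : ∀ i : PI Q, Nat.Prime (i : ℕ) := fun i => (Finset.mem_filter.mp i.2).2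
  have hf0 : ∀ i k, 0 ≤ f i k := fun i k =>
    fk_nonneg (AA_nonneg (by linarith) _ _ _ _) hρ.le k
  have hfa : ∀ i, Antitone (f i) := fun i =>
    fk_antitone (AA_nonneg (by linarith) _ _ _ _) hρ.le hρ1.le
  have hmu : ∀ e : PI Q → Fin (Q + 1), 0 ≤ mu f Q e := mu_nonneg hfa hf0 Q
  let val : PI Q → ℕ := fun i => (i : ℕ)
  refine ⟨fun v => ∑ e : PI Q → Fin (Q + 1), (if vv val e = v then mu f Q e else 0), ?_, ?_, ?_⟩
  · intro v
    exact Finset.sum_nonneg fun e _ => by split_ifs <;> simp [hmu]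
  · rw [Finset.sum_comm]
    have h1 : ∀ e : PI Q → Fin (Q + 1),
        ∑ v ∈ Finset.Icc 1 V, (if vv val e = v then mu f Q e else 0) ≤
        (if ∀ i, (0 : ℕ) ≤ (e i : ℕ) then mu f Q e else 0) := by
      intro e
      rw [Finset.sum_ite_eq, if_pos (fun i => Nat.zero_le _)]
      split_ifs
      · exact le_rfl
      · exact hmu e
    refine (Finset.sum_le_sum fun e _ => h1 e).trans ?_
    rw [sum_mu f Q (fun _ => 0) (fun _ => Nat.zero_le _)]
    simp [f, fk_zero]
  · intro q R hq hR hqR hq2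
    have hRpos : 1 ≤ ∏ p ∈ R, p := Finset.one_le_prod' fun p hp => (hR p hp).1.one_lt.le
    have hqQ : q ≤ Q := (Nat.le_mul_of_pos_right q hRpos).trans hqR
    have hQ1 : 1 ≤ Q := hq.trans hqQ
    have hlogQ : Real.log Q ≤ C2 * ell := by
      have : (0 : ℝ) < Q := by exact_mod_cast hQ1
      rw [Real.log_le_iff_le_exp this]
      exact hQ
    refine (prod_bb_leU hκ hκ2 hC0 hbb hDy0 hq hqQ hq2).trans ?_
    let a : PI Q → ℕ := fun i => q.factorization i
    have ha : ∀ i, a i ≤ Q := fun i =>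
      ((Nat.factorization_lt _ (by omega)).le).trans hqQ
    let B : PI Q → ℝ := fun i => (1 + G) * a i + G * tt y0 κ i + (if (i : ℕ) ≤ D then GD else 0)
    have hB : ∀ j, ∑ k ∈ Finset.Icc 1 Q, f j (max (a j) k) ≤ B j * f j (a j) := by
      intro j
      have hfj := hf0 j (a j)
      by_cases hjD : (j : ℕ) ≤ D
      · have h1 : ∑ k ∈ Finset.Icc 1 Q, fk (2 * (D + 1)) ρ (max (a j) k) ≤
            (a j + GD) * fk (2 * (D + 1)) ρ (a j) :=
          sum_fkU (by
            have : (0 : ℝ) ≤ D := by positivity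
            linarith) hρ hρ1 (a j) Q
        have h2 : f j = fk (2 * (D + 1)) ρ := by
          show fk (AA C0 y0 κ D j) ρ = _
          rw [AA, if_pos hjD]
        rw [h2] at hfj ⊢
        refine h1.trans (mul_le_mul_of_nonneg_right ?_ hfj)
        show (a j : ℝ) + GD ≤ (1 + G) * a j + G * tt y0 κ j + (if (j : ℕ) ≤ D then GD else 0)
        rw [if_pos hjD]
        have h3 : 0 ≤ G * a j := by positivity
        have h4 : 0 ≤ G * tt y0 κ j := mul_nonneg hG0.le (tt_nonneg _ _ _)
        linarith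
      · have h1 : ∑ k ∈ Finset.Icc 1 Q, fk (2 * C0 * tt y0 κ j) ρ (max (a j) k) ≤
            ((1 + G) * a j + G * tt y0 κ j) * fk (2 * C0 * tt y0 κ j) ρ (a j) :=
          sum_fk (D := 2 * C0) rfl (tt_nonneg _ _ _) (tt_le_one hκ (hpi j).one_lt.le)
            (by linarith) hρ hρ1 (a j) Q
        have h2 : f j = fk (2 * C0 * tt y0 κ j) ρ := by
          show fk (AA C0 y0 κ D j) ρ = _
          rw [AA, if_neg hjD]
        rw [h2]
        refine h1.trans (le_of_eq ?_)
        show _ = ((1 + G) * a j + G * tt y0 κ j + (if (j : ℕ) ≤ D then GD else 0)) * _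
        rw [if_neg hjD, add_zero]
    have hS : ∑ j, B j * Real.log (val j) ≤ Real.log V / 4 := by
      have e1 : ∑ j, B j * Real.log (val j) = (1 + G) * Real.log q +
          G * ∑ p ∈ (Finset.range (Q + 1)).filter Nat.Prime, tt y0 κ p * Real.log p +
          ∑ p ∈ (Finset.range (Q + 1)).filter Nat.Prime,
            (if p ≤ D then GD else 0) * Real.log p := by
        rw [← sum_factorization_log hq hqQ, ← sum_PI Q (fun p => tt y0 κ p * Real.log p),
          ← sum_PI Q (fun p => (if p ≤ D then GD else 0) * Real.log p),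
          Finset.mul_sum, Finset.mul_sum, ← Finset.sum_add_distrib, ← Finset.sum_add_distrib]
        exact Finset.sum_congr rfl fun j _ => by simp only [B, a, val]; ring
      have e1' : ∑ p ∈ (Finset.range (Q + 1)).filter Nat.Prime,
            (if p ≤ D then GD else 0) * Real.log p ≤ ell :=
        (sum_small_log hGD0.le D Q).trans hellD
      have e2 := sum_tt_log hκ hκ2 hy01 hQ1
      have e3 : Real.log q ≤ C2 * ell := by
        refine le_trans ?_ hlogQ
        exact Real.log_le_log (by exact_mod_cast hq) (by exact_mod_cast hqQ)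
      have e4 : Real.log Q / Real.log 2 + 1 ≤ (2 * C2 + 2) * ell := by
        have h2 : Real.log Q / Real.log 2 ≤ 2 * C2 * ell := by
          rw [div_le_iff₀ (Real.log_pos (by norm_num))]
          have h3 := Real.log_two_gt_d9
          have h4 : 0 < C2 * ell := by positivity
          have h5 : (2 * C2 * ell) * (1 / 2) ≤ 2 * C2 * ell * Real.log 2 :=
            mul_le_mul_of_nonneg_left (by linarith) (by linarith)
          linarith
        linarith
      rw [hy0s] at e2
      have e5 : ∑ j, B j * Real.log (val j) ≤ C4 * ell ^ s := by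
        rw [e1]
        calc (1 + G) * Real.log q +
            G * ∑ p ∈ (Finset.range (Q + 1)).filter Nat.Prime, tt y0 κ p * Real.log p +
            ∑ p ∈ (Finset.range (Q + 1)).filter Nat.Prime,
            (if p ≤ D then GD else 0) * Real.log p
            ≤ (1 + G) * (C2 * ell) +
              G * (16 * (C5 ^ s * ell ^ s) + 3 * ((2 * C2 + 2) * ell)) + ell := by
              gcongr
              exact e2.trans (by linarith)
          _ ≤ (1 + G) * (C2 * (2 ^ s * ell ^ s)) +
              G * (16 * (C5 ^ s * ell ^ s) + 3 * ((2 * C2 + 2) * (2 ^ s * ell ^ s))) +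
              2 ^ s * ell ^ s := by
              gcongr
          _ = C4 * ell ^ s := by rw [hC4]; ring
      have e6 : 0 < ell ^ s := by positivity
      linarith
    let R' : Finset (PI Q) := Finset.univ.filter (fun i => (i : ℕ) ∈ R)
    have hR0 : ∀ j ∈ R', a j = 0 := by
      intro j hj
      rw [Finset.mem_filter] at hj
      exact Nat.factorization_eq_zero_of_not_dvd (hR _ hj.2).2.2
    have hR1 : ∑ j ∈ R', f j 1 ≤ 1 / 4 := by
      have h1 : ∀ j ∈ R', f j 1 ≤ 2 * C0 / y0 := by
        intro j hj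
        rw [Finset.mem_filter] at hj
        have hjy := (hR _ hj.2).2.1
        have hy0pos : 0 < y0 := by linarith
        have hjD : ¬ (j : ℕ) ≤ D := by
          intro hcon
          have : ((j : ℕ) : ℝ) ≤ D := by exact_mod_cast hcon
          linarith
        simp only [f, fk, one_ne_zero, if_false, pow_one]
        refine (min_le_right _ _).trans ?_
        rw [AA, if_neg hjD]
        rw [tt, if_neg (not_le.mpr hjy), Real.rpow_neg_one]
        have h3 : ((j : ℕ) : ℝ)⁻¹ ≤ y0⁻¹ := inv_anti₀ hy0pos hjy.le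
        calc 2 * C0 * ((j : ℕ) : ℝ)⁻¹ * ρ ≤ 2 * C0 * y0⁻¹ * 1 := by gcongr
          _ = 2 * C0 / y0 := by ring
      have h2 : (R'.card : ℝ) ≤ 2 * C2 * ell := by
        have h3 : R'.card ≤ R.card := by
          refine Finset.card_le_card_of_injOn (fun i => (i : ℕ)) ?_ ?_
          · intro i hi
            exact (Finset.mem_filter.mp hi).2
          · intro i _ j _ hij
            exact Subtype.ext hij
        have h4 := card_le_log hq (fun p hp => (hR p hp).1) hqR
        have h5 : (R'.card : ℝ) ≤ R.card := by exact_mod_cast h3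
        have h6 := Real.log_two_gt_d9
        have h7 : (0 : ℝ) ≤ R.card := by positivity
        have h8 : (R.card : ℝ) * (1 / 2) ≤ C2 * ell := by
          refine le_trans ?_ (h4.trans hlogQ)
          exact mul_le_mul_of_nonneg_left (by linarith) h7
        linarith
      have hy0pos : 0 < y0 := by linarith
      calc ∑ j ∈ R', f j 1 ≤ ∑ j ∈ R', 2 * C0 / y0 := Finset.sum_le_sum h1
        _ = R'.card * (2 * C0 / y0) := by rw [Finset.sum_const, nsmul_eq_mul]
        _ ≤ 2 * C2 * ell * (2 * C0 / y0) := by gcongr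
        _ = (4 * C0 * C2 * ell) / y0 := by ring
        _ ≤ 1 / 4 := by
          rw [div_le_iff₀ hy0pos]
          have := num1 hC0 hC2 hC5 hell
          linarith
    refine (generic_bound f hfa hf0 (fun i => fk_zero _ _) Q a ha hQ1 val
      (fun i => (hpi i).one_lt.le) B hB V hlogV0 hS R' hR0 hR1).trans ?_
    refine mul_le_mul_of_nonneg_left ?_ (by norm_num)
    rw [Finset.sum_comm]
    refine Finset.sum_le_sum fun e _ => ?_
    rw [Finset.sum_ite_eq]
    by_cases hc : (∀ i, a i ≤ (e i : ℕ)) ∧ vv val e ≤ V ∧ ∀ j ∈ R', (e j : ℕ) = 0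
    · rw [if_pos hc, if_pos]
      rw [Finset.mem_filter, Finset.mem_Icc]
      refine ⟨⟨Finset.one_le_prod' fun i _ => Nat.one_le_pow _ _ (hpi i).pos, hc.2.1⟩, ?_, ?_⟩
      · have : q = ∏ i : PI Q, (i : ℕ) ^ (q.factorization i) := (prod_factorization hq hqQ).symm
        rw [this]
        exact Finset.prod_dvd_prod_of_dvd _ _ fun i _ => pow_dvd_pow _ (hc.1 i)
      · intro p hp hdvd
        have hpp := (hR p hp).1
        obtain ⟨i, -, hi⟩ := (hpp.prime.dvd_finsetProd_iff _).mp hdvd
        have h3 : p ∣ (i : ℕ) := hpp.dvd_of_dvd_pow hi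
        have h4 : p = (i : ℕ) := (Nat.prime_dvd_prime_iff_eq hpp (hpi i)).mp h3
        have h5 : (e i : ℕ) = 0 := hc.2.2 i (by
          rw [Finset.mem_filter]; exact ⟨Finset.mem_univ _, h4 ▸ hp⟩)
        rw [h5, pow_zero] at hi
        exact hpp.one_lt.ne' (Nat.dvd_one.mp hi)
    · rw [if_neg hc]
      split_ifs
      · exact hmu e
      · exact le_rfl

end Vale.Agent.P042
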