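import Vale.Agent.P042.MainLocal
import Vale.Agent.P042.RandomModulusU

namespace Vale.Agent.P042
namespace MainAux

open Finset Polynomial

/-- the explicit local majorant, uniform version -/
noncomputable def bbfU (κ C0 C1 : ℝ) (D p e : ℕ) : ℝ :=
  if p.Prime ∧ 1 ≤ e then
    (if p ≤ D then min 1 (2 * (D + 1) * (2 : ℝ) ^ (-((e : ℝ) / C1)))
    else min (min 1 (C0 * (p : ℝ) ^ (-((e : ℝ) / C1))))
      (if e = 1 then C0 * (p : ℝ) ^ (-κ) else C0 / p))
  else 0

lemma localMajorantU_bbfU (κ C0 C1 : ℝ) (D : ℕ) (hC0 : 1 ≤ C0) :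
    LocalMajorantU κ C0 C1 D (bbfU κ C0 C1 D) := by
  have hC0' : 0 ≤ C0 := by linarith
  constructor
  · intro p e
    unfold bbfU
    split_ifs
    · refine le_min zero_le_one ?_; positivity
    · refine le_min (le_min zero_le_one ?_) ?_ <;> positivity
    · refine le_min (le_min zero_le_one ?_) ?_ <;> positivity
    · exact le_rfl
  · intro p e
    unfold bbfU
    split_ifs
    · exact min_le_left _ _
    · exact (min_le_left _ _).trans (min_le_left _ _)
    · exact (min_le_left _ _).trans (min_le_left _ _)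
    · exact zero_le_one
  · intro p hp hpD
    unfold bbfU
    rw [if_pos ⟨hp, le_rfl⟩, if_neg (by omega), if_pos rfl]
    exact min_le_right _ _
  · intro p e hp hpD he
    unfold bbfU
    rw [if_pos ⟨hp, by omega⟩, if_neg (by omega), if_neg (by omega)]
    exact min_le_right _ _
  · intro p e hp hpD he
    unfold bbfU
    rw [if_pos ⟨hp, he⟩, if_neg (by omega)]
    exact (min_le_left _ _).trans (min_le_right _ _)
  · intro p e hp hpD he
    unfold bbfU
    rw [if_pos ⟨hp, he⟩, if_pos hpD]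
    exact min_le_right _ _

/-- decay from `gs_decay` -/
lemma decay_aux (g : ℝ) (Cd D : ℕ) (hCd : 1 ≤ Cd) (hD : 1 ≤ D) (p e : ℕ)
    (hp : 1 ≤ p) (h1 : ((p ^ e : ℕ) : ℝ) * g ^ Cd ≤ 2 ^ Cd * D) :
    g ≤ 2 * D * (p : ℝ) ^ (-((e : ℝ) / Cd)) := by
  have hD' : (1 : ℝ) ≤ D := by exact_mod_cast hD
  have hpe : (0 : ℝ) < ((p ^ e : ℕ) : ℝ) := by positivity
  have h2 : g ^ Cd ≤ 2 ^ Cd * D / ((p ^ e : ℕ) : ℝ) := by
    rw [le_div_iff₀ hpe]; linarith
  have h3 : g ^ Cd ≤ (2 * D * (p : ℝ) ^ (-((e : ℝ) / Cd))) ^ Cd := by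
    refine h2.trans ?_
    rw [mul_pow, mul_pow]
    have h4 : ((p : ℝ) ^ (-((e : ℝ) / Cd))) ^ Cd = ((p ^ e : ℕ) : ℝ)⁻¹ := by
      rw [← Real.rpow_natCast, ← Real.rpow_mul (by positivity)]
      rw [show -((e : ℝ) / Cd) * (Cd : ℝ) = -(e : ℝ) by
        have : (Cd : ℝ) ≠ 0 := by positivity
        field_simp]
      rw [Real.rpow_neg (by positivity), Real.rpow_natCast]
      push_cast; rfl
    rw [h4, div_eq_mul_inv]
    have h5 : (D : ℝ) ≤ (D : ℝ) ^ Cd := le_self_pow₀ hD' (by omega)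
    have h6 : (0 : ℝ) ≤ ((p ^ e : ℕ) : ℝ)⁻¹ := by positivity
    gcongr
  exact le_of_pow_le_pow_left₀ (by omega) (by positivity) h3

/-- dividing out the content -/
lemma exists_prim (P : ℤ[X]) (k : ℕ) (hk : 1 ≤ k) (hdeg : P.natDegree = k)
    (hlc : 0 < P.leadingCoeff) :
    ∃ (g : ℕ) (P₁ : ℤ[X]), 1 ≤ g ∧ P = C (P.coeff 0) + C (g : ℤ) * P₁ ∧ P₁.natDegree = k ∧
      0 < P₁.leadingCoeff ∧ ContentLE P₁ 1 ∧ ∀ j, 1 ≤ j → (g : ℤ) ∣ P.coeff j := by
  set P' := P - C (P.coeff 0) with hP'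
  have hcoeff : ∀ j, 1 ≤ j → P'.coeff j = P.coeff j := by
    intro j hj
    rw [hP', coeff_sub, coeff_C, if_neg (by omega), sub_zero]
  have hcoeff0 : P'.coeff 0 = 0 := by
    rw [hP', coeff_sub, coeff_C_zero, sub_self]
  have hP'deg : P'.natDegree = k := by
    rw [hP', natDegree_sub_C, hdeg]
  have hP'0 : P' ≠ 0 := by
    intro h
    rw [h, natDegree_zero] at hP'deg
    omega
  have hlc' : P'.leadingCoeff = P.leadingCoeff := by
    rw [leadingCoeff, leadingCoeff, hP'deg, hdeg, hcoeff k hk]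
  have hg0 : P'.content ≠ 0 := by rwa [Ne, content_eq_zero_iff]
  have hgnn : 0 ≤ P'.content := by
    have := P'.normalize_content
    rw [← this]
    exact Int.nonneg_of_normalize_eq_self (by rw [normalize_idem])
  obtain ⟨g, hg⟩ := Int.eq_ofNat_of_zero_le hgnn
  have hgpos : 1 ≤ g := by
    rcases Nat.eq_zero_or_pos g with h | h
    · rw [h] at hg; exact absurd hg hg0
    · exact h
  have hfact : P' = C (g : ℤ) * P'.primPart := by
    rw [← hg]; exact P'.eq_C_content_mul_primPart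
  have hgZ : (0 : ℤ) < g := by exact_mod_cast hgpos
  refine ⟨g, P'.primPart, hgpos, ?_, ?_, ?_, ?_, ?_⟩
  · rw [← hfact, hP']; ring
  · rw [natDegree_primPart, hP'deg]
  · have h1 : P'.leadingCoeff = g * P'.primPart.leadingCoeff := by
      conv_lhs => rw [hfact]
      rw [leadingCoeff_mul, leadingCoeff_C]
    rw [hlc'] at h1
    rw [h1] at hlc
    exact (mul_pos_iff_of_pos_left hgZ).1 hlc
  · intro d hd
    have h0 : P'.primPart.coeff 0 = 0 := by
      have h1 : P'.coeff 0 = g * P'.primPart.coeff 0 := by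
        conv_lhs => rw [hfact]
        rw [coeff_C_mul]
      rw [hcoeff0] at h1
      rcases mul_eq_zero.mp h1.symm with h | h
      · exact absurd h hgZ.ne'
      · exact h
    have h2 : ∀ j, (d : ℤ) ∣ P'.primPart.coeff j := by
      intro j
      rcases Nat.eq_zero_or_pos j with h | h
      · rw [h, h0]; exact dvd_zero _
      · exact hd j h
    have h3 : C (d : ℤ) ∣ P'.primPart := C_dvd_iff_dvd_coeff _ _ |>.2 h2
    have h4 := P'.isPrimitive_primPart (d : ℤ) h3
    have h5 := Int.isUnit_iff.1 h4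
    omega
  · intro j hj
    rw [← hcoeff j hj, ← hg]
    exact P'.content_dvd_coeff j

lemma gs_prim (P P₁ : ℤ[X]) (c : ℤ) (g : ℕ) (hP : P = C c + C (g : ℤ) * P₁) (a : ℤ) (q : ℕ) :
    ‖gs P a q‖ = ‖gs P₁ (a * g) q‖ := by
  have h1 : gs P a q = ee ((a : ℝ) * c / q) * gs P₁ (a * g) q := by
    unfold gs
    rw [← mul_div_assoc, Finset.mul_sum]
    congr 1
    apply Finset.sum_congr rfl
    intro r _
    unfold ee
    rw [← Complex.exp_add]
    congr 1
    rw [hP]
    rw [eval_add, eval_mul, eval_C, eval_C]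
    push_cast
    ring
  rw [h1, norm_mul, norm_ee, one_mul]

lemma coprime_pow (a : ℤ) (p e : ℕ) (hp : p.Prime) (ha : ¬ (p : ℤ) ∣ a) :
    Int.gcd a ((p ^ e : ℕ) : ℤ) = 1 := by
  have h1 : IsCoprime a (p : ℤ) := by
    rw [isCoprime_comm]
    exact (Prime.coprime_iff_not_dvd (Nat.prime_iff_prime_int.mp hp)).2 ha
  have h2 : IsCoprime a ((p : ℤ) ^ e) := h1.pow_right
  rw [← Int.isCoprime_iff_gcd_eq_one]
  push_cast
  exact h2

lemma exists_localU (k : ℕ) (hk : 1 ≤ k) (κ : ℝ)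
    (hloc : LocalDecay k κ) :
    ∃ C0 C1 : ℝ, 1 ≤ C0 ∧ 1 ≤ C1 ∧ ∀ D : ℕ, 1 ≤ D → ∀ P : ℤ[X], P.natDegree = k →
      0 < P.leadingCoeff →
      ContentLE P D → ∀ (a : ℤ) (q : ℕ), 1 ≤ q → Int.gcd a q = 1 →
        ‖gs P a q‖ ≤ ∏ p ∈ q.primeFactors, bbfU κ C0 C1 (D + k) p (q.factorization p) := by
  obtain ⟨Cl, hCl, hl⟩ := hloc
  obtain ⟨Cd, hCd, hd⟩ := gs_decay k hk
  have hCd' : (1 : ℝ) ≤ Cd := by exact_mod_cast hCd
  have hk0 : (0 : ℝ) ≤ k := by positivity
  refine ⟨Cl + k + 2, Cd, by linarith, hCd', ?_⟩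
  set C0 : ℝ := Cl + k + 2 with hC0def
  have hC0 : 1 ≤ C0 := by rw [hC0def]; linarith
  intro D hD P hdeg hlc hcont a q hq hgcd
  have hD' : (1 : ℝ) ≤ D := by exact_mod_cast hD
  obtain ⟨g, P₁, hg1, hPP, hdeg₁, hlc₁, hcont₁, hgdvd⟩ := exists_prim P k hk hdeg hlc
  have hgD : g ≤ D := hcont g hgdvd
  refine gs_le_prod P (bbfU κ C0 Cd (D + k)) ?_ a q hq hgcd
  intro p e hp he a ha
  have hp1 : (1 : ℝ) ≤ p := by exact_mod_cast hp.one_lt.le
  unfold bbfU
  rw [if_pos ⟨hp, he⟩]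
  by_cases hpD : p ≤ D + k
  · rw [if_pos hpD]
    refine le_min (norm_gs_le_one _ _ _) ?_
    have h1 := hd P D hdeg hlc hcont hD a (p ^ e) (Nat.one_le_pow _ _ hp.pos)
      (coprime_pow a p e hp ha)
    have h2 := decay_aux _ Cd D hCd hD p e hp.one_lt.le h1
    refine h2.trans ?_
    have h3 : (p : ℝ) ^ (-((e : ℝ) / Cd)) ≤ (2 : ℝ) ^ (-((e : ℝ) / Cd)) := by
      apply Real.rpow_le_rpow_of_nonpos (by norm_num)
      · exact_mod_cast hp.two_le
      · have : 0 ≤ (e : ℝ) / Cd := by positivity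
        linarith
    push_cast
    have h4 : (2 : ℝ) * D ≤ 2 * (D + k + 1) := by linarith
    have h5 : (0 : ℝ) ≤ 2 * (D + k + 1) := by positivity
    gcongr
  · rw [if_neg hpD]
    have hpk : k < p := by omega
    have hpD' : D < p := by omega
    refine le_min (le_min (norm_gs_le_one _ _ _) ?_) ?_
    · -- decay
      rw [gs_prim P P₁ _ g hPP]
      have hag : ¬ (p : ℤ) ∣ a * g := by
        intro hdvd
        rcases (Nat.prime_iff_prime_int.mp hp).dvd_or_dvd hdvd with h | h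
        · exact ha h
        · have h2 := Int.natCast_dvd_natCast.mp h
          have h3 := Nat.le_of_dvd hg1 h2
          omega
      have h1 := hd P₁ 1 hdeg₁ hlc₁ hcont₁ le_rfl (a * g) (p ^ e) (Nat.one_le_pow _ _ hp.pos)
        (coprime_pow (a * g) p e hp hag)
      have h2 := decay_aux _ Cd 1 hCd le_rfl p e hp.one_lt.le h1
      refine h2.trans ?_
      have h5 : (0 : ℝ) ≤ (p : ℝ) ^ (-((e : ℝ) / Cd)) := by positivity
      have h6 : (2 * ((1 : ℕ) : ℝ)) ≤ C0 := by rw [hC0def]; push_cast; linarith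
      gcongr
    · have hex : ∃ j, 1 ≤ j ∧ ¬ (p : ℤ) ∣ P.coeff j := by
        by_contra hcon
        push Not at hcon
        have := hcont p hcon
        omega
      split_ifs with h1
      · subst h1
        rw [pow_one]
        refine (hl P hdeg p hp hpk hex a ha).trans ?_
        have h5 : (0 : ℝ) ≤ (p : ℝ) ^ (-κ) := by positivity
        have h6 : Cl ≤ C0 := by rw [hC0def]; linarith
        gcongr
      · obtain ⟨j, hj1, hj⟩ := hex
        have hjk : j ≤ k := by
          by_contra hcon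
          push Not at hcon
          apply hj
          rw [coeff_eq_zero_of_natDegree_lt (by omega)]
          exact dvd_zero _
        have hjp : ¬ (p : ℤ) ∣ (j : ℤ) := by
          intro hdvd
          have := Int.natCast_dvd_natCast.mp hdvd
          have := Nat.le_of_dvd (by omega) this
          omega
        have h2 := gs_prime_pow P p e hp (by omega) a ha ⟨j, by
          intro hdvd
          rcases (Nat.prime_iff_prime_int.mp hp).dvd_or_dvd hdvd with h | h
          · exact hjp h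
          · exact hj h⟩
        refine h2.trans ?_
        rw [hdeg]
        have h6 : (k : ℝ) ≤ C0 := by rw [hC0def]; linarith
        gcongr

end MainAux
end Vale.Agent.P042
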