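import Vale.Agent.P042.Window
import Vale.Agent.P042.RandomModulusU

namespace Vale.Agent.P042

open Finset Polynomial

namespace WindowAux

/-- pointwise bound of `b q` -/
lemma b_leU (κ C0 C1 C5 ell : ℝ) (hκ : 0 < κ) (hC0 : 1 ≤ C0) (bb : ℕ → ℕ → ℝ)
    (D : ℕ) (hbb : LocalMajorantU κ C0 C1 D bb) (hC5 : 0 < C5 * ell)
    (hDy0 : (D : ℝ) < (C5 * ell) ^ (1 / κ)) (V Q : ℕ) (w : ℕ → ℝ)
    (hrm : ∀ (q : ℕ) (R : Finset ℕ), 1 ≤ q → (∀ p ∈ R, p.Prime ∧ (C5 * ell) ^ (1 / κ) < (p : ℝ) ∧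
          ¬ p ∣ q) → q * ∏ p ∈ R, p ≤ Q →
          (∀ p ∈ q.primeFactors, (C5 * ell) ^ (1 / κ) < (p : ℝ) → 2 ≤ q.factorization p) →
          ∏ p ∈ q.primeFactors, bb p (q.factorization p)
            ≤ 2 * ∑ v ∈ (Finset.Icc 1 V).filter (fun v => q ∣ v ∧ ∀ p ∈ R, ¬ p ∣ v), w v)
    (q : ℕ) (hq1 : 1 ≤ q) (hqQ : q ≤ Q) :
    ∏ p ∈ q.primeFactors, bb p (q.factorization p) ≤
      (2 * ∑ v ∈ (Finset.Icc 1 V).filter (fun v => q1 ((C5 * ell) ^ (1 / κ)) q ∣ v ∧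
        ∀ p ∈ Rq ((C5 * ell) ^ (1 / κ)) q, ¬ p ∣ v), w v) *
      (C0 / (C5 * ell)) ^ (Rq ((C5 * ell) ^ (1 / κ)) q).card := by
  set y0 := (C5 * ell) ^ (1 / κ) with hy0
  have hq0 : q ≠ 0 := by omega
  rw [prod_split y0 q hq0]
  have h1 := hrm (q1 y0 q) (Rq y0 q) (Nat.one_le_iff_ne_zero.2 (q1_ne y0 q hq0))
    (fun p hp => by
      refine ⟨Nat.prime_of_mem_primeFactors (Rq_sub y0 q hp), ?_, not_dvd_q1 y0 q hq0 p hp⟩
      unfold Rq at hp
      rw [Finset.mem_filter] at hp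
      exact hp.2.1)
    (by rw [q1_mul]; exact hqQ)
    (fun p hp hpy => two_le_fact y0 q hq0 p hp hpy)
  have h2 : ∏ p ∈ Rq y0 q, bb p 1 ≤ (C0 / (C5 * ell)) ^ (Rq y0 q).card := by
    rw [← Finset.prod_const]
    apply Finset.prod_le_prod
    · intro p _; exact hbb.nonneg _ _
    · intro p hp
      have hpp := Nat.prime_of_mem_primeFactors (Rq_sub y0 q hp)
      have hp' := hp
      unfold Rq at hp
      rw [Finset.mem_filter] at hp
      have hDp : D < p := by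
        have : (D : ℝ) < p := lt_trans hDy0 hp.2.1
        exact_mod_cast this
      refine (hbb.one p hpp hDp).trans ?_
      have h3 : C5 * ell ≤ (p : ℝ) ^ κ := by
        calc C5 * ell = ((C5 * ell) ^ (1 / κ)) ^ κ := by
              rw [← Real.rpow_mul hC5.le, one_div, inv_mul_cancel₀ hκ.ne', Real.rpow_one]
          _ ≤ (p : ℝ) ^ κ := by
              apply Real.rpow_le_rpow (by positivity) hp.2.1.le hκ.le
      rw [Real.rpow_neg (by positivity), div_eq_mul_inv]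
      gcongr
  have h4 : 0 ≤ ∏ p ∈ (q1 y0 q).primeFactors, bb p ((q1 y0 q).factorization p) :=
    Finset.prod_nonneg (fun p _ => hbb.nonneg _ _)
  have h5 : 0 ≤ ∏ p ∈ Rq y0 q, bb p 1 := Finset.prod_nonneg (fun p _ => hbb.nonneg _ _)
  exact mul_le_mul h1 h2 h5 (h4.trans h1)

end WindowAux

open WindowAux in
set_option maxHeartbeats 1000000 in
theorem window_unif (κ C0 C1 C2 η : ℝ) (hκ : 0 < κ) (hκ2 : κ ≤ 1 / 2) (hC0 : 1 ≤ C0) (hC1 : 1 ≤ C1)
    (hC2 : 1 ≤ C2) (hη : 0 < η) (hη1 : η ≤ 1 / 1000) :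
    ∃ C3 : ℝ, 1 ≤ C3 ∧ ∀ D : ℕ, ∃ ell0 : ℝ, ∀ (N : ℕ) (A : Finset ℤ) (α l : ℝ) (V L J Q : ℕ)
      (b : ℕ → ℝ) (bb : ℕ → ℕ → ℝ),
      A ⊆ Finset.Icc 1 (N : ℤ) → (A.card : ℝ) = α * N → 0 < α → α ≤ 1 →
      ell0 ≤ l → Real.log (2 / α) ≤ l →
      Regular A V L ((1 + η) * α) →
      Real.exp (C3 * l ^ ((1 - κ) / κ)) ≤ V →
      (Q : ℝ) ≤ Real.exp (C2 * l) →
      1 ≤ L → C3 * V * L ≤ J → (V : ℝ) * Real.exp (C3 * l ^ 2) ≤ J →
      (J : ℝ) ≤ η * N → LocalMajorantU κ C0 C1 D bb →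
      (∀ q, 1 ≤ q → b q = ∏ p ∈ q.primeFactors, bb p (q.factorization p)) →
      ∑ y ∈ Finset.Ioo (-(J : ℤ)) N, ∑ q ∈ Finset.Icc 2 Q, b q * EN A y J q
        ≤ 20 * η * α ^ 2 * N := by
  set C5 : ℝ := 6000 * C0 * C2 / η with hC5def
  have hC5 : 20 * C0 * C2 ≤ C5 := by
    rw [hC5def, le_div_iff₀ hη]
    have h1 : 0 < C0 * C2 := by positivity
    calc 20 * C0 * C2 * η ≤ 20 * C0 * C2 * 1 := by gcongr; linarith
      _ ≤ 6000 * C0 * C2 := by linarith
  have hC5pos : 0 < C5 := by positivity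
  obtain ⟨C3', hC3', hrm⟩ := random_modulus_unif κ C0 C1 C2 C5 hκ hκ2 hC0 hC1 hC2 hC5
  set s : ℝ := (1 - κ) / κ with hs
  have hs1 : 1 ≤ s := by
    rw [hs, le_div_iff₀ hκ]; linarith
  set K : ℝ := 2 ^ s with hK
  have hK1 : 1 ≤ K := Real.one_le_rpow (by norm_num) (by linarith)
  refine ⟨C3' + K + C2 * K + 1 / η + 200 + 90 * C2, ?_, ?_⟩
  · have h1 : 0 < 1 / η := by positivity
    have h2 : 0 < C2 * K := by positivity
    linarith
  set C3 : ℝ := C3' + K + C2 * K + 1 / η + 200 + 90 * C2 with hC3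
  have hηinv : 0 < 1 / η := by positivity
  have hC2K : 0 < C2 * K := by positivity
  have hC3pos : 0 < C3 := by rw [hC3]; linarith
  intro D
  obtain ⟨ell0, hrm⟩ := hrm D
  refine ⟨max ell0 D, ?_⟩
  intro N A α l V L J Q b bb hA hcard hα hα1 hell0 hαl hreg hV hQ hL hVLJ hVJ2 hJN hbb hb
  have hell0' : ell0 ≤ l := (le_max_left _ _).trans hell0
  have hDl : (D : ℝ) ≤ l := (le_max_right _ _).trans hell0
  have hlog2 : Real.log 2 ≤ l := by
    refine le_trans ?_ hαl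
    apply Real.log_le_log (by norm_num)
    rw [le_div_iff₀ hα]; linarith
  have hl2 : 1 / 2 ≤ l := by
    have := Real.log_two_gt_d9
    linarith
  have hl0 : 0 < l := by linarith
  have hexpl : 2 / α ≤ Real.exp l := by
    rw [← Real.log_le_iff_le_exp (by positivity)]; exact hαl
  have hDy0 : (D : ℝ) < (C5 * l) ^ (1 / κ) := by
    have hC52 : 2 ≤ C5 := by
      have : 1 ≤ C0 * C2 := one_le_mul_of_one_le_of_one_le hC0 hC2
      linarith
    have h1 : 1 ≤ C5 * l := by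
      calc (1 : ℝ) = 2 * (1 / 2) := by norm_num
        _ ≤ C5 * l := mul_le_mul hC52 hl2 (by norm_num) (by linarith)
    calc (D : ℝ) ≤ l := hDl
      _ < 2 * l := by linarith
      _ ≤ C5 * l := by gcongr
      _ = (C5 * l) ^ (1 : ℝ) := (Real.rpow_one _).symm
      _ ≤ (C5 * l) ^ (1 / κ) := by
        apply Real.rpow_le_rpow_of_exponent_le h1
        rw [le_div_iff₀ hκ]; linarith
  have h2l : 1 ≤ 2 * l := by linarith
  have hKl : (2 * l) ^ s ≤ K * l ^ s := by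
    rw [Real.mul_rpow (by norm_num) hl0.le]
  have h1K : 1 ≤ K * l ^ s := (Real.one_le_rpow h2l (by linarith)).trans hKl
  have hlK : l ≤ K * l ^ s := by
    refine le_trans ?_ hKl
    calc l ≤ 2 * l := by linarith
      _ = (2 * l) ^ (1 : ℝ) := (Real.rpow_one _).symm
      _ ≤ (2 * l) ^ s := Real.rpow_le_rpow_of_exponent_le h2l hs1
  have hls0 : 0 ≤ l ^ s := by positivity
  -- `V1`
  set V1 : ℕ := ⌈Real.exp (C3' * l ^ s)⌉₊ with hV1
  have hV1a : Real.exp (C3' * l ^ s) ≤ V1 := Nat.le_ceil _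
  have hV1b : (V1 : ℝ) ≤ 2 * Real.exp (C3' * l ^ s) := by
    have h1 := (Nat.ceil_lt_add_one (Real.exp_pos (C3' * l ^ s)).le).le
    have h2 : 1 ≤ Real.exp (C3' * l ^ s) := Real.one_le_exp (by positivity)
    linarith
  obtain ⟨w, hw0, hw1, hw⟩ := hrm l V1 Q bb hell0' hl2 hQ hV1a hbb
  have hV1Q : (V1 : ℝ) * Q ≤ V := by
    refine le_trans ?_ hV
    have h2 : (2 : ℝ) ≤ Real.exp (K * l ^ s) := by
      have := Real.add_one_le_exp (K * l ^ s)
      linarith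
    have h3 : (Q : ℝ) ≤ Real.exp (C2 * (K * l ^ s)) := by
      refine hQ.trans (Real.exp_le_exp.2 ?_)
      gcongr
    calc (V1 : ℝ) * Q ≤ (2 * Real.exp (C3' * l ^ s)) * Real.exp (C2 * (K * l ^ s)) := by gcongr
      _ ≤ (Real.exp (K * l ^ s) * Real.exp (C3' * l ^ s)) * Real.exp (C2 * (K * l ^ s)) := by
          gcongr
      _ = Real.exp ((C3' + K + C2 * K) * l ^ s) := by
          rw [← Real.exp_add, ← Real.exp_add]; congr 1; ring
      _ ≤ Real.exp (C3 * l ^ s) := by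
          apply Real.exp_le_exp.2
          have : C3' + K + C2 * K ≤ C3 := by rw [hC3]; linarith
          gcongr
  have hV1Qn : V1 * Q ≤ V := by exact_mod_cast hV1Q
  have hLR : (1 : ℝ) ≤ L := by exact_mod_cast hL
  have hVnn : (0 : ℝ) ≤ V := by positivity
  have hC3η : 1 / η ≤ C3 := by rw [hC3]; linarith
  have hVJ : (V : ℝ) ≤ η * J := by
    have h1 : (1 / η) * V * 1 ≤ C3 * V * L := by gcongr
    have h2 : (1 / η) * V ≤ J := by linarith
    have h3 : η * ((1 / η) * V) ≤ η * J := by gcongr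
    have h4 : η * ((1 / η) * V) = V := by field_simp
    linarith
  have hC31 : 1 ≤ C3 := by rw [hC3]; linarith
  have hVL : V * L ≤ J := by
    have h1 : (1 : ℝ) * V * L ≤ C3 * V * L := by gcongr
    have h2 : ((V * L : ℕ) : ℝ) ≤ J := by push_cast; linarith
    exact_mod_cast h2
  -- `m`
  set m : ℕ := ⌈l⌉₊ + 2 with hm
  have hm1 : l ≤ m := by
    rw [hm]; push_cast
    have := Nat.le_ceil l
    linarith
  have hm2 : (m : ℝ) ≤ 7 * l := by
    rw [hm]; push_cast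
    have := (Nat.ceil_lt_add_one hl0.le).le
    linarith
  have hmα : Real.exp (-(m : ℝ)) ≤ α := by
    have h1 : Real.exp (-(m : ℝ)) ≤ Real.exp (-l) := Real.exp_le_exp.2 (by linarith)
    have h2 : Real.exp (-l) ≤ α / 2 := by
      rw [Real.exp_neg, inv_le_comm₀ (Real.exp_pos _) (by positivity)]
      refine le_trans (le_of_eq ?_) hexpl
      field_simp
    linarith
  set t : ℝ := C0 / (C5 * l) with ht
  have ht0 : 0 ≤ t := by positivity
  set K' : ℝ := 200 * (m : ℝ) with hK'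
  have htK : t * K' ≤ η / 4 := by
    have h1 : t * K' ≤ C0 / (C5 * l) * (200 * (7 * l)) := by rw [ht, hK']; gcongr
    refine h1.trans ?_
    have h2 : C0 / (C5 * l) * (200 * (7 * l)) = 1400 * C0 / C5 := by field_simp; ring
    rw [h2, hC5def, div_le_iff₀ (by positivity)]
    have h3 : η / 4 * (6000 * C0 * C2 / η) = 1500 * (C0 * C2) := by field_simp; ring
    rw [h3]
    have h4 : C0 * 1 ≤ C0 * C2 := by gcongr
    linarith
  have htK2 : t * K' ≤ 1 / 2 := by linarith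
  have htK0 : 0 ≤ t * K' := by positivity
  set B : ℝ := ((1 + η) ^ 2 * α) ^ 2 with hB
  have hB0 : 0 ≤ B := by positivity
  have hBle : B ≤ 1.01 * α ^ 2 := by
    rw [hB, mul_pow]
    have h1 : ((1 + η) ^ 2) ^ 2 ≤ 1.01 := by
      have : ((1 + η) ^ 2) ^ 2 ≤ ((1 + 1 / 1000) ^ 2) ^ 2 := by gcongr
      refine this.trans ?_
      norm_num
    gcongr
  have hN0 : (0 : ℝ) ≤ N := by positivity
  -- the bound for fixed `v`
  have hfix : ∀ v ∈ Finset.Icc 1 V1, ∑ y ∈ Finset.Ioo (-(J : ℤ)) N,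
      ∑ q ∈ (Finset.Icc 2 Q).filter (fun q => q1 ((C5 * l) ^ (1 / κ)) q ∣ v ∧
        ∀ p ∈ Rq ((C5 * l) ^ (1 / κ)) q, ¬ p ∣ v),
        t ^ (Rq ((C5 * l) ^ (1 / κ)) q).card * EN A y J q ≤ 6 * η * α ^ 2 * N := by
    intro v hv
    rw [Finset.mem_Icc] at hv
    rcases Nat.eq_zero_or_pos Q with hQ0 | hQpos
    · subst hQ0
      have : ∀ y ∈ Finset.Ioo (-(J : ℤ)) N,
        ∑ q ∈ (Finset.Icc 2 0).filter (fun q => q1 ((C5 * l) ^ (1 / κ)) q ∣ v ∧
        ∀ p ∈ Rq ((C5 * l) ^ (1 / κ)) q, ¬ p ∣ v),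
        t ^ (Rq ((C5 * l) ^ (1 / κ)) q).card * EN A y J q = 0 := by
        intro y _
        simp
      rw [Finset.sum_congr rfl this]
      simp; positivity
    have hvQV : v * Q ≤ V := (Nat.mul_le_mul_right Q hv.2).trans hV1Qn
    have hvV : v ≤ V := (Nat.le_mul_of_pos_right v hQpos).trans hvQV
    have hvVR : (v : ℝ) ≤ V := by exact_mod_cast hvV
    have hJbig : (8 : ℝ) * v * (Q : ℝ) ^ (10 * m + 10) * Real.exp (10 * (m : ℝ) + 10) ≤ J := by
      refine le_trans ?_ hVJ2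
      have h10 : 10 * (m : ℝ) + 10 ≤ 90 * l := by linarith
      have h1 : (Q : ℝ) ^ (10 * m + 10) ≤ Real.exp (90 * C2 * l ^ 2) := by
        calc (Q : ℝ) ^ (10 * m + 10) ≤ Real.exp (C2 * l) ^ (10 * m + 10) := by gcongr
          _ = Real.exp ((10 * m + 10) * (C2 * l)) := by
              rw [← Real.exp_nat_mul]; push_cast; ring_nf
          _ ≤ Real.exp (90 * C2 * l ^ 2) := by
              apply Real.exp_le_exp.2
              calc (10 * (m : ℝ) + 10) * (C2 * l) ≤ (90 * l) * (C2 * l) := by gcongr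
                _ = _ := by ring
      have h2 : (8 : ℝ) ≤ Real.exp (20 * l ^ 2) := by
        have h3 : (1 : ℝ) / 4 ≤ l ^ 2 := by
          calc (1 : ℝ) / 4 = (1 / 2) ^ 2 := by norm_num
            _ ≤ l ^ 2 := by gcongr
        have h5 : (8 : ℝ) ≤ Real.exp 3 := by
          have h8 : (2 : ℝ) ≤ Real.exp 1 := by
            have := Real.add_one_le_exp (1 : ℝ); linarith
          calc (8 : ℝ) = 2 ^ 3 := by norm_num
            _ ≤ Real.exp 1 ^ 3 := by gcongr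
            _ = Real.exp 3 := by rw [← Real.exp_nat_mul]; norm_num
        refine h5.trans (Real.exp_le_exp.2 ?_)
        linarith
      have h3 : Real.exp (10 * (m : ℝ) + 10) ≤ Real.exp (180 * l ^ 2) := by
        apply Real.exp_le_exp.2
        have h4 : l * 1 ≤ l * (2 * l) := by gcongr
        have h5 : l * (2 * l) = 2 * l ^ 2 := by ring
        linarith
      calc (8 : ℝ) * v * (Q : ℝ) ^ (10 * m + 10) * Real.exp (10 * (m : ℝ) + 10)
          ≤ Real.exp (20 * l ^ 2) * V * Real.exp (90 * C2 * l ^ 2) * Real.exp (180 * l ^ 2) := by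
            gcongr
        _ = V * Real.exp ((200 + 90 * C2) * l ^ 2) := by
            rw [show (200 + 90 * C2) * l ^ 2 = 20 * l ^ 2 + 90 * C2 * l ^ 2 + 180 * l ^ 2 by ring,
              Real.exp_add, Real.exp_add]
            ring
        _ ≤ V * Real.exp (C3 * l ^ 2) := by
            have h6 : 200 + 90 * C2 ≤ C3 := by rw [hC3]; linarith
            have h7 : 0 ≤ l ^ 2 := by positivity
            gcongr
    have h1 : ∀ y ∈ Finset.Ioo (-(J : ℤ)) N,
        ∑ q ∈ (Finset.Icc 2 Q).filter (fun q => q1 ((C5 * l) ^ (1 / κ)) q ∣ v ∧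
        ∀ p ∈ Rq ((C5 * l) ^ (1 / κ)) q, ¬ p ∣ v),
        t ^ (Rq ((C5 * l) ^ (1 / κ)) q).card * EN A y J q
        ≤ ∑ q ∈ v.divisors.erase 1, EN A y J q + 2 * (t * K') * B := by
      intro y _
      refine sum_fixed_v A y J Q v hv.1 _ t B K' ht0 hB0 (by positivity) ?_ htK2
      intro Ps hP hPv d hd
      exact window_level N A V L J Q m α η hA hα hα1 hη hη1 hreg hVJ hVL (by omega) hmα hQpos v
        hv.1 hvQV hJbig Ps hP hPv d hd y
    have h2 := window_small N A V L J α η hA hcard hα hα1 hη hη1 hreg hVJ hVL hJN v hv.1 hvV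
    have h3 : ((Finset.Ioo (-(J : ℤ)) N).card : ℝ) ≤ 1.001 * N := by
      rw [Int.card_Ioo]
      have h4 : (((N : ℤ) - -(J : ℤ) - 1).toNat : ℕ) ≤ N + J := by omega
      have h5 : ((((N : ℤ) - -(J : ℤ) - 1).toNat : ℕ) : ℝ) ≤ ((N + J : ℕ) : ℝ) := by
        exact_mod_cast h4
      refine h5.trans ?_
      push_cast
      have h6 : η * N ≤ 1 / 1000 * N := by gcongr
      linarith
    calc _ ≤ ∑ y ∈ Finset.Ioo (-(J : ℤ)) N,
          (∑ q ∈ v.divisors.erase 1, EN A y J q + 2 * (t * K') * B) := Finset.sum_le_sum h1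
      _ = ∑ y ∈ Finset.Ioo (-(J : ℤ)) N, ∑ q ∈ v.divisors.erase 1, EN A y J q
          + ((Finset.Ioo (-(J : ℤ)) N).card : ℝ) * (2 * (t * K') * B) := by
          rw [Finset.sum_add_distrib, Finset.sum_const, nsmul_eq_mul]
      _ ≤ 4 * η * α ^ 2 * N + (1.001 * N) * (2 * (η / 4) * (1.01 * α ^ 2)) := by gcongr
      _ ≤ 6 * η * α ^ 2 * N := by
          have h7 : 0 ≤ η * α ^ 2 * N := by positivity
          have h8 : (1.001 * N) * (2 * (η / 4) * (1.01 * α ^ 2)) = 0.505505 * (η * α ^ 2 * N) := by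
            ring
          rw [h8]; linarith
  -- sum over `v`
  have hpt : ∀ y ∈ Finset.Ioo (-(J : ℤ)) N, ∑ q ∈ Finset.Icc 2 Q, b q * EN A y J q ≤
      ∑ v ∈ Finset.Icc 1 V1, 2 * w v *
        ∑ q ∈ (Finset.Icc 2 Q).filter (fun q => q1 ((C5 * l) ^ (1 / κ)) q ∣ v ∧
        ∀ p ∈ Rq ((C5 * l) ^ (1 / κ)) q, ¬ p ∣ v),
        t ^ (Rq ((C5 * l) ^ (1 / κ)) q).card * EN A y J q := by
    intro y _
    calc ∑ q ∈ Finset.Icc 2 Q, b q * EN A y J q
        ≤ ∑ q ∈ Finset.Icc 2 Q, ∑ v ∈ Finset.Icc 1 V1,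
          (if q1 ((C5 * l) ^ (1 / κ)) q ∣ v ∧ ∀ p ∈ Rq ((C5 * l) ^ (1 / κ)) q, ¬ p ∣ v
            then 2 * w v * (t ^ (Rq ((C5 * l) ^ (1 / κ)) q).card * EN A y J q) else 0) := by
          apply Finset.sum_le_sum
          intro q hq
          rw [Finset.mem_Icc] at hq
          rw [hb q (by omega)]
          have h1 := b_leU κ C0 C1 C5 l hκ hC0 bb D hbb (by positivity) hDy0 V1 Q w hw q (by omega) hq.2
          have h2 := EN_nonneg A y J q
          refine (mul_le_mul_of_nonneg_right h1 h2).trans (le_of_eq ?_)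
          rw [← Finset.sum_filter, Finset.mul_sum, Finset.sum_mul, Finset.sum_mul]
          apply Finset.sum_congr rfl
          intro v _
          rw [ht]; ring
      _ = _ := by
          rw [Finset.sum_comm]
          apply Finset.sum_congr rfl
          intro v _
          rw [Finset.mul_sum, Finset.sum_filter]
  calc ∑ y ∈ Finset.Ioo (-(J : ℤ)) N, ∑ q ∈ Finset.Icc 2 Q, b q * EN A y J q
      ≤ ∑ y ∈ Finset.Ioo (-(J : ℤ)) N, ∑ v ∈ Finset.Icc 1 V1, 2 * w v *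
        ∑ q ∈ (Finset.Icc 2 Q).filter (fun q => q1 ((C5 * l) ^ (1 / κ)) q ∣ v ∧
        ∀ p ∈ Rq ((C5 * l) ^ (1 / κ)) q, ¬ p ∣ v),
        t ^ (Rq ((C5 * l) ^ (1 / κ)) q).card * EN A y J q := Finset.sum_le_sum hpt
    _ = ∑ v ∈ Finset.Icc 1 V1, 2 * w v * ∑ y ∈ Finset.Ioo (-(J : ℤ)) N,
        ∑ q ∈ (Finset.Icc 2 Q).filter (fun q => q1 ((C5 * l) ^ (1 / κ)) q ∣ v ∧
        ∀ p ∈ Rq ((C5 * l) ^ (1 / κ)) q, ¬ p ∣ v),
        t ^ (Rq ((C5 * l) ^ (1 / κ)) q).card * EN A y J q := by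
        rw [Finset.sum_comm]
        apply Finset.sum_congr rfl
        intro v _
        rw [Finset.mul_sum]
    _ ≤ ∑ v ∈ Finset.Icc 1 V1, 2 * w v * (6 * η * α ^ 2 * N) := by
        apply Finset.sum_le_sum
        intro v hv
        have := hw0 v
        have := hfix v hv
        gcongr
    _ = (∑ v ∈ Finset.Icc 1 V1, w v) * (12 * η * α ^ 2 * N) := by
        rw [Finset.sum_mul]
        apply Finset.sum_congr rfl
        intro v _
        ring
    _ ≤ 1 * (12 * η * α ^ 2 * N) := by gcongr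
    _ ≤ 20 * η * α ^ 2 * N := by
        have : 0 ≤ η * α ^ 2 * N := by positivity
        linarith

end Vale.Agent.P042
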