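import Vale.Agent.P042.Main
import Vale.Agent.P042.MainStepU
import Vale.Agent.P042.MainIterU

namespace Vale.Agent.P042

open Finset Polynomial

theorem main_boundU (k : ℕ) (hk : 2 ≤ k) (κ : ℝ) (hκ : 0 < κ) (hκ2 : κ ≤ 1 / 2)
    (hloc : LocalDecay k κ) :
    ∃ c : ℝ, 0 < c ∧ ∀ h : ℤ[X], Intersective h → h.natDegree = k → 0 < h.leadingCoeff →
      ∃ C : ℝ, 0 < C ∧ ∀ N : ℕ, 1 ≤ N →
      (rh h N : ℝ) ≤ C * N * Real.exp (-c * (Real.log N) ^ κ) := by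
  obtain ⟨C3, C4, hC3, hC4, hnr⟩ := MainAux.not_regularU k hk κ hκ hκ2 hloc
  obtain ⟨C5, hC5, hsize⟩ := MainAux.size_boundU κ hκ hκ2 C3 hC3 (C4 + k + 1)
  refine ⟨(1 / C5) ^ κ, by positivity, ?_⟩
  intro h hint hdeg hlc
  obtain ⟨H, lam, Ch, hCh, hH1, hlam, hrec, hH⟩ := exists_aux h hint (by omega) hlc
  rw [hdeg] at hlam hH
  obtain ⟨ell0, hnr⟩ := hnr Ch hCh
  have hstep := MainAux.step_of_not_regularU ell0 k (by omega) κ H lam hlam hrec C3 C4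
    (fun u N V A α ell hu hell0 hA hcard hα hα1 hav hell hV1 hV2 hN => by
      obtain ⟨h1, h2, h3, h4, h5, h6⟩ := hH u hu
      exact hnr (H u) u N V A α ell hu hell0 h1 h2 h3 h4 h5 h6 hA hcard hα hα1 hav hell hV1 hV2
        hN)
  have hs := hsize H ell0 hstep
  rw [hH1] at hs
  exact MainAux.rh_boundU h κ hκ C5 hC5 ell0 hs

/-- Green-Sawhney strength for all intersective polynomials, with `c` depending only on the
degree. -/
theorem intersective_bound_unif (k : ℕ) (hk : 2 ≤ k) :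
    ∃ c : ℝ, 0 < c ∧ ∀ h : ℤ[X], Intersective h → h.natDegree = k → 0 < h.leadingCoeff →
      ∃ C : ℝ, 0 < C ∧ ∀ N : ℕ, 1 ≤ N →
      (rh h N : ℝ) ≤ C * N * Real.exp (-c * Real.sqrt (Real.log N)) := by
  obtain ⟨c, hc, h1⟩ := main_boundU k hk (1 / 2) (by norm_num) le_rfl
    (localDecay_weil k (by omega))
  refine ⟨c, hc, fun h hint hdeg hlc => ?_⟩
  obtain ⟨C, hC, h2⟩ := h1 h hint hdeg hlc
  refine ⟨C, hC, fun N hN => ?_⟩
  rw [Real.sqrt_eq_rpow]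
  exact h2 N hN

end Vale.Agent.P042
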