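import Vale.Agent.P042.Defs

/-! Module C of P042: inverse theorem for Weyl sums with polynomial dependence. -/

namespace Vale.Agent.P042

open Finset

namespace WeylAux

/-! ### basic facts on `ee` -/

theorem ee_add (x y : ℝ) : ee (x + y) = ee x * ee y := by
  unfold ee
  rw [← Complex.exp_add]
  congr 1
  push_cast
  ring

theorem norm_ee (x : ℝ) : ‖ee x‖ = 1 := by
  unfold ee
  exact Complex.norm_exp_ofReal_mul_I _

theorem ee_int (z : ℤ) : ee z = 1 := by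
  unfold ee
  rw [Complex.exp_eq_one_iff]
  exact ⟨z, by push_cast; ring⟩

theorem ee_zero : ee 0 = 1 := by
  have := ee_int 0
  simpa using this

theorem conj_ee (x : ℝ) : (starRingEnd ℂ) (ee x) = ee (-x) := by
  unfold ee
  rw [← Complex.exp_conj]
  congr 1
  rw [map_mul, Complex.conj_ofReal, Complex.conj_I]
  push_cast
  ring

theorem ee_add_int (x : ℝ) (z : ℤ) : ee (x + z) = ee x := by
  rw [ee_add, ee_int, mul_one]

theorem norm_ee_sub_one (x : ℝ) : ‖ee x - 1‖ = 2 * |Real.sin (Real.pi * x)| := by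
  unfold ee
  have := Complex.norm_exp_I_mul_ofReal_sub_one (2 * Real.pi * x)
  rw [mul_comm Complex.I] at this
  rw [this, Real.norm_eq_abs, abs_mul, abs_two]
  congr 3
  ring

theorem norm_ee_sub_one_le (x : ℝ) : ‖ee x - 1‖ ≤ 2 * Real.pi * |x| := by
  rw [norm_ee_sub_one]
  have h := Real.abs_sin_le_abs (x := Real.pi * x)
  rw [abs_mul, abs_of_pos Real.pi_pos] at h
  nlinarith

theorem norm_ee_sub_le (x y : ℝ) : ‖ee x - ee y‖ ≤ 2 * Real.pi * |x - y| := by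
  have h : ee x - ee y = ee y * (ee (x - y) - 1) := by
    rw [mul_sub, ← ee_add, mul_one]
    congr 2
    ring
  rw [h, norm_mul, norm_ee, one_mul]
  exact norm_ee_sub_one_le _

/-- `‖e(x) - 1‖ ≥ 4 ‖x‖` -/
theorem le_norm_ee_sub_one (x : ℝ) : 4 * |x - round x| ≤ ‖ee x - 1‖ := by
  have h1 : ee x = ee (x - round x) := by
    have := ee_add_int (x - round x) (round x)
    rw [sub_add_cancel] at this
    exact this
  rw [h1, norm_ee_sub_one]
  set y := x - round x with hy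
  have hy2 : |y| ≤ 1 / 2 := abs_sub_round x
  have h2 : |Real.sin (Real.pi * y)| = Real.sin (Real.pi * |y|) := by
    rcases le_total 0 y with h | h
    · rw [abs_of_nonneg h, abs_of_nonneg]
      refine Real.sin_nonneg_of_nonneg_of_le_pi (by positivity) ?_
      rw [abs_of_nonneg h] at hy2
      nlinarith [Real.pi_pos]
    · rw [abs_of_nonpos h, mul_neg, Real.sin_neg, abs_of_nonpos]
      rw [abs_of_nonpos h] at hy2
      have : 0 ≤ Real.sin (Real.pi * -y) := by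
        refine Real.sin_nonneg_of_nonneg_of_le_pi ?_ ?_
        · nlinarith [Real.pi_pos]
        · nlinarith [Real.pi_pos]
      rw [mul_neg, Real.sin_neg] at this
      linarith
  rw [h2]
  have h3 := Real.mul_le_sin (x := Real.pi * |y|) (by positivity)
    (by nlinarith [Real.pi_pos])
  have h4 : 2 / Real.pi * (Real.pi * |y|) = 2 * |y| := by
    field_simp
  rw [h4] at h3
  linarith

/-- geometric sums -/
theorem geom (α : ℝ) (L : ℕ) :
    ‖∑ m ∈ range L, ee (α * m)‖ * (2 * |α - round α|) ≤ 1 := by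
  have h1 : ∀ m : ℕ, ee (α * m) = ee α ^ m := by
    intro m
    induction m with
    | zero => simp [ee_zero]
    | succ m ih =>
      rw [pow_succ, ← ih, ← ee_add]
      congr 1
      push_cast
      ring
  have h2 : (∑ m ∈ range L, ee (α * m)) * (ee α - 1) = ee α ^ L - 1 := by
    simp_rw [h1]
    exact geom_sum_mul _ _
  have h3 : ‖∑ m ∈ range L, ee (α * m)‖ * ‖ee α - 1‖ ≤ 2 := by
    rw [← norm_mul, h2]
    refine (norm_sub_le _ _).trans ?_
    rw [norm_pow, norm_ee, one_pow, norm_one]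
    norm_num
  have h4 := mul_le_mul_of_nonneg_left (le_norm_ee_sub_one α)
    (norm_nonneg (∑ m ∈ range L, ee (α * m)))
  linarith

/-! ### Vinogradov's lemma -/

theorem diff_lemma (H : Finset ℕ) (M w S : ℕ) (hH : ∀ h ∈ H, h < M)
    (hc : M + w * S < S * H.card) :
    ∃ r, 1 ≤ r ∧ r < S ∧ ∃ h ∈ H, ∃ h' ∈ H, h' = h + w * r := by
  classical
  have h1 : (range (M + w * S)).card < (range S ×ˢ H).card := by
    rw [card_product, card_range, card_range]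
    exact hc
  obtain ⟨x, hx, y, hy, hxy, hf⟩ := Finset.exists_ne_map_eq_of_card_lt_of_maps_to h1
    (f := fun p : ℕ × ℕ => p.2 + w * p.1) (by
      rintro ⟨s, h⟩ hp
      rw [coe_product, Set.mem_prod, mem_coe, mem_coe, mem_range] at hp
      rw [mem_coe, mem_range]
      have h2 := hH h hp.2
      have h3 : w * s ≤ w * S := Nat.mul_le_mul_left _ hp.1.le
      show h + w * s < M + w * S
      omega)
  obtain ⟨s, h⟩ := x
  obtain ⟨s', h'⟩ := y
  rw [mem_product, mem_range] at hx hy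
  simp only at hx hy hf
  rcases lt_trichotomy s s' with hs | hs | hs
  · refine ⟨s' - s, by omega, by omega, h', hy.2, h, hx.2, ?_⟩
    have : w * s' = w * s + w * (s' - s) := by rw [← Nat.mul_add]; congr 1; omega
    omega
  · exfalso
    subst hs
    apply hxy
    have : h = h' := by omega
    rw [this]
  · refine ⟨s - s', by omega, by omega, h, hx.2, h', hy.2, ?_⟩
    have : w * s = w * s' + w * (s - s') := by rw [← Nat.mul_add]; congr 1; omega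
    omega

theorem vinogradov (θ ε E : ℝ) (M S : ℕ) (H : Finset ℕ) (hH : ∀ h ∈ H, h < M) (hE : 1 ≤ E)
    (hS : 2 * E ≤ S) (hcard : (M : ℝ) / E ≤ H.card) (hε0 : 0 ≤ ε) (hε : 8 * S * ε ≤ 1)
    (hM : 4 * E * S ≤ M) (hθ : ∀ h ∈ H, ∃ z : ℤ, |θ * h - z| ≤ ε) :
    ∃ q : ℕ, 1 ≤ q ∧ q < S ∧ ∃ z : ℤ, |q * θ - z| ≤ 8 * E * S * ε / M := by
  have hE0 : 0 < E := by linarith
  have hS0 : (0 : ℝ) < S := by linarith
  have hM0 : (0 : ℝ) < M := lt_of_lt_of_le (by positivity) hM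
  have hSH : (S : ℝ) * (M / E) ≤ S * H.card := mul_le_mul_of_nonneg_left hcard hS0.le
  have hSM : (M : ℝ) + S * M / (2 * E) ≤ S * (M / E) := by
    have : (M : ℝ) ≤ S * M / (2 * E) := by
      rw [le_div_iff₀ (by positivity)]
      nlinarith
    have h2 : (S : ℝ) * (M / E) = S * M / (2 * E) + S * M / (2 * E) := by
      field_simp; ring
    linarith
  -- first step
  have h1 : M + 1 * S < S * H.card := by
    have h2 : ((M + 1 * S : ℕ) : ℝ) < ((S * H.card : ℕ) : ℝ) := by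
      push_cast
      have h3 : (1 : ℝ) * S < S * M / (2 * E) := by
        rw [lt_div_iff₀ (by positivity)]
        nlinarith
      linarith
    exact_mod_cast h2
  obtain ⟨q, hq1, hqS, h, hh, h', hh', hhq⟩ := diff_lemma H M 1 S hH h1
  obtain ⟨z1, hz1⟩ := hθ h hh
  obtain ⟨z2, hz2⟩ := hθ h' hh'
  set z : ℤ := z2 - z1 with hz
  set η : ℝ := q * θ - z with hη
  have hη2 : |η| ≤ 2 * ε := by
    have e1 : η = (θ * h' - z2) - (θ * h - z1) := by
      rw [hη, hhq, hz]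
      push_cast
      ring
    rw [e1]
    refine (abs_sub _ _).trans ?_
    linarith
  refine ⟨q, hq1, hqS, z, ?_⟩
  rw [← hη]
  by_contra hcon
  rw [not_le] at hcon
  have hbpos : 0 ≤ 8 * E * S * ε / M := by positivity
  have hηpos : 0 < |η| := lt_of_le_of_lt hbpos hcon
  set t : ℕ := ⌊2 * ε / |η|⌋₊ + 1 with ht
  have ht1 : 2 * ε < t * |η| := by
    have := Nat.lt_floor_add_one (2 * ε / |η|)
    rw [div_lt_iff₀ hηpos] at this
    rw [ht]; push_cast; exact this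
  have ht2 : (t : ℝ) ≤ 2 * ε / |η| + 1 := by
    rw [ht]; push_cast
    have := Nat.floor_le (a := 2 * ε / |η|) (by positivity)
    linarith
  have ht3 : t * |η| ≤ 4 * ε := by
    have h2 : t * |η| ≤ (2 * ε / |η| + 1) * |η| := mul_le_mul_of_nonneg_right ht2 hηpos.le
    have h3 : (2 * ε / |η| + 1) * |η| = 2 * ε + |η| := by field_simp
    linarith
  have hεη : 2 * ε / |η| ≤ M / (4 * E * S) := by
    rw [div_le_div_iff₀ hηpos (by positivity)]
    rw [div_lt_iff₀ hM0] at hcon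
    nlinarith
  have hqS' : (q : ℝ) ≤ S := by exact_mod_cast hqS.le
  have hqt : (q : ℝ) * t < M / (2 * E) := by
    have hq0 : (0 : ℝ) < q := by exact_mod_cast hq1
    have hqlt : (q : ℝ) < S := by exact_mod_cast hqS
    have h2 : (q : ℝ) * t ≤ q * (M / (4 * E * S) + 1) :=
      mul_le_mul_of_nonneg_left (by linarith) hq0.le
    have h3 : (q : ℝ) * (M / (4 * E * S) + 1) < S * (M / (4 * E * S) + 1) :=
      mul_lt_mul_of_pos_right hqlt (by positivity)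
    have h4 : (S : ℝ) * (M / (4 * E * S) + 1) = M / (4 * E) + S := by
      field_simp
    have h5 : (S : ℝ) ≤ M / (4 * E) := by
      rw [le_div_iff₀ (by positivity)]
      linarith
    have h6 : (M : ℝ) / (2 * E) = M / (4 * E) + M / (4 * E) := by field_simp; ring
    linarith
  have h2 : M + (q * t) * S < S * H.card := by
    have h3 : ((M + (q * t) * S : ℕ) : ℝ) < ((S * H.card : ℕ) : ℝ) := by
      push_cast
      have h4 : (q : ℝ) * t * S < M / (2 * E) * S := mul_lt_mul_of_pos_right hqt hS0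
      have h5 : (M : ℝ) / (2 * E) * S = S * M / (2 * E) := by ring
      linarith
    exact_mod_cast h3
  obtain ⟨r, hr1, hrS, g, hg, g', hg', hgr⟩ := diff_lemma H M (q * t) S hH h2
  obtain ⟨y1, hy1⟩ := hθ g hg
  obtain ⟨y2, hy2⟩ := hθ g' hg'
  -- the integer N
  have e1 : η * t * r - ((y2 - y1 - z * t * r : ℤ) : ℝ) = (θ * g' - y2) - (θ * g - y1) := by
    rw [hη, hgr]
    push_cast
    ring
  have h3 : |η * t * r - ((y2 - y1 - z * t * r : ℤ) : ℝ)| ≤ 2 * ε := by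
    rw [e1]
    refine (abs_sub _ _).trans ?_
    linarith
  have hr1' : (1 : ℝ) ≤ r := by exact_mod_cast hr1
  have hrS' : (r : ℝ) ≤ S := by exact_mod_cast hrS.le
  have h4 : |η * t * r| = t * |η| * r := by
    rw [abs_mul, abs_mul, Nat.abs_cast, Nat.abs_cast]; ring
  have h5 : t * |η| * r ≤ 4 * ε * S := by
    refine mul_le_mul ht3 hrS' (by positivity) (by positivity)
  have h6 : |((y2 - y1 - z * t * r : ℤ) : ℝ)| < 1 := by
    have h7 : |((y2 - y1 - z * t * r : ℤ) : ℝ)| ≤ |η * t * r| +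
        |η * t * r - ((y2 - y1 - z * t * r : ℤ) : ℝ)| := by
      have h8 := abs_sub_abs_le_abs_sub ((y2 - y1 - z * t * r : ℤ) : ℝ) (η * t * r)
      rw [abs_sub_comm] at h8
      linarith
    have hS2 : (2 : ℝ) ≤ S := by linarith
    have h9 : 2 * ε ≤ S * ε := mul_le_mul_of_nonneg_right hS2 hε0
    rw [h4] at h7
    linarith
  have h7 : (y2 - y1 - z * t * r : ℤ) = 0 := by
    have : |(y2 - y1 - z * t * r : ℤ)| < 1 := by exact_mod_cast h6
    exact Int.abs_lt_one_iff.1 this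
  rw [h7, Int.cast_zero, sub_zero, h4] at h3
  have h8 : t * |η| * 1 ≤ t * |η| * r := mul_le_mul_of_nonneg_left hr1' (by positivity)
  linarith

/-! ### Weyl differencing -/

theorem sq_identity (f : ℕ → ℂ) (M : ℕ) :
    (∑ n ∈ Icc 1 M, f n) * (starRingEnd ℂ) (∑ n ∈ Icc 1 M, f n) +
      ∑ n ∈ Icc 1 M, f n * (starRingEnd ℂ) (f n) =
    (∑ m ∈ Icc 1 M, ∑ n ∈ Icc 1 m, f m * (starRingEnd ℂ) (f n)) +
      (starRingEnd ℂ) (∑ m ∈ Icc 1 M, ∑ n ∈ Icc 1 m, f m * (starRingEnd ℂ) (f n)) := by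
  induction M with
  | zero => simp
  | succ M ih =>
    have h1 : ∀ F : ℕ → ℂ, ∑ n ∈ Icc 1 (M + 1), F n = (∑ n ∈ Icc 1 M, F n) + F (M + 1) :=
      fun F => Finset.sum_Icc_succ_top (by omega) F
    rw [h1, h1, h1, ← Finset.mul_sum, ← map_sum, h1]
    simp only [map_add, map_mul, Complex.conj_conj, map_sum] at ih ⊢
    linear_combination ih

theorem reindex (F : ℕ → ℕ → ℂ) (M : ℕ) :
    ∑ m ∈ Icc 1 M, ∑ n ∈ Icc 1 m, F m n =
      ∑ h ∈ range M, ∑ n ∈ Icc 1 (M - h), F (n + h) n := by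
  rw [Finset.sum_sigma', Finset.sum_sigma']
  refine Finset.sum_bij' (fun x _ => ⟨x.1 - x.2, x.2⟩) (fun x _ => ⟨x.2 + x.1, x.2⟩) ?_ ?_ ?_ ?_ ?_
  · rintro ⟨m, n⟩ h
    simp only [mem_sigma, mem_Icc, mem_range] at h ⊢
    omega
  · rintro ⟨m, n⟩ h
    simp only [mem_sigma, mem_Icc, mem_range] at h ⊢
    omega
  · rintro ⟨m, n⟩ h
    simp only [mem_sigma, mem_Icc] at h
    have : n + (m - n) = m := by omega
    simp only [this]
  · rintro ⟨m, n⟩ h
    simp only [mem_sigma, mem_Icc, mem_range] at h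
    have : n + m - n = m := by omega
    simp only [this]
  · rintro ⟨m, n⟩ h
    simp only [mem_sigma, mem_Icc] at h
    have : n + (m - n) = m := by omega
    simp only [this]

theorem differencing (f : ℕ → ℂ) (M : ℕ) :
    ‖∑ n ∈ Icc 1 M, f n‖ ^ 2 ≤
      2 * ∑ h ∈ range M, ‖∑ n ∈ Icc 1 (M - h), f (n + h) * (starRingEnd ℂ) (f n)‖ := by
  have h1 := sq_identity f M
  rw [reindex (fun m n => f m * (starRingEnd ℂ) (f n)) M] at h1
  set A := ∑ h ∈ range M, ∑ n ∈ Icc 1 (M - h), f (n + h) * (starRingEnd ℂ) (f n) with hA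
  have h2 := congrArg Complex.re h1
  have h3 : (∑ n ∈ Icc 1 M, f n * (starRingEnd ℂ) (f n)).re ≥ 0 := by
    rw [Complex.re_sum]
    refine Finset.sum_nonneg fun n _ => ?_
    rw [Complex.mul_conj, Complex.ofReal_re]
    exact Complex.normSq_nonneg _
  rw [Complex.add_re, Complex.add_re, Complex.conj_re, Complex.mul_conj, Complex.ofReal_re,
    Complex.normSq_eq_norm_sq] at h2
  have h4 : A.re ≤ ‖A‖ := Complex.re_le_norm A
  have h5 : ‖A‖ ≤ ∑ h ∈ range M, ‖∑ n ∈ Icc 1 (M - h), f (n + h) * (starRingEnd ℂ) (f n)‖ :=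
    norm_sum_le _ _
  linarith

/-! ### the induction on the degree -/

/-- coefficients of the differenced polynomial `P(n+h) - P(n)` -/
noncomputable def bc (K : ℕ) (a : ℕ → ℝ) (h i : ℕ) : ℝ :=
  ∑ j ∈ Icc (i + 1) (K + 1), a j * (j.choose i : ℝ) * (h : ℝ) ^ (j - i)

theorem diff_phase (K : ℕ) (a : ℕ → ℝ) (n h : ℕ) :
    (∑ j ∈ Icc 1 (K + 1), a j * ((n + h : ℕ) : ℝ) ^ j) - ∑ j ∈ Icc 1 (K + 1), a j * (n : ℝ) ^ j =
      bc K a h 0 + ∑ i ∈ Icc 1 K, bc K a h i * (n : ℝ) ^ i := by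
  have h1 : ∀ j : ℕ, a j * ((n + h : ℕ) : ℝ) ^ j - a j * (n : ℝ) ^ j =
      ∑ i ∈ range j, a j * (j.choose i : ℝ) * (h : ℝ) ^ (j - i) * (n : ℝ) ^ i := by
    intro j
    rw [Nat.cast_add, add_pow, sum_range_succ, Nat.sub_self, pow_zero, Nat.choose_self,
      Nat.cast_one, mul_one, mul_one, mul_add, add_sub_cancel_right, Finset.mul_sum]
    refine Finset.sum_congr rfl fun i _ => ?_
    ring
  rw [← Finset.sum_sub_distrib, Finset.sum_congr rfl fun j _ => h1 j]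
  have h2 : bc K a h 0 + ∑ i ∈ Icc 1 K, bc K a h i * (n : ℝ) ^ i =
      ∑ i ∈ range (K + 1), bc K a h i * (n : ℝ) ^ i := by
    rw [Finset.range_eq_Ico, Finset.sum_eq_sum_Ico_succ_bot (Nat.succ_pos K), pow_zero, mul_one]
    congr 1
  rw [h2]
  unfold bc
  simp_rw [Finset.sum_mul]
  refine Finset.sum_comm' fun j i => ?_
  rw [mem_Icc, mem_range, mem_Icc, mem_range]
  omega

/-- the statement proved by induction on the degree -/
def WProp (k : ℕ) : Prop := ∃ C : ℕ, ∀ (D : ℝ) (M : ℕ) (a : ℕ → ℝ), 2 ≤ D → 1 ≤ M →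
    (M : ℝ) ≤ D * ‖∑ n ∈ Icc 1 M, ee (∑ j ∈ Icc 1 k, a j * (n : ℝ) ^ j)‖ →
    ∃ q : ℕ, 1 ≤ q ∧ (q : ℝ) ≤ D ^ C ∧
      ∀ j ∈ Icc 1 k, ∃ z : ℤ, |q * a j - z| ≤ D ^ C / (M : ℝ) ^ j

structure Data (K C1 : ℕ) (D : ℝ) (M : ℕ) (a : ℕ → ℝ) (q : ℕ) (H : Finset ℕ) : Prop where
  hD : 2 ≤ D
  hM : 1 ≤ M
  hq : 1 ≤ q
  hq' : (q : ℝ) ≤ D ^ C1
  hH : ∀ h ∈ H, h < M
  hcard : (M : ℝ) / D ^ C1 ≤ H.card
  happ : ∀ h ∈ H, ∀ i ∈ Icc 1 K, ∃ z : ℤ, |q * bc K a h i - z| ≤ D ^ C1 / (M : ℝ) ^ i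

theorem norm_T (K : ℕ) (a : ℕ → ℝ) (h M' : ℕ) :
    ‖∑ n ∈ Icc 1 M', ee (∑ j ∈ Icc 1 (K + 1), a j * ((n + h : ℕ) : ℝ) ^ j) *
      (starRingEnd ℂ) (ee (∑ j ∈ Icc 1 (K + 1), a j * (n : ℝ) ^ j))‖ =
    ‖∑ n ∈ Icc 1 M', ee (∑ i ∈ Icc 1 K, bc K a h i * (n : ℝ) ^ i)‖ := by
  have h1 : ∀ n : ℕ, ee (∑ j ∈ Icc 1 (K + 1), a j * ((n + h : ℕ) : ℝ) ^ j) *
      (starRingEnd ℂ) (ee (∑ j ∈ Icc 1 (K + 1), a j * (n : ℝ) ^ j)) =
      ee (bc K a h 0) * ee (∑ i ∈ Icc 1 K, bc K a h i * (n : ℝ) ^ i) := by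
    intro n
    rw [conj_ee, ← ee_add, ← ee_add, ← diff_phase]
    congr 1
  simp_rw [h1]
  rw [← Finset.mul_sum, norm_mul, norm_ee, one_mul]

theorem data_exists (K : ℕ) (hW : WProp K) : ∃ C1 : ℕ, ∀ (D : ℝ) (M : ℕ) (a : ℕ → ℝ),
    2 ≤ D → 1 ≤ M →
    (M : ℝ) ≤ D * ‖∑ n ∈ Icc 1 M, ee (∑ j ∈ Icc 1 (K + 1), a j * (n : ℝ) ^ j)‖ →
    ∃ (q : ℕ) (H : Finset ℕ), Data K C1 D M a q H := by
  classical
  obtain ⟨C0, hC0⟩ := hW
  refine ⟨4 * C0 + 4 * K + 4, fun D M a hD hM hS => ?_⟩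
  have hD1 : (1 : ℝ) ≤ D := by linarith
  have hD0 : (0 : ℝ) < D := by linarith
  have hM0 : (0 : ℝ) < M := by exact_mod_cast hM
  set f : ℕ → ℂ := fun n => ee (∑ j ∈ Icc 1 (K + 1), a j * (n : ℝ) ^ j) with hf
  set T : ℕ → ℝ := fun h => ‖∑ n ∈ Icc 1 (M - h), ee (∑ i ∈ Icc 1 K, bc K a h i * (n : ℝ) ^ i)‖
    with hT
  have hTle : ∀ h, T h ≤ ((M - h : ℕ) : ℝ) := by
    intro h
    refine (norm_sum_le _ _).trans ?_
    simp only [norm_ee, sum_const, nsmul_eq_mul, mul_one, Nat.card_Icc, Nat.add_sub_cancel]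
    exact le_rfl
  have hdiff : ‖∑ n ∈ Icc 1 M, f n‖ ^ 2 ≤ 2 * ∑ h ∈ range M, T h := by
    refine (differencing f M).trans ?_
    refine mul_le_mul_of_nonneg_left (Finset.sum_le_sum fun h _ => ?_) (by norm_num)
    exact (norm_T K a h (M - h)).le
  set H : Finset ℕ := (range M).filter (fun h => (M : ℝ) ≤ D ^ 4 * T h) with hH
  have hsum : ∑ h ∈ range M, T h ≤ H.card * M + M * (M / D ^ 4) := by
    rw [← Finset.sum_filter_add_sum_filter_not (range M) (fun h => (M : ℝ) ≤ D ^ 4 * T h)]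
    refine add_le_add ?_ ?_
    · rw [← nsmul_eq_mul]
      refine Finset.sum_le_card_nsmul _ _ _ fun h _ => ?_
      refine (hTle h).trans ?_
      exact_mod_cast Nat.sub_le M h
    · have h1 : ∑ h ∈ (range M).filter (fun h => ¬ (M : ℝ) ≤ D ^ 4 * T h), T h ≤
          ((range M).filter (fun h => ¬ (M : ℝ) ≤ D ^ 4 * T h)).card • ((M : ℝ) / D ^ 4) := by
        refine Finset.sum_le_card_nsmul _ _ _ fun h hh => ?_
        have h2 := (mem_filter.1 hh).2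
        rw [not_le] at h2
        rw [le_div_iff₀ (by positivity)]
        linarith
      refine h1.trans ?_
      rw [nsmul_eq_mul]
      refine mul_le_mul_of_nonneg_right ?_ (by positivity)
      have h3 := Finset.card_filter_le (range M) (fun h => ¬ (M : ℝ) ≤ D ^ 4 * T h)
      rw [card_range] at h3
      exact_mod_cast h3
  have hcard : (M : ℝ) / D ^ 4 ≤ H.card := by
    have h1 : (M / D) ^ 2 ≤ ‖∑ n ∈ Icc 1 M, f n‖ ^ 2 := by
      refine pow_le_pow_left₀ (by positivity) ?_ 2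
      rw [div_le_iff₀ hD0, mul_comm]
      exact hS
    have h2 : (M / D) ^ 2 ≤ 2 * (H.card * M + M * (M / D ^ 4)) := by linarith
    have h3 : (M / D) ^ 2 = M * (M / D ^ 2) := by field_simp
    rw [h3] at h2
    have h4 : (M : ℝ) / D ^ 2 ≤ 2 * (H.card + M / D ^ 4) := by
      have h5 : (M : ℝ) * (M / D ^ 2) ≤ M * (2 * (H.card + M / D ^ 4)) := by linarith
      exact le_of_mul_le_mul_left h5 hM0
    have h6 : 4 * ((M : ℝ) / D ^ 4) ≤ M / D ^ 2 := by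
      have h7 : (M : ℝ) / D ^ 2 = D ^ 2 * (M / D ^ 4) := by field_simp
      rw [h7]
      refine mul_le_mul_of_nonneg_right ?_ (by positivity)
      nlinarith
    linarith
  have hex : ∀ h ∈ H, ∃ q : ℕ, 1 ≤ q ∧ (q : ℝ) ≤ D ^ (4 * C0) ∧ ∀ i ∈ Icc 1 K, ∃ z : ℤ,
      |q * bc K a h i - z| ≤ D ^ (4 * C0 + 4 * K + 4) / (M : ℝ) ^ i := by
    intro h hh
    have hh1 := (mem_filter.1 hh).1
    have hh2 := (mem_filter.1 hh).2
    rw [mem_range] at hh1
    have hD4 : (2 : ℝ) ≤ D ^ 4 := by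
      calc (2 : ℝ) ≤ D := hD
        _ = D ^ 1 := (pow_one D).symm
        _ ≤ D ^ 4 := pow_le_pow_right₀ hD1 (by norm_num)
    obtain ⟨q, hq1, hq2, hq3⟩ := hC0 (D ^ 4) (M - h) (bc K a h) hD4 (by omega) (by
      refine le_trans ?_ hh2
      exact_mod_cast Nat.sub_le M h)
    refine ⟨q, hq1, by rw [pow_mul]; exact hq2, fun i hi => ?_⟩
    obtain ⟨z, hz⟩ := hq3 i hi
    refine ⟨z, hz.trans ?_⟩
    have hM' : (0 : ℝ) < ((M - h : ℕ) : ℝ) := by
      have : 0 < M - h := by omega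
      exact_mod_cast this
    rw [div_le_div_iff₀ (by positivity) (by positivity), ← pow_mul]
    have h1 : (M : ℝ) ≤ D ^ 4 * ((M - h : ℕ) : ℝ) :=
      hh2.trans (mul_le_mul_of_nonneg_left (hTle h) (by positivity))
    have h2 : (M : ℝ) ^ i ≤ (D ^ 4 * ((M - h : ℕ) : ℝ)) ^ i := pow_le_pow_left₀ hM0.le h1 i
    rw [mul_pow, ← pow_mul] at h2
    have h3 : D ^ (4 * i) ≤ D ^ (4 * K + 4) := by
      refine pow_le_pow_right₀ hD1 ?_
      have := (mem_Icc.1 hi).2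
      omega
    calc D ^ (4 * C0) * (M : ℝ) ^ i
        ≤ D ^ (4 * C0) * (D ^ (4 * i) * ((M - h : ℕ) : ℝ) ^ i) :=
          mul_le_mul_of_nonneg_left h2 (by positivity)
      _ ≤ D ^ (4 * C0) * (D ^ (4 * K + 4) * ((M - h : ℕ) : ℝ) ^ i) := by
          refine mul_le_mul_of_nonneg_left ?_ (by positivity)
          exact mul_le_mul_of_nonneg_right h3 (by positivity)
      _ = D ^ (4 * C0 + 4 * K + 4) * ((M - h : ℕ) : ℝ) ^ i := by
          rw [← mul_assoc, ← pow_add, ← add_assoc]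
  choose! qf hq1 hq2 hq3 using hex
  -- pigeonhole
  have hmaps : ∀ h ∈ H, qf h ∈ Icc 1 ⌊D ^ (4 * C0)⌋₊ := fun h hh =>
    mem_Icc.2 ⟨hq1 h hh, Nat.le_floor (hq2 h hh)⟩
  have hone : 1 ≤ ⌊D ^ (4 * C0)⌋₊ := by
    rw [Nat.le_floor_iff (by positivity), Nat.cast_one]
    exact one_le_pow₀ hD1
  obtain ⟨q, hqt, hqc⟩ := Finset.exists_le_card_fiber_of_nsmul_le_card_of_maps_to hmaps
    ⟨1, mem_Icc.2 ⟨le_rfl, hone⟩⟩ (b := (M : ℝ) / D ^ (4 * C0 + 4 * K + 4)) (by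
      rw [Nat.card_Icc, Nat.add_sub_cancel, nsmul_eq_mul]
      refine le_trans ?_ hcard
      have h1 : (⌊D ^ (4 * C0)⌋₊ : ℝ) ≤ D ^ (4 * C0) := Nat.floor_le (by positivity)
      calc (⌊D ^ (4 * C0)⌋₊ : ℝ) * (M / D ^ (4 * C0 + 4 * K + 4))
          ≤ D ^ (4 * C0) * (M / D ^ (4 * C0 + 4 * K + 4)) :=
            mul_le_mul_of_nonneg_right h1 (by positivity)
        _ = M / (D ^ (4 * K + 4)) := by
            rw [add_assoc, pow_add]; field_simp
        _ ≤ M / D ^ 4 := by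
            refine div_le_div_of_nonneg_left hM0.le (by positivity) ?_
            exact pow_le_pow_right₀ hD1 (by omega))
  have hfl : (⌊D ^ (4 * C0)⌋₊ : ℝ) ≤ D ^ (4 * C0) := Nat.floor_le (by positivity)
  refine ⟨q, H.filter (fun h => qf h = q), hD, hM, (mem_Icc.1 hqt).1, ?_, ?_, hqc, ?_⟩
  · have h1 : (q : ℝ) ≤ (⌊D ^ (4 * C0)⌋₊ : ℝ) := by exact_mod_cast (mem_Icc.1 hqt).2
    exact (h1.trans hfl).trans (pow_le_pow_right₀ hD1 (by omega))
  · intro h hh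
    exact mem_range.1 (mem_filter.1 (mem_filter.1 hh).1).1
  · intro h hh i hi
    have h1 := (mem_filter.1 hh)
    rw [← h1.2]
    exact hq3 h h1.1 i hi

/-- approximation of the next coefficient times `h` -/
theorem approx_next {K C1 C2 : ℕ} {D : ℝ} {M : ℕ} {a : ℕ → ℝ} {q : ℕ} {H : Finset ℕ}
    (hd : Data K C1 D M a q H) {i0 : ℕ} (hi0 : 1 ≤ i0) (hi0K : i0 ≤ K) {Q : ℕ}
    (hQ2 : (Q : ℝ) ≤ D ^ C2) (zf : ℕ → ℤ)
    (hzf : ∀ j ∈ Ioc (i0 + 1) (K + 1), |Q * a j - zf j| ≤ D ^ C2 / (M : ℝ) ^ j)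
    {h : ℕ} (hh : h ∈ H) :
    ∃ z : ℤ, |(q * Q * (i0 + 1 : ℕ) * a (i0 + 1)) * h - z| ≤
      D ^ (C1 + C2 + 2 * K + 3) / (M : ℝ) ^ i0 := by
  have hD1 : (1 : ℝ) ≤ D := by linarith [hd.hD]
  have hD0 : (0 : ℝ) < D := by linarith [hd.hD]
  have hM0 : (0 : ℝ) < M := by exact_mod_cast hd.hM
  obtain ⟨z, hz⟩ := hd.happ h hh i0 (mem_Icc.2 ⟨hi0, hi0K⟩)
  refine ⟨Q * z - ∑ j ∈ Ioc (i0 + 1) (K + 1), q * (j.choose i0 : ℤ) * (h : ℤ) ^ (j - i0) * zf j, ?_⟩
  have e1 : bc K a h i0 = (∑ j ∈ Ioc (i0 + 1) (K + 1),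
      a j * (j.choose i0 : ℝ) * (h : ℝ) ^ (j - i0)) + a (i0 + 1) * (i0 + 1 : ℕ) * h := by
    unfold bc
    rw [← Finset.sum_Ioc_add_eq_sum_Icc (by omega), Nat.choose_succ_self_right,
      Nat.add_sub_cancel_left, pow_one]
  have e2 : (q * Q * (i0 + 1 : ℕ) * a (i0 + 1)) * h -
      ((Q * z - ∑ j ∈ Ioc (i0 + 1) (K + 1),
        q * (j.choose i0 : ℤ) * (h : ℤ) ^ (j - i0) * zf j : ℤ) : ℝ) =
      Q * (q * bc K a h i0 - z) - ∑ j ∈ Ioc (i0 + 1) (K + 1),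
        q * (j.choose i0 : ℝ) * (h : ℝ) ^ (j - i0) * (Q * a j - zf j) := by
    rw [e1]
    push_cast
    have e3 : ∑ j ∈ Ioc (i0 + 1) (K + 1),
        (q : ℝ) * (j.choose i0 : ℝ) * (h : ℝ) ^ (j - i0) * (Q * a j - zf j) =
        q * Q * (∑ j ∈ Ioc (i0 + 1) (K + 1), a j * (j.choose i0 : ℝ) * (h : ℝ) ^ (j - i0)) -
        ∑ j ∈ Ioc (i0 + 1) (K + 1), q * (j.choose i0 : ℝ) * (h : ℝ) ^ (j - i0) * zf j := by
      rw [Finset.mul_sum, ← Finset.sum_sub_distrib]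
      refine Finset.sum_congr rfl fun j _ => ?_
      ring
    rw [e3]
    ring
  rw [e2]
  refine (abs_sub _ _).trans ?_
  have hhM : (h : ℝ) ≤ M := by exact_mod_cast (hd.hH h hh).le
  have b1 : |(Q : ℝ) * (q * bc K a h i0 - z)| ≤ D ^ (C1 + C2) / (M : ℝ) ^ i0 := by
    rw [abs_mul, Nat.abs_cast]
    calc (Q : ℝ) * |q * bc K a h i0 - z| ≤ D ^ C2 * (D ^ C1 / (M : ℝ) ^ i0) :=
          mul_le_mul hQ2 hz (abs_nonneg _) (by positivity)
      _ = D ^ (C1 + C2) / (M : ℝ) ^ i0 := by rw [pow_add]; ring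
  have b2 : ∀ j ∈ Ioc (i0 + 1) (K + 1),
      |(q : ℝ) * (j.choose i0 : ℝ) * (h : ℝ) ^ (j - i0) * (Q * a j - zf j)| ≤
        2 ^ (K + 1) * D ^ (C1 + C2) / (M : ℝ) ^ i0 := by
    intro j hj
    have hj' := mem_Ioc.1 hj
    rw [abs_mul, abs_mul, abs_mul, Nat.abs_cast, Nat.abs_cast, abs_pow, Nat.abs_cast]
    have c1 : (j.choose i0 : ℝ) ≤ 2 ^ (K + 1) := by
      have : j.choose i0 ≤ 2 ^ (K + 1) :=
        (Nat.choose_le_two_pow j i0).trans (Nat.pow_le_pow_right (by norm_num) hj'.2)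
      exact_mod_cast this
    have c2 : (h : ℝ) ^ (j - i0) ≤ (M : ℝ) ^ (j - i0) := pow_le_pow_left₀ (by positivity) hhM _
    have c3 := hzf j hj
    calc (q : ℝ) * (j.choose i0 : ℝ) * (h : ℝ) ^ (j - i0) * |Q * a j - zf j|
        ≤ D ^ C1 * 2 ^ (K + 1) * (M : ℝ) ^ (j - i0) * (D ^ C2 / (M : ℝ) ^ j) := by
          refine mul_le_mul ?_ c3 (abs_nonneg _) (by positivity)
          refine mul_le_mul ?_ c2 (by positivity) (by positivity)
          exact mul_le_mul hd.hq' c1 (by positivity) (by positivity)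
      _ = 2 ^ (K + 1) * D ^ (C1 + C2) / (M : ℝ) ^ i0 := by
          have : (M : ℝ) ^ j = (M : ℝ) ^ (j - i0) * (M : ℝ) ^ i0 := by
            rw [← pow_add]; congr 1; omega
          rw [this, pow_add D C1 C2]
          field_simp
  have b3 : |∑ j ∈ Ioc (i0 + 1) (K + 1),
      (q : ℝ) * (j.choose i0 : ℝ) * (h : ℝ) ^ (j - i0) * (Q * a j - zf j)| ≤
      2 ^ (K + 1) * (2 ^ (K + 1) * D ^ (C1 + C2) / (M : ℝ) ^ i0) := by
    refine (Finset.abs_sum_le_sum_abs _ _).trans ?_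
    refine (Finset.sum_le_card_nsmul _ _ _ b2).trans ?_
    rw [nsmul_eq_mul]
    refine mul_le_mul_of_nonneg_right ?_ (by positivity)
    have h1 : (Ioc (i0 + 1) (K + 1)).card ≤ 2 ^ (K + 1) := by
      rw [Nat.card_Ioc]
      have := (Nat.lt_two_pow_self (n := K + 1)).le
      omega
    exact_mod_cast h1
  have b4 : (2 : ℝ) ^ (2 * K + 3) ≤ D ^ (2 * K + 3) := pow_le_pow_left₀ (by norm_num) hd.hD _
  have b5 : (1 : ℝ) ≤ 2 ^ (2 * K + 2) := one_le_pow₀ (by norm_num)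
  calc _ ≤ D ^ (C1 + C2) / (M : ℝ) ^ i0 +
        2 ^ (K + 1) * (2 ^ (K + 1) * D ^ (C1 + C2) / (M : ℝ) ^ i0) := add_le_add b1 b3
    _ = (1 + 2 ^ (2 * K + 2)) * (D ^ (C1 + C2) / (M : ℝ) ^ i0) := by
        have : (2 : ℝ) ^ (2 * K + 2) = 2 ^ (K + 1) * 2 ^ (K + 1) := by
          rw [← pow_add]; congr 1; omega
        rw [this]; ring
    _ ≤ D ^ (2 * K + 3) * (D ^ (C1 + C2) / (M : ℝ) ^ i0) := by
        refine mul_le_mul_of_nonneg_right ?_ (by positivity)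
        refine le_trans ?_ b4
        have : (2 : ℝ) ^ (2 * K + 3) = 2 * 2 ^ (2 * K + 2) := by rw [← pow_succ']
        linarith
    _ = D ^ (C1 + C2 + 2 * K + 3) / (M : ℝ) ^ i0 := by
        rw [add_assoc (C1 + C2) (2 * K) 3, pow_add D (C1 + C2)]; ring

theorem descend (K C1 : ℕ) : ∀ s ≤ K, ∃ C2 : ℕ, ∀ (D : ℝ) (M : ℕ) (a : ℕ → ℝ) (q : ℕ)
    (H : Finset ℕ), Data K C1 D M a q H → (M : ℝ) ≤ D ^ C2 ∨ ∃ Q : ℕ, 1 ≤ Q ∧ (Q : ℝ) ≤ D ^ C2 ∧
      ∀ j ∈ Icc (K + 2 - s) (K + 1), ∃ z : ℤ, |Q * a j - z| ≤ D ^ C2 / (M : ℝ) ^ j := by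
  intro s
  induction s with
  | zero =>
    intro _
    refine ⟨0, fun D M a q H hd => Or.inr ⟨1, le_rfl, by simp, fun j hj => ?_⟩⟩
    rw [mem_Icc] at hj
    omega
  | succ s ih =>
    intro hs
    obtain ⟨C2, hC2⟩ := ih (by omega)
    refine ⟨10 * (C1 + C2 + K + 2), fun D M a q H hd => ?_⟩
    have hD2 := hd.hD
    have hD1 : (1 : ℝ) ≤ D := by linarith
    have hD0 : (0 : ℝ) < D := by linarith
    have hM0 : (0 : ℝ) < M := by exact_mod_cast hd.hM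
    by_cases hMC : (M : ℝ) ≤ D ^ (10 * (C1 + C2 + K + 2))
    · exact Or.inl hMC
    right
    rw [not_le] at hMC
    have hmono : ∀ n, n ≤ 10 * (C1 + C2 + K + 2) → D ^ n ≤ M := fun n hn =>
      (pow_le_pow_right₀ hD1 hn).trans hMC.le
    rcases hC2 D M a q H hd with h | ⟨Q, hQ1, hQ2, hQ3⟩
    · exact absurd (lt_of_le_of_lt (pow_le_pow_right₀ hD1 (by omega : C2 ≤ 10 * (C1 + C2 + K + 2)))
        hMC) (not_lt.2 h)
    choose! zf hzf using hQ3
    obtain ⟨i0, hi0⟩ : ∃ i0, i0 = K - s := ⟨_, rfl⟩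
    have hi01 : 1 ≤ i0 := by omega
    have hi0K : i0 ≤ K := by omega
    have hzf' : ∀ j ∈ Ioc (i0 + 1) (K + 1), |Q * a j - zf j| ≤ D ^ C2 / (M : ℝ) ^ j := by
      intro j hj
      rw [mem_Ioc] at hj
      exact hzf j (mem_Icc.2 (by omega))
    set θ : ℝ := q * Q * (i0 + 1 : ℕ) * a (i0 + 1) with hθ
    set ε : ℝ := D ^ (C1 + C2 + 2 * K + 3) / (M : ℝ) ^ i0 with hε
    set S : ℕ := ⌈2 * D ^ C1⌉₊ with hS
    have hS1 : 2 * D ^ C1 ≤ S := Nat.le_ceil _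
    have hDC1 : 1 ≤ D ^ C1 := one_le_pow₀ hD1
    have hS2 : (S : ℝ) ≤ D ^ (C1 + 2) := by
      have h1 := (Nat.ceil_lt_add_one (a := 2 * D ^ C1) (by positivity)).le
      rw [pow_add]
      have h2 : (4 : ℝ) ≤ D ^ 2 := by nlinarith
      nlinarith
    have hεM : ε ≤ D ^ (C1 + C2 + 2 * K + 3) / M := by
      refine div_le_div_of_nonneg_left (by positivity) hM0 ?_
      calc (M : ℝ) = (M : ℝ) ^ 1 := (pow_one _).symm
        _ ≤ (M : ℝ) ^ i0 := pow_le_pow_right₀ (by exact_mod_cast hd.hM) hi01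
    have h8 : (8 : ℝ) ≤ D ^ 3 := by
      calc (8 : ℝ) = 2 ^ 3 := by norm_num
        _ ≤ D ^ 3 := pow_le_pow_left₀ (by norm_num) hD2 3
    have h4 : (4 : ℝ) ≤ D ^ 2 := by nlinarith
    obtain ⟨q', hq'1, hq'S, z, hz⟩ := vinogradov θ ε (D ^ C1) M S H hd.hH hDC1 hS1 hd.hcard
      (by positivity) (by
        calc 8 * S * ε ≤ D ^ 3 * D ^ (C1 + 2) * (D ^ (C1 + C2 + 2 * K + 3) / M) := by
              refine mul_le_mul ?_ hεM (by positivity) (by positivity)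
              exact mul_le_mul h8 hS2 (by positivity) (by positivity)
          _ = D ^ (3 + (C1 + 2) + (C1 + C2 + 2 * K + 3)) / M := by
              rw [← pow_add, mul_div_assoc', ← pow_add]
          _ ≤ 1 := by
              rw [div_le_one hM0]
              exact hmono _ (by omega)) (by
        calc 4 * D ^ C1 * S ≤ D ^ 2 * D ^ C1 * D ^ (C1 + 2) := by
              refine mul_le_mul ?_ hS2 (by positivity) (by positivity)
              exact mul_le_mul_of_nonneg_right h4 (by positivity)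
          _ = D ^ (2 + C1 + (C1 + 2)) := by rw [← pow_add, ← pow_add]
          _ ≤ M := hmono _ (by omega)) (fun h hh => by
        exact approx_next hd hi01 hi0K hQ2 zf hzf' hh)
    have hq'S2 : (q' : ℝ) ≤ D ^ (C1 + 2) := by
      have : (q' : ℝ) ≤ S := by exact_mod_cast hq'S.le
      linarith
    have hi0D : ((i0 + 1 : ℕ) : ℝ) ≤ D ^ (K + 1) := by
      have h1 : i0 + 1 ≤ 2 ^ (K + 1) := by
        have := (Nat.lt_two_pow_self (n := K + 1)).le
        omega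
      calc ((i0 + 1 : ℕ) : ℝ) ≤ ((2 ^ (K + 1) : ℕ) : ℝ) := by exact_mod_cast h1
        _ = 2 ^ (K + 1) := by push_cast; rfl
        _ ≤ D ^ (K + 1) := pow_le_pow_left₀ (by norm_num) hD2 _
    refine ⟨q' * (q * (i0 + 1)) * Q, ?_, ?_, ?_⟩
    · have := hd.hq
      have h1 : 0 < q' * (q * (i0 + 1)) * Q := by positivity
      omega
    · push_cast
      have hi0D' : (i0 : ℝ) + 1 ≤ D ^ (K + 1) := by
        have := hi0D
        push_cast at this
        exact this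
      calc (q' : ℝ) * (q * (i0 + 1)) * Q ≤ D ^ (C1 + 2) * (D ^ C1 * D ^ (K + 1)) * D ^ C2 := by
            refine mul_le_mul ?_ hQ2 (by positivity) (by positivity)
            refine mul_le_mul hq'S2 ?_ (by positivity) (by positivity)
            exact mul_le_mul hd.hq' hi0D' (by positivity) (by positivity)
        _ = D ^ (C1 + 2 + (C1 + (K + 1)) + C2) := by rw [← pow_add, ← pow_add, ← pow_add]
        _ ≤ D ^ (10 * (C1 + C2 + K + 2)) := pow_le_pow_right₀ hD1 (by omega)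
    · intro j hj
      rw [mem_Icc] at hj
      rcases eq_or_lt_of_le hj.1 with hj0 | hj0
      · have hj1 : j = i0 + 1 := by omega
        refine ⟨z, ?_⟩
        rw [hj1]
        have e1 : ((q' * (q * (i0 + 1)) * Q : ℕ) : ℝ) * a (i0 + 1) = q' * θ := by
          rw [hθ]; push_cast; ring
        rw [e1]
        refine hz.trans ?_
        rw [pow_succ, ← div_div]
        refine div_le_div_of_nonneg_right ?_ hM0.le
        calc 8 * D ^ C1 * S * ε
            ≤ D ^ 3 * D ^ C1 * D ^ (C1 + 2) * ε := by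
              refine mul_le_mul_of_nonneg_right ?_ (by positivity)
              refine mul_le_mul ?_ hS2 (by positivity) (by positivity)
              exact mul_le_mul_of_nonneg_right h8 (by positivity)
          _ = D ^ (3 + C1 + (C1 + 2) + (C1 + C2 + 2 * K + 3)) / (M : ℝ) ^ i0 := by
              rw [hε, ← pow_add, ← pow_add, mul_div_assoc', ← pow_add]
          _ ≤ D ^ (10 * (C1 + C2 + K + 2)) / (M : ℝ) ^ i0 := by
              refine div_le_div_of_nonneg_right ?_ (by positivity)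
              exact pow_le_pow_right₀ hD1 (by omega)
      · refine ⟨q' * (q * (i0 + 1)) * zf j, ?_⟩
        have e1 : ((q' * (q * (i0 + 1)) * Q : ℕ) : ℝ) * a j -
            ((q' * (q * (i0 + 1)) * zf j : ℤ) : ℝ) =
            q' * (q * (i0 + 1)) * (Q * a j - zf j) := by
          push_cast; ring
        rw [e1, abs_mul, abs_of_nonneg (by positivity : (0 : ℝ) ≤ q' * (q * (i0 + 1)))]
        have hi0D' : (i0 : ℝ) + 1 ≤ D ^ (K + 1) := by
          have := hi0D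
          push_cast at this
          exact this
        calc (q' : ℝ) * (q * (i0 + 1)) * |Q * a j - zf j|
            ≤ D ^ (C1 + 2) * (D ^ C1 * D ^ (K + 1)) * (D ^ C2 / (M : ℝ) ^ j) := by
              refine mul_le_mul ?_ (hzf j (mem_Icc.2 (by omega))) (abs_nonneg _) (by positivity)
              refine mul_le_mul hq'S2 ?_ (by positivity) (by positivity)
              exact mul_le_mul hd.hq' hi0D' (by positivity) (by positivity)
          _ = D ^ (C1 + 2 + (C1 + (K + 1)) + C2) / (M : ℝ) ^ j := by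
              rw [← pow_add, ← pow_add, mul_div_assoc', ← pow_add]
          _ ≤ D ^ (10 * (C1 + C2 + K + 2)) / (M : ℝ) ^ j := by
              refine div_le_div_of_nonneg_right ?_ (by positivity)
              exact pow_le_pow_right₀ hD1 (by omega)

/-! ### the linear coefficient -/

theorem shift_one (g : ℕ → ℂ) (M : ℕ) :
    (∑ n ∈ Icc 1 M, g (n + 1)) + g 1 = (∑ n ∈ Icc 1 M, g n) + g (M + 1) := by
  induction M with
  | zero => simp
  | succ M ih =>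
    have h1 : ∀ F : ℕ → ℂ, ∑ n ∈ Icc 1 (M + 1), F n = (∑ n ∈ Icc 1 M, F n) + F (M + 1) :=
      fun F => Finset.sum_Icc_succ_top (by omega) F
    rw [h1, h1]
    linear_combination ih

theorem shift_sum (f : ℕ → ℂ) (hf : ∀ n, ‖f n‖ ≤ 1) (M t : ℕ) :
    ‖(∑ n ∈ Icc 1 M, f (n + t)) - ∑ n ∈ Icc 1 M, f n‖ ≤ 2 * t := by
  induction t with
  | zero => simp
  | succ t ih =>
    have h1 := shift_one (fun n => f (n + t)) M
    have h2 : (∑ n ∈ Icc 1 M, f (n + (t + 1))) - ∑ n ∈ Icc 1 M, f n =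
        ((∑ n ∈ Icc 1 M, f (n + t)) - ∑ n ∈ Icc 1 M, f n) + (f (M + 1 + t) - f (1 + t)) := by
      have h3 : ∑ n ∈ Icc 1 M, f (n + (t + 1)) = ∑ n ∈ Icc 1 M, f (n + 1 + t) :=
        Finset.sum_congr rfl fun n _ => by rw [Nat.add_assoc, Nat.add_comm 1 t]
      rw [h3]
      linear_combination h1
    rw [h2]
    refine (norm_add_le _ _).trans ?_
    have h4 : ‖f (M + 1 + t) - f (1 + t)‖ ≤ 2 := by
      refine (norm_sub_le _ _).trans ?_
      have := hf (M + 1 + t)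
      have := hf (1 + t)
      linarith
    push_cast
    linarith

theorem exists_prog (f : ℕ → ℂ) (hf : ∀ n, ‖f n‖ ≤ 1) (M Q L : ℕ) (D : ℝ) (hD : 0 < D)
    (hM : 1 ≤ M) (hS : (M : ℝ) ≤ D * ‖∑ n ∈ Icc 1 M, f n‖) (hQL : 4 * D * (Q * L) ≤ M) :
    ∃ n0 ∈ Icc 1 M, (L : ℝ) ≤ 2 * D * ‖∑ m ∈ range L, f (n0 + Q * m)‖ := by
  by_contra hcon
  push Not at hcon
  have hM0 : (0 : ℝ) < M := by exact_mod_cast hM
  have hne : (Icc 1 M).Nonempty := ⟨1, mem_Icc.2 ⟨le_rfl, hM⟩⟩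
  have h1 : ∑ n0 ∈ Icc 1 M, 2 * D * ‖∑ m ∈ range L, f (n0 + Q * m)‖ < ∑ n0 ∈ Icc 1 M, (L : ℝ) :=
    Finset.sum_lt_sum_of_nonempty hne hcon
  rw [← Finset.mul_sum, sum_const, Nat.card_Icc, Nat.add_sub_cancel, nsmul_eq_mul] at h1
  have h2 : ‖∑ n0 ∈ Icc 1 M, ∑ m ∈ range L, f (n0 + Q * m)‖ ≤
      ∑ n0 ∈ Icc 1 M, ‖∑ m ∈ range L, f (n0 + Q * m)‖ := norm_sum_le _ _
  rw [Finset.sum_comm] at h2
  set S := ∑ n ∈ Icc 1 M, f n with hSdef
  have h3 : ‖(∑ m ∈ range L, ∑ n0 ∈ Icc 1 M, f (n0 + Q * m)) - L * S‖ ≤ L * (2 * (Q * L)) := by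
    have e : (∑ m ∈ range L, ∑ n0 ∈ Icc 1 M, f (n0 + Q * m)) - L * S =
        ∑ m ∈ range L, ((∑ n0 ∈ Icc 1 M, f (n0 + Q * m)) - S) := by
      rw [Finset.sum_sub_distrib, sum_const, card_range, nsmul_eq_mul]
    rw [e]
    refine (norm_sum_le _ _).trans ?_
    have h4 : ∀ m ∈ range L, ‖(∑ n0 ∈ Icc 1 M, f (n0 + Q * m)) - S‖ ≤ 2 * (Q * L) := by
      intro m hm
      refine (shift_sum f hf M (Q * m)).trans ?_
      rw [mem_range] at hm
      push_cast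
      have : (m : ℝ) ≤ L := by exact_mod_cast hm.le
      refine mul_le_mul_of_nonneg_left ?_ (by norm_num)
      exact mul_le_mul_of_nonneg_left this (by positivity)
    refine (Finset.sum_le_card_nsmul _ _ _ h4).trans ?_
    rw [card_range, nsmul_eq_mul]
  have h5 : (L : ℝ) * ‖S‖ - L * (2 * (Q * L)) ≤
      ‖∑ m ∈ range L, ∑ n0 ∈ Icc 1 M, f (n0 + Q * m)‖ := by
    have h6 : ‖(L : ℂ) * S‖ = L * ‖S‖ := by
      rw [norm_mul, Complex.norm_natCast]
    have h7 := norm_sub_norm_le ((L : ℂ) * S) (∑ m ∈ range L, ∑ n0 ∈ Icc 1 M, f (n0 + Q * m))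
    rw [norm_sub_rev] at h7
    linarith
  -- multiply everything by 2D
  have hL0 : (0 : ℝ) ≤ L := Nat.cast_nonneg L
  have h8 : 2 * D * (L * ‖S‖ - L * (2 * (Q * L))) < M * L := by
    have h9 : L * ‖S‖ - L * (2 * (Q * L)) ≤
      ∑ n0 ∈ Icc 1 M, ‖∑ m ∈ range L, f (n0 + Q * m)‖ := h5.trans h2
    have h10 := mul_le_mul_of_nonneg_left h9 (by positivity : (0 : ℝ) ≤ 2 * D)
    linarith
  have h11 : (L : ℝ) * M ≤ L * (D * ‖S‖) := mul_le_mul_of_nonneg_left hS hL0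
  have h12 : (L : ℝ) * (4 * D * (Q * L)) ≤ L * M := mul_le_mul_of_nonneg_left hQL hL0
  nlinarith

theorem phase_approx {K C2 : ℕ} {D : ℝ} (hD : 2 ≤ D) {M Q L : ℕ} (hM : 1 ≤ M) {a : ℕ → ℝ}
    (zf : ℕ → ℤ) (hzf : ∀ j ∈ Icc 2 (K + 1), |Q * a j - zf j| ≤ D ^ C2 / (M : ℝ) ^ j)
    (hQL : Q * L ≤ M) {n0 : ℕ} (hn0 : n0 ≤ M) {m : ℕ} (hm : m < L) :
    ∃ z : ℤ, |(∑ j ∈ Icc 1 (K + 1), a j * ((n0 + Q * m : ℕ) : ℝ) ^ j) -
      ((∑ j ∈ Icc 1 (K + 1), a j * (n0 : ℝ) ^ j) + Q * a 1 * m + z)| ≤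
      D ^ (C2 + 3 * K + 1) * L / M := by
  have hD1 : (1 : ℝ) ≤ D := by linarith
  have hM0 : (0 : ℝ) < M := by exact_mod_cast hM
  set R : ℕ → ℕ := fun j => ∑ i ∈ range j, (n0 + Q * m) ^ i * n0 ^ (j - 1 - i) with hR
  have hRj : ∀ j, ((n0 + Q * m : ℕ) : ℝ) ^ j = (n0 : ℝ) ^ j + R j * (Q * m) := by
    intro j
    have h1 := geom_sum₂_mul ((n0 + Q * m : ℕ) : ℝ) (n0 : ℝ) j
    rw [hR]
    push_cast at h1 ⊢
    linear_combination -h1
  have hRle : ∀ j ∈ Icc 2 (K + 1), (R j : ℝ) ≤ 2 ^ (2 * K + 1) * (M : ℝ) ^ (j - 1) := by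
    intro j hj
    rw [mem_Icc] at hj
    have hn : n0 + Q * m ≤ 2 * M := by
      have : Q * m ≤ Q * L := Nat.mul_le_mul_left _ hm.le
      omega
    have h1 : R j ≤ 2 ^ (2 * K + 1) * M ^ (j - 1) := by
      calc R j ≤ ∑ i ∈ range j, 2 ^ K * M ^ (j - 1) := by
            refine Finset.sum_le_sum fun i hi => ?_
            rw [mem_range] at hi
            calc (n0 + Q * m) ^ i * n0 ^ (j - 1 - i) ≤ (2 * M) ^ i * (2 * M) ^ (j - 1 - i) := by
                  refine Nat.mul_le_mul (Nat.pow_le_pow_left hn i) (Nat.pow_le_pow_left ?_ _)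
                  omega
              _ = (2 * M) ^ (j - 1) := by rw [← pow_add]; congr 1; omega
              _ = 2 ^ (j - 1) * M ^ (j - 1) := mul_pow _ _ _
              _ ≤ 2 ^ K * M ^ (j - 1) :=
                  Nat.mul_le_mul_right _ (Nat.pow_le_pow_right (by norm_num) (by omega))
        _ = j * (2 ^ K * M ^ (j - 1)) := by rw [sum_const, card_range, smul_eq_mul]
        _ ≤ 2 ^ (K + 1) * (2 ^ K * M ^ (j - 1)) := by
            refine Nat.mul_le_mul_right _ ?_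
            have := (Nat.lt_two_pow_self (n := K + 1)).le
            omega
        _ = 2 ^ (2 * K + 1) * M ^ (j - 1) := by
            rw [← mul_assoc, ← pow_add]; congr 2; omega
    calc (R j : ℝ) ≤ ((2 ^ (2 * K + 1) * M ^ (j - 1) : ℕ) : ℝ) := by exact_mod_cast h1
      _ = _ := by push_cast; rfl
  refine ⟨∑ j ∈ Icc 2 (K + 1), zf j * R j * m, ?_⟩
  have e0 : ∀ F : ℕ → ℝ, ∑ j ∈ Icc 1 (K + 1), F j = (∑ j ∈ Icc 2 (K + 1), F j) + F 1 := by
    intro F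
    rw [← Finset.sum_Ioc_add_eq_sum_Icc (by omega)]
    congr 1
  have e1 : (∑ j ∈ Icc 1 (K + 1), a j * ((n0 + Q * m : ℕ) : ℝ) ^ j) -
      ((∑ j ∈ Icc 1 (K + 1), a j * (n0 : ℝ) ^ j) + Q * a 1 * m +
        ((∑ j ∈ Icc 2 (K + 1), zf j * R j * m : ℤ) : ℝ)) =
      ∑ j ∈ Icc 2 (K + 1), (Q * a j - zf j) * (R j * m) := by
    have e2 : ∀ j, a j * ((n0 + Q * m : ℕ) : ℝ) ^ j = a j * (n0 : ℝ) ^ j + a j * (R j * (Q * m)) := by
      intro j; rw [hRj]; ring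
    rw [Finset.sum_congr rfl fun j _ => e2 j, Finset.sum_add_distrib,
      e0 (fun j => a j * (R j * (Q * m)))]
    have e3 : (R 1 : ℝ) = 1 := by simp [hR]
    rw [e3]
    push_cast
    have e4 : ∑ j ∈ Icc 2 (K + 1), ((Q : ℝ) * a j - zf j) * (R j * m) =
        (∑ j ∈ Icc 2 (K + 1), a j * (R j * (Q * m))) -
        ∑ j ∈ Icc 2 (K + 1), (zf j : ℝ) * R j * m := by
      rw [← Finset.sum_sub_distrib]
      refine Finset.sum_congr rfl fun j _ => ?_
      ring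
    rw [e4]
    ring
  rw [e1]
  refine (Finset.abs_sum_le_sum_abs _ _).trans ?_
  have hmL : (m : ℝ) ≤ L := by exact_mod_cast hm.le
  have b1 : ∀ j ∈ Icc 2 (K + 1), |((Q : ℝ) * a j - zf j) * (R j * m)| ≤
      D ^ (C2 + 2 * K + 1) * L / M := by
    intro j hj
    have hj' := mem_Icc.1 hj
    rw [abs_mul, abs_of_nonneg (by positivity : (0 : ℝ) ≤ R j * m)]
    calc |(Q : ℝ) * a j - zf j| * (R j * m)
        ≤ D ^ C2 / (M : ℝ) ^ j * (2 ^ (2 * K + 1) * (M : ℝ) ^ (j - 1) * L) := by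
          refine mul_le_mul (hzf j hj) ?_ (by positivity) (by positivity)
          exact mul_le_mul (hRle j hj) hmL (by positivity) (by positivity)
      _ = 2 ^ (2 * K + 1) * (D ^ C2 * L / M) := by
          have : (M : ℝ) ^ j = (M : ℝ) ^ (j - 1) * M := by
            rw [← pow_succ]; congr 1; omega
          rw [this]
          field_simp
      _ ≤ D ^ (2 * K + 1) * (D ^ C2 * L / M) := by
          refine mul_le_mul_of_nonneg_right ?_ (by positivity)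
          exact pow_le_pow_left₀ (by norm_num) hD _
      _ = D ^ (C2 + 2 * K + 1) * L / M := by
          rw [add_assoc, pow_add D C2]; ring
  refine (Finset.sum_le_card_nsmul _ _ _ b1).trans ?_
  rw [nsmul_eq_mul]
  have h1 : ((Icc 2 (K + 1)).card : ℝ) ≤ D ^ K := by
    have h2 : (Icc 2 (K + 1)).card ≤ 2 ^ K := by
      rw [Nat.card_Icc]
      have := (Nat.lt_two_pow_self (n := K)).le
      omega
    calc ((Icc 2 (K + 1)).card : ℝ) ≤ ((2 ^ K : ℕ) : ℝ) := by exact_mod_cast h2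
      _ = 2 ^ K := by push_cast; rfl
      _ ≤ D ^ K := pow_le_pow_left₀ (by norm_num) hD _
  calc ((Icc 2 (K + 1)).card : ℝ) * (D ^ (C2 + 2 * K + 1) * L / M)
      ≤ D ^ K * (D ^ (C2 + 2 * K + 1) * L / M) := mul_le_mul_of_nonneg_right h1 (by positivity)
    _ = D ^ (C2 + 3 * K + 1) * L / M := by
        have : C2 + 3 * K + 1 = K + (C2 + 2 * K + 1) := by omega
        rw [this, pow_add D K]; ring

theorem linear_step (K C2 : ℕ) : ∃ C3 : ℕ, C2 ≤ C3 ∧ ∀ (D : ℝ) (M : ℕ) (a : ℕ → ℝ) (Q : ℕ),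
    2 ≤ D → 1 ≤ M →
    (M : ℝ) ≤ D * ‖∑ n ∈ Icc 1 M, ee (∑ j ∈ Icc 1 (K + 1), a j * (n : ℝ) ^ j)‖ →
    1 ≤ Q → (Q : ℝ) ≤ D ^ C2 →
    (∀ j ∈ Icc 2 (K + 1), ∃ z : ℤ, |Q * a j - z| ≤ D ^ C2 / (M : ℝ) ^ j) →
    (M : ℝ) ≤ D ^ C3 ∨ ∃ z : ℤ, |Q * a 1 - z| ≤ D ^ C3 / (M : ℝ) ^ 1 := by
  refine ⟨(C2 + 3 * K + 10) + 4, by omega, fun D M a Q hD hM hS hQ1 hQ2 hz => ?_⟩
  have hD1 : (1 : ℝ) ≤ D := by linarith
  have hD0 : (0 : ℝ) < D := by linarith
  have hM0 : (0 : ℝ) < M := by exact_mod_cast hM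
  by_cases hMC : (M : ℝ) ≤ D ^ ((C2 + 3 * K + 10) + 4)
  · exact Or.inl hMC
  right
  rw [not_le] at hMC
  obtain ⟨c, hc⟩ : ∃ c, c = C2 + 3 * K + 10 := ⟨_, rfl⟩
  rw [← hc] at hMC ⊢
  choose! zf hzf using hz
  set L : ℕ := ⌊(M : ℝ) / D ^ c⌋₊ with hL
  have hLle : (L : ℝ) ≤ M / D ^ c := Nat.floor_le (by positivity)
  have hLge : (M : ℝ) / (2 * D ^ c) ≤ L := by
    have h1 := (Nat.lt_floor_add_one ((M : ℝ) / D ^ c)).le
    have h2 : (2 : ℝ) ≤ M / D ^ c := by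
      rw [le_div_iff₀ (by positivity)]
      have h3 : (2 : ℝ) * D ^ c ≤ D ^ (c + 4) := by
        rw [pow_add, mul_comm]
        refine mul_le_mul_of_nonneg_left ?_ (by positivity)
        calc (2 : ℝ) ≤ D := hD
          _ = D ^ 1 := (pow_one D).symm
          _ ≤ D ^ 4 := pow_le_pow_right₀ hD1 (by norm_num)
      linarith
    have h4 : (M : ℝ) / (2 * D ^ c) = (M / D ^ c) / 2 := by field_simp
    rw [h4]
    linarith
  have hL0 : (0 : ℝ) < L := lt_of_lt_of_le (by positivity) hLge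
  have h4 : (4 : ℝ) ≤ D ^ 2 := by nlinarith
  have hcC : D ^ (C2 + 3) ≤ D ^ c := pow_le_pow_right₀ hD1 (by omega)
  have hQL : 4 * D * (Q * L) ≤ M := by
    calc 4 * D * (Q * L) ≤ D ^ 2 * D * (D ^ C2 * (M / D ^ c)) := by
          refine mul_le_mul ?_ ?_ (by positivity) (by positivity)
          · exact mul_le_mul_of_nonneg_right h4 hD0.le
          · exact mul_le_mul hQ2 hLle (by positivity) (by positivity)
      _ = D ^ (C2 + 3) * (M / D ^ c) := by rw [pow_add]; ring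
      _ ≤ D ^ c * (M / D ^ c) := mul_le_mul_of_nonneg_right hcC (by positivity)
      _ = M := by field_simp
  have hQLn : Q * L ≤ M := by
    have h1 : (Q : ℝ) * L ≤ M := by
      have : (0 : ℝ) ≤ Q * L := by positivity
      nlinarith
    exact_mod_cast h1
  obtain ⟨n0, hn0, hprog⟩ := exists_prog (fun n => ee (∑ j ∈ Icc 1 (K + 1), a j * (n : ℝ) ^ j))
    (fun n => (norm_ee _).le) M Q L D hD0 hM hS hQL
  rw [mem_Icc] at hn0
  -- compare with the linear phase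
  set G := ∑ m ∈ range L, ee (Q * a 1 * m) with hG
  have hcomp : ‖(∑ m ∈ range L, ee (∑ j ∈ Icc 1 (K + 1), a j * ((n0 + Q * m : ℕ) : ℝ) ^ j)) -
      ee (∑ j ∈ Icc 1 (K + 1), a j * (n0 : ℝ) ^ j) * G‖ ≤ L * (1 / (4 * D)) := by
    rw [hG, Finset.mul_sum, ← Finset.sum_sub_distrib]
    refine (norm_sum_le _ _).trans ?_
    have h1 : ∀ m ∈ range L, ‖ee (∑ j ∈ Icc 1 (K + 1), a j * ((n0 + Q * m : ℕ) : ℝ) ^ j) -
        ee (∑ j ∈ Icc 1 (K + 1), a j * (n0 : ℝ) ^ j) * ee (Q * a 1 * m)‖ ≤ 1 / (4 * D) := by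
      intro m hm
      rw [mem_range] at hm
      obtain ⟨z, hz⟩ := phase_approx hD hM zf hzf hQLn hn0.2 hm
      have h2 : ee (∑ j ∈ Icc 1 (K + 1), a j * (n0 : ℝ) ^ j) * ee (Q * a 1 * m) =
          ee ((∑ j ∈ Icc 1 (K + 1), a j * (n0 : ℝ) ^ j) + Q * a 1 * m + z) := by
        rw [ee_add_int, ee_add]
      rw [h2]
      refine (norm_ee_sub_le _ _).trans ?_
      have h3 : D ^ (C2 + 3 * K + 1) * L / M ≤ 1 / D ^ 9 := by
        rw [div_le_div_iff₀ hM0 (by positivity), one_mul]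
        calc D ^ (C2 + 3 * K + 1) * L * D ^ 9 = D ^ c * L := by
              have : c = (C2 + 3 * K + 1) + 9 := by omega
              rw [this, pow_add D (C2 + 3 * K + 1)]; ring
          _ ≤ D ^ c * (M / D ^ c) := mul_le_mul_of_nonneg_left hLle (by positivity)
          _ = M := by field_simp
      have h5 : 2 * Real.pi ≤ D ^ 3 := by
        have h6 : (8 : ℝ) ≤ D ^ 3 := by
          calc (8 : ℝ) = 2 ^ 3 := by norm_num
            _ ≤ D ^ 3 := pow_le_pow_left₀ (by norm_num) hD 3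
        have := Real.pi_lt_four
        linarith
      calc 2 * Real.pi * _ ≤ D ^ 3 * (1 / D ^ 9) := by
            refine mul_le_mul h5 (hz.trans h3) (abs_nonneg _) (by positivity)
        _ = 1 / D ^ 6 := by field_simp
        _ ≤ 1 / (4 * D) := by
            refine div_le_div_of_nonneg_left (by norm_num) (by positivity) ?_
            calc 4 * D ≤ D ^ 2 * D := mul_le_mul_of_nonneg_right h4 hD0.le
              _ = D ^ 3 := by ring
              _ ≤ D ^ 6 := pow_le_pow_right₀ hD1 (by norm_num)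
    refine (Finset.sum_le_card_nsmul _ _ _ h1).trans ?_
    rw [card_range, nsmul_eq_mul]
  have hGL : (L : ℝ) ≤ 4 * D * ‖G‖ := by
    have h1 : ‖∑ m ∈ range L, ee (∑ j ∈ Icc 1 (K + 1), a j * ((n0 + Q * m : ℕ) : ℝ) ^ j)‖ ≤
        ‖G‖ + L * (1 / (4 * D)) := by
      have h2 := norm_le_norm_add_norm_sub'
        (∑ m ∈ range L, ee (∑ j ∈ Icc 1 (K + 1), a j * ((n0 + Q * m : ℕ) : ℝ) ^ j))
        (ee (∑ j ∈ Icc 1 (K + 1), a j * (n0 : ℝ) ^ j) * G)
      rw [norm_mul, norm_ee, one_mul] at h2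
      linarith
    have h3 : 2 * D * ‖∑ m ∈ range L, ee (∑ j ∈ Icc 1 (K + 1), a j * ((n0 + Q * m : ℕ) : ℝ) ^ j)‖ ≤
        2 * D * (‖G‖ + L * (1 / (4 * D))) := mul_le_mul_of_nonneg_left h1 (by positivity)
    have h4 : 2 * D * (‖G‖ + L * (1 / (4 * D))) = 2 * D * ‖G‖ + L / 2 := by
      field_simp; ring
    linarith
  have hgeom := geom (Q * a 1) L
  rw [← hG] at hgeom
  refine ⟨round ((Q : ℝ) * a 1), ?_⟩
  set β := |(Q : ℝ) * a 1 - round ((Q : ℝ) * a 1)| with hβ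
  have hβ0 : 0 ≤ β := abs_nonneg _
  have h1 : (L : ℝ) * (2 * β) ≤ 4 * D := by
    have h2 : (L : ℝ) * (2 * β) ≤ 4 * D * ‖G‖ * (2 * β) :=
      mul_le_mul_of_nonneg_right hGL (by positivity)
    have h3 : 4 * D * (‖G‖ * (2 * β)) ≤ 4 * D * 1 := mul_le_mul_of_nonneg_left hgeom (by positivity)
    linarith
  have h2 : (M : ℝ) / (2 * D ^ c) * (2 * β) ≤ 4 * D :=
    (mul_le_mul_of_nonneg_right hLge (by positivity)).trans h1
  rw [pow_one, le_div_iff₀ hM0]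
  have h3 : (M : ℝ) / (2 * D ^ c) * (2 * β) = β * M / D ^ c := by field_simp
  rw [h3, div_le_iff₀ (by positivity)] at h2
  calc β * M ≤ 4 * D * D ^ c := h2
    _ ≤ D ^ 2 * D * D ^ c := by
        refine mul_le_mul_of_nonneg_right ?_ (by positivity)
        exact mul_le_mul_of_nonneg_right h4 hD0.le
    _ = D ^ (c + 3) := by rw [pow_add]; ring
    _ ≤ D ^ (c + 4) := pow_le_pow_right₀ hD1 (by omega)

theorem wProp_all : ∀ k, WProp k := by
  intro k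
  induction k with
  | zero =>
    refine ⟨0, fun D M a hD hM _ => ⟨1, le_rfl, by simp, fun j hj => ?_⟩⟩
    rw [mem_Icc] at hj
    omega
  | succ K ih =>
    obtain ⟨C1, hC1⟩ := data_exists K ih
    obtain ⟨C2, hC2⟩ := descend K C1 K le_rfl
    obtain ⟨C3, hC23, hC3⟩ := linear_step K C2
    refine ⟨C3 * (K + 1) + C3, fun D M a hD hM hS => ?_⟩
    have hD1 : (1 : ℝ) ≤ D := by linarith
    have hD0 : (0 : ℝ) < D := by linarith
    have hM0 : (0 : ℝ) < M := by exact_mod_cast hM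
    have htriv : (M : ℝ) ≤ D ^ C3 → ∃ q : ℕ, 1 ≤ q ∧ (q : ℝ) ≤ D ^ (C3 * (K + 1) + C3) ∧
        ∀ j ∈ Icc 1 (K + 1), ∃ z : ℤ, |q * a j - z| ≤ D ^ (C3 * (K + 1) + C3) / (M : ℝ) ^ j := by
      intro hMC
      refine ⟨1, le_rfl, by rw [Nat.cast_one]; exact one_le_pow₀ hD1, fun j hj => ?_⟩
      refine ⟨round (a j), ?_⟩
      rw [Nat.cast_one, one_mul]
      refine (abs_sub_round (a j)).trans ?_
      rw [le_div_iff₀ (by positivity)]
      have h1 : (M : ℝ) ^ j ≤ D ^ (C3 * (K + 1) + C3) := by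
        calc (M : ℝ) ^ j ≤ (D ^ C3) ^ j := pow_le_pow_left₀ hM0.le hMC j
          _ = D ^ (C3 * j) := (pow_mul _ _ _).symm
          _ ≤ D ^ (C3 * (K + 1) + C3) := by
              refine pow_le_pow_right₀ hD1 ?_
              have := Nat.mul_le_mul_left C3 (mem_Icc.1 hj).2
              omega
      have h2 : (0 : ℝ) ≤ (M : ℝ) ^ j := by positivity
      linarith
    obtain ⟨q, H, hd⟩ := hC1 D M a hD hM hS
    rcases hC2 D M a q H hd with h | ⟨Q, hQ1, hQ2, hQ3⟩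
    · exact htriv (h.trans (pow_le_pow_right₀ hD1 hC23))
    have hQ3' : ∀ j ∈ Icc 2 (K + 1), ∃ z : ℤ, |Q * a j - z| ≤ D ^ C2 / (M : ℝ) ^ j := by
      intro j hj
      refine hQ3 j ?_
      rw [mem_Icc] at hj ⊢
      omega
    rcases hC3 D M a Q hD hM hS hQ1 hQ2 hQ3' with h | ⟨z1, hz1⟩
    · exact htriv h
    refine ⟨Q, hQ1, hQ2.trans (pow_le_pow_right₀ hD1 (by omega)), fun j hj => ?_⟩
    rw [mem_Icc] at hj
    rcases eq_or_lt_of_le hj.1 with h1 | h1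
    · refine ⟨z1, ?_⟩
      rw [← h1]
      refine hz1.trans (div_le_div_of_nonneg_right ?_ (by positivity))
      exact pow_le_pow_right₀ hD1 (by omega)
    · obtain ⟨z, hz⟩ := hQ3' j (mem_Icc.2 ⟨h1, hj.2⟩)
      refine ⟨z, hz.trans (div_le_div_of_nonneg_right ?_ (by positivity))⟩
      exact pow_le_pow_right₀ hD1 (by omega)

end WeylAux

open WeylAux in
theorem weyl_inverse (k : ℕ) (hk : 1 ≤ k) : ∃ C : ℕ, 1 ≤ C ∧
    ∀ (δ : ℝ) (M : ℕ) (a : ℕ → ℝ), 0 < δ → δ ≤ 1 → 1 ≤ M →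
    δ * M ≤ ‖∑ n ∈ Finset.Icc 1 M, ee (∑ j ∈ Finset.Icc 1 k, a j * (n : ℝ) ^ j)‖ →
    ∃ q : ℕ, 1 ≤ q ∧ (q : ℝ) ≤ (2 / δ) ^ C ∧
      ∀ j ∈ Finset.Icc 1 k, ∃ z : ℤ, |q * a j - z| ≤ (2 / δ) ^ C / (M : ℝ) ^ j := by
  obtain ⟨C, hC⟩ := wProp_all k
  refine ⟨C + 1, by omega, fun δ M a hδ0 hδ1 hM hS => ?_⟩
  have hD : 2 ≤ 2 / δ := by
    rw [le_div_iff₀ hδ0]
    linarith
  have hD1 : (1 : ℝ) ≤ 2 / δ := by linarith
  obtain ⟨q, hq1, hq2, hq3⟩ := hC (2 / δ) M a hD hM (by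
    rw [div_mul_eq_mul_div, le_div_iff₀ hδ0]
    have := norm_nonneg (∑ n ∈ Finset.Icc 1 M, ee (∑ j ∈ Finset.Icc 1 k, a j * (n : ℝ) ^ j))
    linarith)
  refine ⟨q, hq1, hq2.trans (pow_le_pow_right₀ hD1 (by omega)), fun j hj => ?_⟩
  obtain ⟨z, hz⟩ := hq3 j hj
  refine ⟨z, hz.trans (div_le_div_of_nonneg_right ?_ (by positivity))⟩
  exact pow_le_pow_right₀ hD1 (by omega)

end Vale.Agent.P042
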